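import Vale.Agent.P352.ND.C7a
import Vale.Agent.P352.H746.Nrt
import Vale.Agent.P352.H15.NPDefs

/-!
# P352 ND: symmetric operators that commute with the generators commute with null rotations
-/

set_option linter.all false

noncomputable section

open MeasureTheory Filter Topology

namespace Vale.Agent.P352.ND

open GF (Ix V Fn Fld Theory IsLor bas eta o sim)
open H246 H496 H755 H15 H746

variable {D : Type*} [NormedAddCommGroup D] [InnerProductSpace ℂ D]
variable {Q : GF.Theory D} {A : (V → V) → D → D}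

lemma nrt_zero (n w : V) : nrt n ((0 : ℝ) • w) = GF.one := by
  funext m
  rw [nrt_row, sim_nrt]
  simp [GF.one, GF.mdot]

lemma nrt_comp {n w : V} (hn : IsNull n) (hw : GF.mdot n w = 0) (s t : ℝ) (x : V) :
    sim 1 (nrt n (s • w)) 0 (sim 1 (nrt n (t • w)) 0 x) = sim 1 (nrt n ((s + t) • w)) 0 x := by
  have h3 : GF.mdot w n = 0 := by rw [gm_comm, hw]
  have h2 : ∀ (c : ℝ) (y z : V), GF.mdot (c • y) z = c * GF.mdot y z := by
    intro c y z; rw [gm_comm, gm_smul, gm_comm z y]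
  rw [sim_nrt, sim_nrt, sim_nrt]
  simp only [gm_add, gm_sub, gm_smul, h2, hw, h3, hn.1]
  funext k
  simp only [Pi.sub_apply, Pi.add_apply, Pi.smul_apply, smul_eq_mul]
  ring

/-- the velocity field of the null rotations `nrt n (t w)` -/
def Nx (n w : V) : V → V := fun z => (2 * GF.mdot n z) • w - (2 * GF.mdot w z) • n

lemma Nx_sim (n w : V) : IsSim 0 (Nx n w) := by
  refine ⟨0, fun m k => eta m * (2 * n m * w k - 2 * w m * n k), fun m k => by ring,
    fun z k => ?_⟩
  simp only [Nx, GF.mdot, Fin.sum_univ_four, Pi.sub_apply, Pi.smul_apply, smul_eq_mul,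
    Pi.zero_apply]
  ring

lemma hd_poly (z p q : ℝ) : HasDerivAt (fun s : ℝ => z + s * p + s ^ 2 * q) p 0 := by
  have h1 := (((hasDerivAt_id (0 : ℝ)).mul_const p).const_add z).add
    ((hasDerivAt_pow 2 (0 : ℝ)).mul_const q)
  refine (h1.congr_deriv (by simp)).congr_of_eventuallyEq (Eventually.of_forall fun s => ?_)
  simp

/-- the one parameter group of the null rotations -/
theorem flow_nrt (R : Rep Q A) {n w : V} (hn : IsNull n) (hw : GF.mdot n w = 0) :
    Flow (fun t : ℝ => Q.U 1 (nrt n (t • w)) 0) (A (Nx n w)) := by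
  have hws : ∀ s : ℝ, GF.mdot n (s • w) = 0 := fun s => by rw [gm_smul, hw, mul_zero]
  have hL : ∀ s : ℝ, IsLor (nrt n (s • w)) := fun s => isLor_nrt hn (hws s)
  refine ⟨fun v => ?_, fun s t v => ?_, fun t v u => ?_, fun v => ?_⟩
  · show Q.U 1 (nrt n ((0 : ℝ) • w)) 0 v = v
    rw [nrt_zero]
    exact U1_zero_all (Q := Q) v
  · show Q.U 1 (nrt n (s • w)) 0 (Q.U 1 (nrt n (t • w)) 0 v) = Q.U 1 (nrt n ((s + t) • w)) 0 v
    rw [R.mul 1 _ 0 1 _ 0 v one_pos one_pos (hL s) (hL t), one_mul]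
    have e1 : (fun m => sim 1 (nrt n (s • w)) 0 (nrt n (t • w) m)) = nrt n ((s + t) • w) := by
      funext m
      rw [nrt_row n (t • w) m, nrt_comp hn hw, ← nrt_row]
    have e2 : sim 1 (nrt n (s • w)) 0 0 = 0 := by
      funext k
      simp [sim]
    rw [e1, e2]
  · exact Q.U_inner 1 _ 0 v u one_pos (hL t)
  · refine R.der (fun _ => 1) (fun t => nrt n (t • w)) (fun _ => 0) (Nx n w) v rfl
      (nrt_zero n w) rfl (fun e => ⟨one_pos, hL e⟩) (fun k z => ?_)
    have e : (fun s : ℝ => sim 1 (nrt n (s • w)) 0 z k) =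
        fun s : ℝ => z k + s * (2 * GF.mdot n z * w k - 2 * GF.mdot w z * n k) +
          s ^ 2 * (-(2 * GF.mdot w w * GF.mdot n z) * n k) := by
      have h2 : ∀ (c : ℝ) (y z : V), GF.mdot (c • y) z = c * GF.mdot y z := by
        intro c y z; rw [gm_comm, gm_smul, gm_comm z y]
      funext s
      rw [sim_nrt, h2, gm_smul, h2]
      simp only [Pi.sub_apply, Pi.add_apply, Pi.smul_apply, smul_eq_mul]
      ring
    have e2 : Nx n w z k = 2 * GF.mdot n z * w k - 2 * GF.mdot w z * n k := by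
      simp only [Nx, Pi.sub_apply, Pi.smul_apply, smul_eq_mul]
    rw [e, e2]
    exact hd_poly _ _ _

/-- **symmetric operators that commute with the generators commute with the null rotations** -/
theorem com_nrt (R : Rep Q A) {B : D → D} (hB : ∀ v w, inner ℂ (B v) w = inner ℂ v (B w))
    (hc : ∀ X v, IsSim 0 X → B (A X v) = A X (B v)) {n w : V} (hn : IsNull n)
    (hw : GF.mdot n w = 0) (t : ℝ) (v : D) :
    B (Q.U 1 (nrt n (t • w)) 0 v) = Q.U 1 (nrt n (t • w)) 0 (B v) :=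
  int_com (U := fun t : ℝ => Q.U 1 (nrt n (t • w)) 0)
    ⟨flow_nrt R hn hw, hB, fun v => hc _ v (Nx_sim n w)⟩ t v

/-- null vectors `e_0 + e_i` -/
def ni (i : Fin 3) : V := bas o 1 + bas i.succ 1

lemma mdot_ni (i : Fin 3) (a : V) : GF.mdot (ni i) a = a 0 - a i.succ := by
  fin_cases i <;> simp [ni, GF.mdot, Fin.sum_univ_four, bas, eta, o] <;> ring

lemma ni_null (i : Fin 3) : IsNull (ni i) := by
  refine ⟨?_, ?_⟩
  · rw [mdot_ni]
    fin_cases i <;> simp [ni, bas, o]
  · fin_cases i <;> simp [ni, bas, o]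

lemma null_eq {a : V} (ha : IsNull a) : a 0 * a 0 = a 1 * a 1 + a 2 * a 2 + a 3 * a 3 := by
  have h1 := ha.1
  have h2 : GF.mdot a a = a 0 * a 0 - a 1 * a 1 - a 2 * a 2 - a 3 * a 3 := by
    simp [GF.mdot, Fin.sum_univ_four, GF.eta, o]
    ring
  rw [h2] at h1
  linarith

lemma ni_nonneg (i : Fin 3) {a : V} (ha : IsNull a) : 0 ≤ GF.mdot (ni i) a := by
  have h1 := null_eq ha
  have h2 : 0 < a 0 := ha.2
  rw [mdot_ni]
  fin_cases i
  · show 0 ≤ a 0 - a 1
    nlinarith [sq_nonneg (a 2), sq_nonneg (a 3)]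
  · show 0 ≤ a 0 - a 2
    nlinarith [sq_nonneg (a 1), sq_nonneg (a 3)]
  · show 0 ≤ a 0 - a 3
    nlinarith [sq_nonneg (a 1), sq_nonneg (a 2)]

/-- a null vector is parallel to at most one of the vectors `e_0 + e_i` -/
lemma ni_uniq {a : V} (ha : IsNull a) {i j : Fin 3} (hi : GF.mdot (ni i) a = 0)
    (hj : GF.mdot (ni j) a = 0) : i = j := by
  have h1 := null_eq ha
  have h2 : 0 < a 0 := ha.2
  rw [mdot_ni] at hi hj
  by_contra hne
  fin_cases i <;> fin_cases j <;> simp at hi hj hne <;>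
    nlinarith [sq_nonneg (a 1), sq_nonneg (a 2), sq_nonneg (a 3)]

lemma exists_ni {a a' : V} (ha : IsNull a) (ha' : IsNull a') :
    ∃ n, IsNull n ∧ 0 < GF.mdot n a ∧ 0 < GF.mdot n a' := by
  by_contra hne
  push Not at hne
  have h : ∀ i : Fin 3, GF.mdot (ni i) a = 0 ∨ GF.mdot (ni i) a' = 0 := by
    intro i
    rcases (ni_nonneg i ha).eq_or_lt with h1 | h1
    · exact Or.inl h1.symm
    · right
      exact le_antisymm (hne _ (ni_null i) h1) (ni_nonneg i ha')
  rcases h 0 with h0 | h0 <;> rcases h 1 with h1 | h1 <;> rcases h 2 with h2 | h2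
  · exact absurd (ni_uniq ha h0 h1) (by decide)
  · exact absurd (ni_uniq ha h0 h1) (by decide)
  · exact absurd (ni_uniq ha h0 h2) (by decide)
  · exact absurd (ni_uniq ha' h1 h2) (by decide)
  · exact absurd (ni_uniq ha h1 h2) (by decide)
  · exact absurd (ni_uniq ha' h0 h2) (by decide)
  · exact absurd (ni_uniq ha' h0 h1) (by decide)
  · exact absurd (ni_uniq ha' h0 h1) (by decide)

/-- null rotations map every null direction to every other one -/
theorem exists_nrt {a a' : V} (ha : IsNull a) (ha' : IsNull a') :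
    ∃ (n w : V) (r : ℝ), IsNull n ∧ GF.mdot n w = 0 ∧ 0 < r ∧ sim 1 (nrt n w) 0 a = r • a' := by
  obtain ⟨n, hn, hp, hp'⟩ := exists_ni ha ha'
  set p : ℝ := GF.mdot n a with hpd
  set p' : ℝ := GF.mdot n a' with hpd'
  have hp0 : p ≠ 0 := hp.ne'
  have hp0' : p' ≠ 0 := hp'.ne'
  have h1 : ∀ (x y z : V), GF.mdot (x - y) z = GF.mdot x z - GF.mdot y z := by
    intro x y z; rw [gm_comm, gm_sub, gm_comm z x, gm_comm z y]
  have h2 : ∀ (c : ℝ) (y z : V), GF.mdot (c • y) z = c * GF.mdot y z := by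
    intro c y z; rw [gm_comm, gm_smul, gm_comm z y]
  set w : V := (2 * p)⁻¹ • ((p / p') • a' - a) with hw
  refine ⟨n, w, p / p', hn, ?_, div_pos hp hp', ?_⟩
  · rw [hw, gm_smul, gm_sub, gm_smul, ← hpd, ← hpd']
    field_simp
    ring
  · have e1 : GF.mdot w a = (2 * p)⁻¹ * (p / p' * GF.mdot a' a) := by
      rw [hw, h2, h1, h2, ha.1, sub_zero]
    have e2 : GF.mdot w w = (2 * p)⁻¹ * ((2 * p)⁻¹ * (-(2 * (p / p' * GF.mdot a' a)))) := by
      rw [hw, h2, gm_smul, h1, gm_sub, gm_sub, h2, h2, gm_smul, ha.1, ha'.1, gm_smul,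
        gm_comm a a']
      ring
    rw [sim_nrt, e1, e2, ← hpd, hw]
    funext k
    simp only [Pi.sub_apply, Pi.add_apply, Pi.smul_apply, smul_eq_mul]
    field_simp
    ring

end Vale.Agent.P352.ND

end
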