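import Vale.Agent.P352.ND.F5

/-!
# P352 ND: the generators `K` are bounded by polynomials on the translates of a vector
-/

set_option linter.all false

noncomputable section

open MeasureTheory SchwartzMap Complex Filter Topology
open scoped SchwartzMap ComplexConjugate ContDiff LineDeriv

namespace Vale.Agent.P352.ND

open GF (Ix V Fn Fld Theory Sch IsLor bas o sim pd tr ev bar)
open H246 H496 H755 H15 H746
open H731 (KC)
open H148 (XK isSim_XK)

variable {D : Type*} [NormedAddCommGroup D] [InnerProductSpace ℂ D]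
variable {Q : GF.Theory D} {A : (V → V) → D → D}

lemma bd_zero (R : H15.Rep Q A) (v : D) : A (fun _ => 0) v = 0 := by
  have h0 : IsSim 0 (fun _ => (0 : V)) := const_sim 0
  have := R.add 0 0 1 (fun _ => 0) (fun _ => 0) v h0 h0
  simpa using this

/-- the coordinate vectors -/
def be (k : Ix) : V := Pi.single k 1

/-- linear families of generators grow linearly -/
lemma bd_lin (R : H15.Rep Q A) {Φ : V → V → V} (hΦ : ∀ x, ∃ r, IsSim r (Φ x))
    (hadd : ∀ x y (c : ℝ), Φ (x + c • y) = fun z => Φ x z + c • Φ y z) (v : D) :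
    ∃ C : ℝ, 0 ≤ C ∧ ∀ x, ‖A (Φ x) v‖ ≤ C * ‖x‖ := by
  have h0 : A (Φ 0) v = 0 := by
    have e1 : Φ 0 = fun _ => 0 := by
      have h1 := hadd 0 0 (-1)
      rw [smul_zero, add_zero] at h1
      funext z
      have h2 := congrFun h1 z
      rw [h2, neg_one_smul, add_neg_cancel]
    rw [e1]
    exact bd_zero R v
  have hstep : ∀ x y (c : ℝ), A (Φ (x + c • y)) v = A (Φ x) v + (c : ℂ) • A (Φ y) v := by
    intro x y c
    obtain ⟨r, hr⟩ := hΦ x
    obtain ⟨r', hr'⟩ := hΦ y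
    rw [hadd, R.add r r' c _ _ v hr hr']
  have hexp : ∀ x : V, A (Φ x) v = ∑ k, (x k : ℂ) • A (Φ (be k)) v := by
    intro x
    have e : x = 0 + x 0 • be 0 + x 1 • be 1 + x 2 • be 2 + x 3 • be 3 := by
      funext n
      fin_cases n <;> simp [be]
    have h1 : A (Φ x) v = A (Φ (0 + x 0 • be 0 + x 1 • be 1 + x 2 • be 2 + x 3 • be 3)) v := by
      rw [← e]
    rw [h1, hstep, hstep, hstep, hstep, h0, Fin.sum_univ_four]
    abel
  refine ⟨∑ k, ‖A (Φ (be k)) v‖, Finset.sum_nonneg fun k _ => norm_nonneg _, fun x => ?_⟩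
  rw [hexp, Finset.sum_mul]
  refine (norm_sum_le _ _).trans (Finset.sum_le_sum fun k _ => ?_)
  rw [norm_smul, Complex.norm_real, mul_comm]
  exact mul_le_mul_of_nonneg_left (norm_le_pi_norm x k) (norm_nonneg _)

lemma bd_mdot (a x : V) : |GF.mdot a x| ≤ (∑ k, |a k|) * ‖x‖ := by
  have h : GF.mdot a x = ∑ k, GF.eta k * a k * x k := rfl
  rw [h, Finset.sum_mul]
  refine (Finset.abs_sum_le_sum_abs _ _).trans (Finset.sum_le_sum fun k _ => ?_)
  rw [abs_mul, abs_mul]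
  have h1 : |GF.eta k| = 1 := by
    unfold GF.eta
    split_ifs <;> simp
  rw [h1, one_mul]
  exact mul_le_mul_of_nonneg_left (norm_le_pi_norm x k) (abs_nonneg _)

lemma bd_mdot2 (x : V) : |GF.mdot x x| ≤ 4 * ‖x‖ ^ 2 := by
  refine (bd_mdot x x).trans ?_
  have h : ∑ k, |x k| ≤ 4 * ‖x‖ := by
    have h1 : ∑ k : Ix, |x k| ≤ ∑ k : Ix, ‖x‖ := Finset.sum_le_sum fun k _ => norm_le_pi_norm x k
    refine h1.trans ?_
    simp
  nlinarith [norm_nonneg x]

/-- the generators `A (XX a x)` grow quadratically -/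
theorem ax_bdd (R : H15.Rep Q A) (a : V) (v : D) :
    ∃ C : ℝ, 0 ≤ C ∧ ∀ x, ‖A (XX a x) v‖ ≤ C * (1 + ‖x‖) ^ 2 := by
  obtain ⟨C1, hC1, h1⟩ := bd_lin R (Φ := fun x z => -(2 * GF.mdot a x) • z +
      (2 * GF.mdot x z) • a - (2 * GF.mdot a z) • x) (fun x => by
      refine ⟨-(2 * GF.mdot a x), 0, fun m n => 2 * GF.eta m * (x m * a n - a m * x n),
        fun m n => by ring, fun z n => ?_⟩
      simp only [Pi.add_apply, Pi.sub_apply, Pi.smul_apply, Pi.zero_apply, smul_eq_mul, GF.mdot,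
        Fin.sum_univ_four]
      ring) (fun x y c => by
      funext z n
      simp only [Pi.add_apply, Pi.sub_apply, Pi.smul_apply, smul_eq_mul, GF.mdot,
        Fin.sum_univ_four]
      ring) v
  obtain ⟨C2, hC2, h2⟩ := bd_lin R (Φ := fun x _ => x) (fun x => ⟨0, const_sim x⟩)
    (fun x y c => by funext z; rfl) v
  have e : ∀ x, A (XX a x) v = A (fun z => -(2 * GF.mdot a x) • z + (2 * GF.mdot x z) • a -
      (2 * GF.mdot a z) • x) v + A (fun _ => cK a x) v := by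
    intro x
    rw [← H755.A_addX R v (r := -(2 * GF.mdot a x)) (r' := 0)]
    · refine congrArg (fun X => A X v) (funext fun z => ?_)
      funext n
      simp only [XX, cK, Pi.add_apply, Pi.sub_apply, Pi.smul_apply, smul_eq_mul]
    · refine ⟨0, fun m n => 2 * GF.eta m * (x m * a n - a m * x n),
        fun m n => by ring, fun z n => ?_⟩
      simp only [Pi.add_apply, Pi.sub_apply, Pi.smul_apply, Pi.zero_apply, smul_eq_mul, GF.mdot,
        Fin.sum_univ_four]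
      ring
    · exact const_sim _
  have hcK : ∀ x, ‖cK a x‖ ≤ (2 * (∑ k, |a k|) + 4 * ‖a‖) * ‖x‖ ^ 2 := by
    intro x
    unfold cK
    refine (norm_sub_le _ _).trans ?_
    rw [norm_smul, norm_smul, Real.norm_eq_abs, Real.norm_eq_abs, abs_mul, abs_two]
    have h3 := bd_mdot a x
    have h4 := bd_mdot2 x
    have h5 : 2 * |GF.mdot a x| * ‖x‖ ≤ 2 * ((∑ k, |a k|) * ‖x‖) * ‖x‖ :=
      mul_le_mul_of_nonneg_right (by linarith) (norm_nonneg _)
    have h6 : |GF.mdot x x| * ‖a‖ ≤ 4 * ‖x‖ ^ 2 * ‖a‖ :=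
      mul_le_mul_of_nonneg_right h4 (norm_nonneg _)
    nlinarith
  set M : ℝ := 2 * (∑ k, |a k|) + 4 * ‖a‖ with hM
  have hM0 : 0 ≤ M := by
    have : 0 ≤ ∑ k, |a k| := Finset.sum_nonneg fun k _ => abs_nonneg _
    positivity
  refine ⟨C1 + C2 * M, by positivity, fun x => ?_⟩
  have hx := norm_nonneg x
  rw [e]
  refine (norm_add_le _ _).trans ?_
  have h7 : ‖A (fun _ => cK a x) v‖ ≤ C2 * (M * ‖x‖ ^ 2) :=
    (h2 (cK a x)).trans (mul_le_mul_of_nonneg_left (hcK x) hC2)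
  have h8 := h1 x
  have h9 : C1 * ‖x‖ ≤ C1 * (1 + ‖x‖) ^ 2 := mul_le_mul_of_nonneg_left (by nlinarith) hC1
  have h10 : C2 * (M * ‖x‖ ^ 2) ≤ C2 * M * (1 + ‖x‖) ^ 2 := by
    rw [← mul_assoc]
    exact mul_le_mul_of_nonneg_left (by nlinarith) (by positivity)
  nlinarith

/-- operators with the translation law of special conformal generators up to a charge are bounded
by polynomials on the translates of a vector -/
theorem lb_tra (R : H15.Rep Q A) {a : V} {K C : D → D} (htra : ∀ x v,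
    Q.U 1 GF.one x (K (Q.U 1 GF.one (-x) v)) = K v + A (XX a x) v -
      ((2 * GF.mdot a x : ℝ) : ℂ) • C v) (v : D) :
    ∃ (M : ℝ) (m : ℕ), ∀ x, ‖K (Q.U 1 GF.one x v)‖ ≤ M * (1 + ‖x‖) ^ m := by
  obtain ⟨C1, hC1, h1⟩ := ax_bdd R a v
  have h0 : 0 ≤ ∑ k, |a k| := Finset.sum_nonneg fun k _ => abs_nonneg _
  refine ⟨‖K v‖ + C1 + 2 * (∑ k, |a k|) * ‖C v‖, 2, fun x => ?_⟩
  have hx := norm_nonneg x
  have e1 := htra (-x) v
  rw [neg_neg] at e1
  have e2 : ‖K (Q.U 1 GF.one x v)‖ = ‖Q.U 1 GF.one (-x) (K (Q.U 1 GF.one x v))‖ :=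
    (U_nrm one_pos isLor_one _ _).symm
  rw [e2, e1]
  refine (norm_sub_le _ _).trans ?_
  have h2 := norm_add_le (K v) (A (XX a (-x)) v)
  have h3 := h1 (-x)
  rw [norm_neg] at h3
  have h4 : ‖((2 * GF.mdot a (-x) : ℝ) : ℂ) • C v‖ ≤ 2 * (∑ k, |a k|) * ‖C v‖ * (1 + ‖x‖) ^ 2 := by
    rw [norm_smul, Complex.norm_real, Real.norm_eq_abs, abs_mul, abs_two]
    have h5 := bd_mdot a (-x)
    rw [norm_neg] at h5
    have h6 : 2 * |GF.mdot a (-x)| * ‖C v‖ ≤ 2 * ((∑ k, |a k|) * ‖x‖) * ‖C v‖ :=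
      mul_le_mul_of_nonneg_right (by linarith) (norm_nonneg _)
    have h7 : 2 * ((∑ k, |a k|) * ‖x‖) * ‖C v‖ ≤ 2 * (∑ k, |a k|) * ‖C v‖ * (1 + ‖x‖) ^ 2 := by
      have h8 : 0 ≤ 2 * (∑ k, |a k|) * ‖C v‖ := by positivity
      have h10 : ‖x‖ ≤ (1 + ‖x‖) ^ 2 := by nlinarith
      have h11 := mul_le_mul_of_nonneg_left h10 h8
      linarith
    linarith
  have h9 : ‖K v‖ ≤ ‖K v‖ * (1 + ‖x‖) ^ 2 := by
    have h10 : 1 ≤ (1 + ‖x‖) ^ 2 := by nlinarith
    have h11 := mul_le_mul_of_nonneg_left h10 (norm_nonneg (K v))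
    linarith
  linarith [h2, h3, h4, h9]

/-- bound for the operators `K` with charge `C` -/
theorem lb_kc {a : V} {K C : D → D} (k : KC Q A a K C) (v : D) :
    ∃ (M : ℝ) (m : ℕ), ∀ x, ‖K (Q.U 1 GF.one x v)‖ ≤ M * (1 + ‖x‖) ^ m :=
  lb_tra k.rep (fun x v => k.tra x v) v

end Vale.Agent.P352.ND

end
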