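import Vale.Agent.P352.ND.L0a

/-!
# P352 NG: null generators
-/

set_option linter.all false

noncomputable section

open MeasureTheory Filter Topology SchwartzMap Complex Set
open scoped SchwartzMap ComplexConjugate ContDiff

namespace Vale.Agent.P352.ND

open GF (Ix V Fn Fld Theory Sch IsLor bas o sim pd tr ev bar)
open H246 H496 H755 H15 H846 H246R H746 N86 NC
open UniformSpace (Completion)

variable {D : Type*} [NormedAddCommGroup D] [InnerProductSpace ℂ D]

/-- **Null generators.** Symmetric operators `G a` on `D`, one for every null vector `a`, that
transform under the Lorentz transformations, the dilations and the translations along the null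
hyperplanes `a·x = const` like the special conformal generators in the null directions, that are
bounded on the translates of every vector, and whose first order commutators with the fields
`T m n` and `J m` are local with respect to the null hyperplane `a·z = 0`. -/
structure NullGen (Q : GF.Theory D) (T : Ix → Ix → GF.Fld D) (J : Ix → GF.Fld D)
    (A : (V → V) → D → D) (G : V → D → D) : Prop extends NF.KS Q A G where
  bdd : LB Q G
  locT : ∀ m n, LocG Q G (T m n)
  locJ : ∀ m, LocG Q G (J m)

section

variable {Q : GF.Theory D} {T : Ix → Ix → GF.Fld D} {J : Ix → GF.Fld D}
variable {A : (V → V) → D → D} {G : V → D → D}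

/-- net locality for the stress tensor -/
theorem NullGen.netT (hT : Q.IsStress T) (h : NullGen Q T J A G) (m n : Ix) :
    NetL Q G (T m n) :=
  netL_ng (φ' := T m n) h.symm (Q.bose_fld _ (hT.bose m n))
    (fun f v w hf => hT.herm m n f v w hf) (h.locT m n)

/-- net locality for the virial current -/
theorem NullGen.netJ (hJ : IsVirial Q T J) (h : NullGen Q T J A G) (m : Ix) :
    NetL Q G (J m) :=
  netL_ng (φ' := J m) h.symm (Q.bose_fld _ (hJ.bose m))
    (fun f v w hf => hJ.herm m f v w hf) (h.locJ m)

end

end Vale.Agent.P352.ND

end
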