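import Vale.Agent.P352.H755.ChE
import Vale.Agent.P352.H846.Sm

/-!
# P352 ND, block A3: commutators with cut off Poincaré charges of a stress tensor do not depend on
the cutoff (port of H755/ChC, ChD to tensors with a trace)
-/

set_option linter.all false

noncomputable section

open MeasureTheory Filter Topology Set
open scoped ContDiff ComplexConjugate SchwartzMap

namespace Vale.Agent.P352.ND

open GF (Ix V Fn bas eta pd bar sim o)
open H246 H496 H15 H755
open SubConf (IsKil IsAdj)

variable {D : Type*} [NormedAddCommGroup D] [InnerProductSpace ℂ D] {Q : GF.Theory D}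
  {T : Ix → Ix → GF.Fld D} {B : GF.Fld D} {X X' : Ix → V → ℝ}

/-- infinitesimal Poincaré transformations -/
def IsPo (X : Ix → V → ℝ) : Prop := ∃ (c : V) (w : Ix → V),
  (∀ m n, eta n * w m n = -(eta m * w n m)) ∧ ∀ n x, X n x = c n + ∑ m, x m * w m n

lemma IsPo.cd (hX : IsPo X) (n : Ix) : ContDiff ℝ ∞ (X n) := by
  obtain ⟨c, w, -, h⟩ := hX
  have e : X n = fun x => c n + ∑ m, x m * w m n := funext fun x => h n x
  rw [e]
  have cx : ∀ m : Ix, ContDiff ℝ ∞ fun x : V => x m := fun m => contDiff_apply ℝ ℝ m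
  have h3 := cx 0
  have h4 := cx 1
  have h5 := cx 2
  have h6 := cx 3
  simp only [Fin.sum_univ_four]
  fun_prop

lemma po_line {c : V} {w : Ix → V} (h : ∀ n x, X n x = c n + ∑ m, x m * w m n) (m n : Ix) (x : V)
    (s : ℝ) : X n (x + bas m s) = X n x + s * w m n := by
  rw [h, h, add_assoc]
  congr 1
  simp only [Pi.add_apply, add_mul, Finset.sum_add_distrib]
  congr 1
  rw [Finset.sum_eq_single m]
  · simp [bas]
  · intro k _ hk
    simp [bas, hk]
  · intro hm; exact absurd (Finset.mem_univ m) hm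

/-- conservation of the current -/
lemma po_cons (hT : Q.IsStress T) (hX : IsPo X) {g : V → ℝ} (hg : Tst g) (v : D) :
    sm T (fun m n x => eta n * X n x * dr m g x) v = 0 := by
  have hXc := hX.cd
  obtain ⟨c, w, hw, h⟩ := hX
  have t0 : ∀ n, Tst fun x => eta n * X n x * g x := fun n =>
    tst_smul (contDiff_const.mul (hXc n)) hg
  have z0 := H846.sm_cons hT t0 v
  have t2 : ∀ m n, Tst fun x => (eta n * w m n) * g x := fun m n => tst_smul contDiff_const hg
  have z2 := H846.sm_anti hT t2 (fun m n x => by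
    have := hw m n
    linear_combination (g x) * this) v
  have e : (fun m n x => eta n * X n x * dr m g x) = fun m n x =>
      dr m (fun x => eta n * X n x * g x) x - (eta n * w m n) * g x := by
    funext m n x
    have h1 : HasDerivAt (fun s => X n (x + bas m s)) (w m n) 0 := by
      simp only [po_line h]
      have := ((hasDerivAt_id (0 : ℝ)).mul_const (w m n)).const_add (X n x)
      simpa using this
    have h2 := diff_line hg.1 m x
    have h3 := ((h1.const_mul (eta n)).mul h2).deriv
    have e0 : x + bas m 0 = x := by rw [bas_t, zero_smul, add_zero]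
    have h4 : dr m (fun x => eta n * X n x * g x) x = _ := h3
    rw [h4]
    simp only [e0]
    have h5 : dr m g x = deriv (fun s => g (x + bas m s)) 0 := rfl
    ring
  have hd : ∀ m n, Tst fun x => dr m (fun x => eta n * X n x * g x) x := fun m n => tst_dr (t0 n) m
  rw [e, H846.sm_sub hT hd t2, z0, z2, sub_zero]

lemma T_lin (hT : Q.IsStress T) {F G : V → ℝ} (hF : Tst F) (hG : Tst G) (c : ℝ) (m n : Ix) (v : D) :
    T m n (fun x => ((F x + c * G x : ℝ) : ℂ)) v =
      T m n (fun x => (F x : ℂ)) v + (c : ℂ) • T m n (fun x => (G x : ℂ)) v := by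
  have h := Q.lin (T m n) (fun x => (F x : ℂ)) (fun x => (G x : ℂ)) c v
    (Q.bose_fld _ (hT.bose m n)) (tstIs hF) (tstIs hG)
  have e : (fun x => ((F x + c * G x : ℝ) : ℂ)) =
      fun x => (F x : ℂ) + (c : ℂ) * (G x : ℂ) := by
    funext x; push_cast; ring
  rw [e, h]

lemma po_tst (hX : IsPo X) {g : V → ℝ} (hg : Tst g) (n : Ix) :
    Tst fun x => eta n * X n x * g x :=
  tst_smul (contDiff_const.mul (hX.cd n)) hg

/-- the commutator is additive in the cutoff -/
lemma pcom_add (hT : Q.IsStress T) (hB : Q.fld B) (hX : IsPo X) {f : Fn} (hf : GF.IsTest f)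
    {g g' : V → ℝ} (hg : Tst g) (hg' : Tst g') (c : ℝ) (v : D) :
    com T X (fun x => g x + c * g' x) B f v = com T X g B f v + (c : ℂ) • com T X g' B f v := by
  have h : ∀ n (v : D), T o n (fun x => (eta n * X n x * (g x + c * g' x) : ℝ)) v =
      T o n (fun x => (eta n * X n x * g x : ℝ)) v +
        (c : ℂ) • T o n (fun x => (eta n * X n x * g' x : ℝ)) v := by
    intro n v
    rw [← T_lin hT (po_tst hX hg n) (po_tst hX hg' n)]
    refine congrArg (fun f => T o n f v) ?_
    funext x
    congr 1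
    ring
  unfold com
  simp only [h, Finset.sum_add_distrib, ← Finset.smul_sum]
  rw [fadd hB hf, fsmul hB hf, smul_sub]
  abel

/-- the commutator vanishes for cutoffs at spacelike distance -/
lemma pcom_sep (hT : Q.IsStress T) (hB : Q.fld B) (hX : IsPo X) {f : Fn} (hf : GF.IsTest f)
    {g : V → ℝ} (hg : Tst g)
    (hs : ∀ x ∈ tsupport g, ∀ y ∈ tsupport f,
      GF.mdot (fun m => x m - y m) (fun m => x m - y m) < 0) (v : D) :
    com T X g B f v = 0 := by
  unfold com
  rw [fsum hB hf, ← Finset.sum_sub_distrib]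
  refine Finset.sum_eq_zero fun n _ => ?_
  rw [Q.loc (T o n) B _ f v (hT.bose o n) hB (tstIs (po_tst hX hg n)) hf, sub_self]
  intro x hx y hy
  refine hs x ?_ y hy
  have h1 : tsupport (fun x => ((eta n * X n x * g x : ℝ) : ℂ)) ⊆ tsupport g := by
    refine closure_mono fun z hz => ?_
    rw [Function.mem_support] at hz ⊢
    intro h
    exact hz (by rw [h]; simp)
  exact h1 hx

lemma pcom_time (hT : Q.IsStress T) (hB : Q.fld B) (hX : IsPo X) {f : Fn} (hf : GF.IsTest f)
    {β : ℝ → ℝ} (hβ : Tst β) {M R : ℝ} (hM : 0 ≤ M) (hR : 3 * M + 1 ≤ R)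
    (hβM : ∀ u, β u ≠ 0 → |u| ≤ M) (hfM : ∀ y ∈ tsupport f, ∀ i, |y i| ≤ M) (v : D) :
    com T X (fun x => deriv β (x o) * chi R x) B f v = 0 := by
  have hR0 : 0 < R := by linarith
  have hg := tst_prof hβ hR0
  set h : V → ℝ := fun x => β (x o) * chi R x with hh
  have e1 : (fun x => deriv β (x o) * chi R x) = dr o h := by
    funext x; rw [hh, dr_prof_o hβ]
  have hF : ∀ m n, Tst fun x => eta n * X n x * dr m h x := fun m n => po_tst hX (tst_dr hg m) n
  have key : ∀ u : D, ∑ n, T o n (fun x => (eta n * X n x * dr o h x : ℝ)) u =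
      -∑ m ∈ Finset.univ.erase o, ∑ n, T m n (fun x => (eta n * X n x * dr m h x : ℝ)) u := by
    intro u
    have h1 := po_cons hT hX hg u
    unfold sm at h1
    rw [← Finset.add_sum_erase _ _ (Finset.mem_univ o)] at h1
    exact eq_neg_of_add_eq_zero_left h1
  rw [e1]
  unfold com
  rw [key, key, fneg hB hf, fsum hB hf]
  rw [sub_neg_eq_add, neg_add_eq_zero]
  refine Finset.sum_congr rfl fun m hm => ?_
  rw [fsum hB hf]
  refine Finset.sum_congr rfl fun n _ => ?_
  have hmo : m ≠ o := Finset.ne_of_mem_erase hm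
  refine Q.loc (T m n) B _ f v (hT.bose m n) hB (tstIs (hF m n)) hf ?_
  intro x hx y hy
  have h2 : x ∈ Zf M R := by
    refine closure_minimal ?_ (isClosed_Zf M R) hx
    intro z hz
    rw [Function.mem_support] at hz
    have h3 : dr m h z ≠ 0 := fun h4 => hz (by rw [h4]; simp)
    obtain ⟨h5, h6⟩ := dr_prof hβ hR0 hmo h3
    exact ⟨hβM _ h5, h6⟩
  exact sp_far hM hR h2.1 h2.2 (hfM y hy)

/-- reduction of a cutoff to a product -/
lemma pcom_red (hT : Q.IsStress T) (hB : Q.fld B) (hX : IsPo X) {f : Fn} (hf : GF.IsTest f)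
    {g : V → ℝ} (hg : Tst g) {α : ℝ → ℝ} (hα : Tst α) {M R : ℝ} (hM : 0 ≤ M)
    (hR : 3 * M + 1 ≤ R) (hαM : ∀ u, α u ≠ 0 → |u| ≤ M)
    (hfM : ∀ y ∈ tsupport f, ∀ i, |y i| ≤ M)
    (hs : ∀ x ∈ closure {x | g x ≠ α (x o)}, ∀ y ∈ tsupport f,
      GF.mdot (fun m => x m - y m) (fun m => x m - y m) < 0) (v : D) :
    com T X g B f v = com T X (fun x => α (x o) * chi R x) B f v := by
  have hR0 : 0 < R := by linarith
  have hp := tst_prof hα hR0
  have hk : Tst fun x => g x + (-1) * (α (x o) * chi R x) :=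
    ⟨hg.1.add (contDiff_const.mul hp.1), hg.2.add hp.2.mul_left⟩
  have h0 := pcom_sep hT hB hX hf hk (fun x hx y hy => ?_) v
  · rw [pcom_add hT hB hX hf hg hp] at h0
    have h1 : com T X g B f v - com T X (fun x => α (x o) * chi R x) B f v = 0 := by
      rw [← h0]; push_cast; rw [neg_one_smul]; abel
    exact sub_eq_zero.1 h1
  · have h2 : x ∈ closure {x | g x ≠ α (x o)} ∪ Zf M R := by
      refine closure_minimal ?_ (isClosed_closure.union (isClosed_Zf M R)) hx
      intro z hz
      rw [Function.mem_support] at hz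
      by_cases hgz : g z = α (z o)
      · right
        have h3 : α (z o) * (1 - chi R z) ≠ 0 := by
          intro h4
          apply hz
          rw [hgz]
          linarith
        refine ⟨hαM _ (left_ne_zero_of_mul h3), ?_⟩
        by_contra hlt
        push Not at hlt
        exact right_ne_zero_of_mul h3 (by rw [chi_one hR0 hlt.le, sub_self])
      · left
        exact subset_closure hgz
    rcases h2 with h2 | h2
    · exact hs x h2 y hy
    · exact sp_far hM hR h2.1 h2.2 (hfM y hy)

/-- The commutator does not depend on the cutoff. -/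
theorem pcom_eq (hT : Q.IsStress T) (hB : Q.fld B) (hX : IsPo X) {f : Fn} (hf : H755.CS f) {S : Set V}
    (hS : tsupport f ⊆ S) {g g' : V → ℝ} (hg : Ok S g) (hg' : Ok S g') (v : D) :
    com T X g B f v = com T X g' B f v := by
  obtain ⟨h1, α, hα, hα1, h2⟩ := hg
  obtain ⟨h1', α', hα', hα1', h2'⟩ := hg'
  have hψ : Tst fun u => α u - α' u := ⟨hα.1.sub hα'.1, hα.2.sub hα'.2⟩
  have i1 : Integrable α := hα.1.continuous.integrable_of_hasCompactSupport hα.2
  have i2 : Integrable α' := hα'.1.continuous.integrable_of_hasCompactSupport hα'.2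
  obtain ⟨β, hβ, hβ'⟩ := prim_tst hψ (by rw [integral_sub i1 i2, hα1, hα1', sub_self])
  obtain ⟨M1, hM1, hM1'⟩ := supp_bd hα
  obtain ⟨M2, hM2, hM2'⟩ := supp_bd hα'
  obtain ⟨M3, hM3, hM3'⟩ := supp_bd hβ
  obtain ⟨M4, hM4⟩ := hf.2.isCompact.isBounded.subset_closedBall (0 : V)
  set M := M1 + M2 + M3 + |M4| with hMdef
  have hM : 0 ≤ M := by positivity
  have hfM : ∀ y ∈ tsupport f, ∀ i, |y i| ≤ M := by
    intro y hy i
    have h3 := hM4 hy
    rw [mem_closedBall_zero_iff] at h3
    have h4 := norm_le_pi_norm y i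
    have h5 := le_abs_self M4
    rw [Real.norm_eq_abs] at h4
    linarith
  have hM4' := abs_nonneg M4
  have k1 := pcom_red hT hB hX hf.1 h1 hα hM le_rfl (fun u hu => (hM1' u hu).trans (by linarith)) hfM
    (fun x hx y hy => h2 x hx y (hS hy)) v
  have k2 := pcom_red hT hB hX hf.1 h1' hα' hM le_rfl (fun u hu => (hM2' u hu).trans (by linarith))
    hfM (fun x hx y hy => h2' x hx y (hS hy)) v
  have k3 := pcom_time hT hB hX hf.1 hβ hM le_rfl (fun u hu => (hM3' u hu).trans (by linarith))
    hfM v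
  have hR0 : 0 < 3 * M + 1 := by linarith
  have e : (fun x : V => deriv β (x o) * chi (3 * M + 1) x) = fun x =>
      α (x o) * chi (3 * M + 1) x + (-1) * (α' (x o) * chi (3 * M + 1) x) := by
    funext x
    rw [hβ']
    ring
  rw [e, pcom_add hT hB hX hf.1 (tst_prof hα hR0) (tst_prof hα' hR0)] at k3
  rw [k1, k2]
  have h1 : com T X (fun x => α (x o) * chi (3 * M + 1) x) B f v -
      com T X (fun x => α' (x o) * chi (3 * M + 1) x) B f v = 0 := by
    rw [← k3]; push_cast; rw [neg_one_smul]; abel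
  exact sub_eq_zero.1 h1

end Vale.Agent.P352.ND

end
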