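import Vale.Agent.P352.H746.Flow3
import Vale.Agent.P352.H755.Pf

/-!
# P352 ND, block A3: the dilated vectors `U(R) T(f) Ω` tend weakly to zero
-/

set_option linter.all false

noncomputable section

open MeasureTheory SchwartzMap Complex Filter Topology
open scoped SchwartzMap ComplexConjugate ENNReal LineDeriv

namespace Vale.Agent.P352.ND

open GF (Ix V Fn Sch ev pd bar sim o bas)
open H246 H496 H15 H755 H746
open UniformSpace (Completion)

variable {D : Type*} [NormedAddCommGroup D] [InnerProductSpace ℂ D] {Q : GF.Theory D}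
  {T : Ix → Ix → GF.Fld D} {A : (V → V) → D → D}

/-- dilations of the stress tensor -/
lemma T_dil (hT : Q.IsStress T) {s : ℝ} (hs : 0 < s) (m n : Ix) (k : 𝓢(Mink, ℂ)) (v : D) :
    T m n (fl k) (Q.U s GF.one 0 v) = Q.U s GF.one 0 (T m n (fl (scaleS s hs.ne' k)) v) := by
  have h := hT.cov m n s GF.one 0 (fl k) v hs isLor_one (isTest_fl k)
  rw [fl_sim s hs isLor_one, simS_scale] at h
  rw [h, Finset.sum_eq_single m, Finset.sum_eq_single n]
  · simp [GF.one, bas]
  · intro l _ hl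
    have : (GF.one l : V) n = 0 := by simp [GF.one, bas, Ne.symm hl]
    rw [this]
    simp
  · intro h; exact absurd (Finset.mem_univ _) h
  · intro l _ hl
    have : (GF.one l : V) m = 0 := by simp [GF.one, bas, Ne.symm hl]
    rw [this]
    simp
  · intro h; exact absurd (Finset.mem_univ _) h

lemma nUs {s : ℝ} (hs : 0 < s) (v : D) : ‖Q.U s GF.one 0 v‖ = ‖v‖ := by
  have h5 := Q.U_inner s GF.one 0 v v hs isLor_one
  rw [inner_self_eq_norm_sq_to_K, inner_self_eq_norm_sq_to_K] at h5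
  have h6 : ‖Q.U s GF.one 0 v‖ ^ 2 = ‖v‖ ^ 2 := by exact_mod_cast h5
  exact (pow_left_inj₀ (norm_nonneg _) (norm_nonneg _) (by norm_num)).1 h6

lemma a3_mft0 (k : 𝓢(Mink, ℂ)) : mft k 0 = ∫ x, k x := by
  unfold mft
  congr 1
  ext x
  simp [mdot]

/-- translation invariant vectors are orthogonal to `T(f)Ω` -/
lemma inv_orth (hT : Q.IsStress T) {z : Completion D}
    (hz : ∀ (x : V) (v : D), inner ℂ z ((Q.U 1 GF.one x v : D) : Completion D) =
      inner ℂ z (v : Completion D)) (m n : Ix) (k : 𝓢(Mink, ℂ)) :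
    inner ℂ z ((T m n (fl k) Q.vac : D) : Completion D) = 0 := by
  have hf : Q.fld (T m n) := Q.bose_fld _ (hT.bose m n)
  set u : 𝓢(Mink, ℂ) →L[ℂ] ℂ := (innerSL ℂ z).comp
    (UniformSpace.Completion.toComplL.comp (fcl hf Q.vac)) with hu
  have ua : ∀ k, u k = inner ℂ z ((T m n (fl k) Q.vac : D) : Completion D) := fun k => rfl
  have h' : ∀ (k : 𝓢(Mink, ℂ)) (b : Mink), u (tauS b k) = u k := by
    intro k b
    rw [ua, ua]
    have h1 := U_fld hf k b Q.vac
    rw [Q.U_vac _ _ _ one_pos isLor_one] at h1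
    rw [← h1, hz]
  have step1 : ∀ k g : 𝓢(Mink, ℂ), mft k 0 * u g = mft g 0 * u k := by
    have aux : ∀ k g c : 𝓢(Mink, ℂ),
        (∀ x, c x = ∫ a, k a * g (x - a)) → u c = mft k 0 * u g := by
      intro k g c hc
      rw [conv_identity u g k c hc, a3_mft0, ← integral_mul_const]
      congr 1
      ext a
      rw [smul_eq_mul]
      congr 1
      exact h' g a
    intro k g
    obtain ⟨c, hc⟩ := exists_conv g k
    rw [← aux k g c hc, ← aux g k c (P352.conv_comm hc)]
  obtain ⟨k0, hk0, hk0'⟩ := exists_test_ne_zero isOpen_univ (Set.univ_nonempty (α := Mink)) 0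
  have hz0 : mft k0 0 ≠ 0 := hk0' 0 (by simp)
  have hs : ∀ s : ℝ, 0 < s → ‖mft k0 0‖ * ‖u k‖ ≤
      ‖mft k 0‖ * (‖z‖ * ‖T m n (fl k0) Q.vac‖) * s ^ 4 := by
    intro s hs
    have h1 := step1 k (scaleS s hs.ne' k0)
    rw [mft_scaleS s hs, smul_zero] at h1
    have h2 : ‖T m n (fl k0) Q.vac‖ = ‖T m n (fl (scaleS s hs.ne' k0)) Q.vac‖ := by
      have h3 := T_dil hT hs m n k0 Q.vac
      rw [Q.U_vac _ _ _ hs isLor_one] at h3
      rw [h3, nUs hs]
    have h3 : ‖u (scaleS s hs.ne' k0)‖ ≤ ‖z‖ * ‖T m n (fl (scaleS s hs.ne' k0)) Q.vac‖ := by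
      rw [ua]
      refine (norm_inner_le_norm _ _).trans ?_
      rw [UniformSpace.Completion.norm_coe]
    have h4 := congrArg norm h1
    rw [norm_mul, norm_mul, norm_mul, norm_real, Real.norm_eq_abs,
      abs_of_pos (by positivity : (0 : ℝ) < (s ^ 4)⁻¹)] at h4
    have h5 : (s ^ 4)⁻¹ * ‖mft k0 0‖ * ‖u k‖ ≤
        ‖mft k 0‖ * (‖z‖ * ‖T m n (fl (scaleS s hs.ne' k0)) Q.vac‖) := by
      rw [← h4]
      gcongr
    have hs4 : 0 < s ^ 4 := by positivity
    calc ‖mft k0 0‖ * ‖u k‖ = s ^ 4 * ((s ^ 4)⁻¹ * ‖mft k0 0‖ * ‖u k‖) := by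
          field_simp
      _ ≤ s ^ 4 * (‖mft k 0‖ * (‖z‖ * ‖T m n (fl (scaleS s hs.ne' k0)) Q.vac‖)) := by gcongr
      _ = ‖mft k 0‖ * (‖z‖ * ‖T m n (fl (scaleS s hs.ne' k0)) Q.vac‖) * s ^ 4 := by ring
      _ = _ := by rw [← h2]
  have hlim : Tendsto (fun s : ℝ => ‖mft k 0‖ * (‖z‖ * ‖T m n (fl k0) Q.vac‖) * s ^ 4)
      (𝓝[>] 0) (𝓝 0) := by
    have h1 : Tendsto (fun s : ℝ => s ^ 4) (𝓝[>] 0) (𝓝 0) := by
      have : Tendsto (fun s : ℝ => s ^ 4) (𝓝 0) (𝓝 ((0:ℝ) ^ 4)) := (continuous_pow 4).tendsto 0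
      rw [zero_pow (by norm_num)] at this
      exact this.mono_left nhdsWithin_le_nhds
    simpa using h1.const_mul (‖mft k 0‖ * (‖z‖ * ‖T m n (fl k0) Q.vac‖))
  have h0 : ‖mft k0 0‖ * ‖u k‖ ≤ 0 := by
    refine ge_of_tendsto hlim ?_
    filter_upwards [self_mem_nhdsWithin] with s hs'
    exact hs s hs'
  have h1 : ‖u k‖ = 0 := by
    have := norm_pos_iff.2 hz0
    nlinarith [norm_nonneg (u k)]
  rw [← ua, norm_eq_zero.1 h1]

/-- dilations and translations -/
lemma dil_tra (R : H15.Rep Q A) {s : ℝ} (hs : 0 < s) (y : V) (v : D) :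
    Q.U 1 GF.one y (Q.U s GF.one 0 v) = Q.U s GF.one 0 (Q.U 1 GF.one (s⁻¹ • y) v) := by
  rw [R.mul 1 GF.one y s GF.one 0 v one_pos hs isLor_one isLor_one,
    R.mul s GF.one 0 1 GF.one _ v hs one_pos isLor_one isLor_one, one_mul, mul_one]
  congr 1
  funext n
  simp [sim, GF.one, bas]
  field_simp

lemma near_id (v : D) {ε : ℝ} (hε : 0 < ε) (y : V) :
    ∀ᶠ s : ℝ in atTop, ‖Q.U 1 GF.one (s⁻¹ • y) v - v‖ < ε := by
  have h1 : Continuous fun t : ℝ => Q.U 1 GF.one (t • y) v := by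
    have h2 : Continuous fun t : ℝ => (WithLp.toLp 2 (t • y) : Mink) := by fun_prop
    exact (continuous_U1a (Q := Q) v).comp h2
  have h2 : Tendsto (fun s : ℝ => Q.U 1 GF.one (s⁻¹ • y) v) atTop (𝓝 v) := by
    have h3 := (h1.tendsto 0).comp tendsto_inv_atTop_zero
    have h4 : Q.U 1 GF.one ((0:ℝ) • y) v = v := by
      rw [zero_smul]; exact U1_zero_all (Q := Q) v
    rw [h4] at h3
    exact h3
  have h3 := Metric.tendsto_nhds.1 h2 ε hε
  simpa only [dist_eq_norm] using h3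

/-- **the dilated vectors tend weakly to zero** -/
theorem weak_zero (hT : Q.IsStress T) (R : H15.Rep Q A) (m n : Ix) (k : 𝓢(Mink, ℂ))
    (z : Completion D) : Tendsto (fun s : ℝ => inner ℂ z
      ((Q.U s GF.one 0 (T m n (fl k) Q.vac) : D) : Completion D)) atTop (𝓝 0) := by
  set ψ : D := T m n (fl k) Q.vac with hψ
  set P : Submodule ℂ (Completion D) :=
    { carrier := {z | Tendsto (fun s : ℝ => inner ℂ z ((Q.U s GF.one 0 ψ : D) : Completion D))
        atTop (𝓝 0)}
      zero_mem' := by simp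
      add_mem' := fun {a b} ha hb => by
        have h := Tendsto.add ha hb
        simp only [add_zero] at h
        simpa only [Set.mem_setOf_eq, inner_add_left] using h
      smul_mem' := fun c a ha => by
        have h := Tendsto.const_mul (conj c) ha
        simp only [mul_zero] at h
        simpa only [Set.mem_setOf_eq, inner_smul_left] using h } with hP
  have hcl : IsClosed (P : Set (Completion D)) := by
    rw [← closure_subset_iff_isClosed]
    intro z hz
    show Tendsto _ _ _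
    rw [Metric.tendsto_nhds]
    intro ε hε
    obtain ⟨z', hz', hd⟩ := Metric.mem_closure_iff.1 hz (ε / (2 * (‖ψ‖ + 1))) (by positivity)
    have h1 : Tendsto (fun s : ℝ => inner ℂ z' ((Q.U s GF.one 0 ψ : D) : Completion D))
        atTop (𝓝 0) := hz'
    filter_upwards [Metric.tendsto_nhds.1 h1 (ε / 2) (half_pos hε), eventually_gt_atTop (0 : ℝ)]
      with s hs hs0
    rw [dist_zero_right] at hs ⊢
    have e : inner ℂ z ((Q.U s GF.one 0 ψ : D) : Completion D) =
        inner ℂ (z - z') ((Q.U s GF.one 0 ψ : D) : Completion D) +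
          inner ℂ z' ((Q.U s GF.one 0 ψ : D) : Completion D) := by
      rw [inner_sub_left]; ring
    rw [e]
    refine (norm_add_le _ _).trans_lt ?_
    have h2 : ‖inner ℂ (z - z') ((Q.U s GF.one 0 ψ : D) : Completion D)‖ ≤ ‖z - z'‖ * ‖ψ‖ := by
      refine (norm_inner_le_norm _ _).trans ?_
      rw [UniformSpace.Completion.norm_coe, nUs hs0]
    have h3 : ‖z - z'‖ * ‖ψ‖ ≤ ε / 2 := by
      rw [dist_eq_norm] at hd
      calc ‖z - z'‖ * ‖ψ‖ ≤ (ε / (2 * (‖ψ‖ + 1))) * (‖ψ‖ + 1) := by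
            gcongr
            linarith
        _ = ε / 2 := by field_simp
    linarith
  have hrange : ∀ (x : V) (v : D), (((Q.U 1 GF.one x v - v : D)) : Completion D) ∈ P := by
    intro x v
    show Tendsto _ _ _
    rw [Metric.tendsto_nhds]
    intro ε hε
    filter_upwards [near_id (Q := Q) ψ (ε := ε / (‖v‖ + 1)) (by positivity) (-x),
      eventually_gt_atTop (0 : ℝ)] with s hs hs0
    rw [dist_zero_right, UniformSpace.Completion.inner_coe, inner_sub_left]
    have h1 : inner ℂ (Q.U 1 GF.one x v) (Q.U s GF.one 0 ψ) =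
        inner ℂ v (Q.U s GF.one 0 (Q.U 1 GF.one (s⁻¹ • (-x)) ψ)) := by
      rw [← dil_tra R hs0, ← Q.U_inner 1 GF.one x v _ one_pos isLor_one, UU, add_neg_cancel]
      congr 1
      exact (U1_zero_all (Q := Q) _).symm
    rw [h1, ← inner_sub_right]
    have h2 : Q.U s GF.one 0 (Q.U 1 GF.one (s⁻¹ • (-x)) ψ) - Q.U s GF.one 0 ψ =
        Q.U s GF.one 0 (Q.U 1 GF.one (s⁻¹ • (-x)) ψ - ψ) := by
      have h3 := U_add (Q := Q) hs0 isLor_one 0 (Q.U 1 GF.one (s⁻¹ • (-x)) ψ - ψ) ψ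
      rw [sub_add_cancel] at h3
      rw [h3, add_sub_cancel_right]
    rw [h2]
    refine (norm_inner_le_norm _ _).trans_lt ?_
    rw [nUs hs0]
    calc ‖v‖ * ‖Q.U 1 GF.one (s⁻¹ • (-x)) ψ - ψ‖
        ≤ ‖v‖ * (ε / (‖v‖ + 1)) := by gcongr
      _ < (‖v‖ + 1) * (ε / (‖v‖ + 1)) := by
          have : 0 < ε / (‖v‖ + 1) := by positivity
          nlinarith
      _ = ε := by field_simp
  have horth : ∀ z : Completion D, z ∈ Pᗮ → z ∈ P := by
    intro z hz
    have h1 : ∀ (x : V) (v : D), inner ℂ z ((Q.U 1 GF.one x v : D) : Completion D) =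
        inner ℂ z (v : Completion D) := by
      intro x v
      have h2 := (Submodule.mem_orthogonal' P z).1 hz _ (hrange x v)
      rw [UniformSpace.Completion.coe_sub, inner_sub_right] at h2
      exact sub_eq_zero.1 h2
    show Tendsto _ _ _
    refine tendsto_const_nhds.congr' ?_
    filter_upwards [eventually_gt_atTop (0 : ℝ)] with s hs0
    have h3 := T_dil hT hs0 m n (scaleS s⁻¹ (inv_pos.2 hs0).ne' k) Q.vac
    have e : scaleS s hs0.ne' (scaleS s⁻¹ (inv_pos.2 hs0).ne' k) = k := by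
      ext x
      rw [scaleS_apply, scaleS_apply, smul_smul, inv_mul_cancel₀ hs0.ne', one_smul]
    rw [Q.U_vac _ _ _ hs0 isLor_one, e] at h3
    rw [← h3]
    exact (inv_orth hT h1 m n _).symm
  have hcomp : IsComplete (P : Set (Completion D)) := hcl.isComplete
  haveI : CompleteSpace P := hcomp.completeSpace_coe
  have h9 : z ∈ P := by
    obtain ⟨y, hy, w, hw, rfl⟩ := Submodule.exists_add_mem_mem_orthogonal (K := P) z
    exact P.add_mem hy (horth w hw)
  exact h9

end Vale.Agent.P352.ND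

end
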