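import Vale.Agent.P352.ND.Defs
import Vale.Agent.P352.ND.A3a
import Vale.Agent.P352.ND.A3b
import Vale.Agent.P352.SL.ComA

/-!
# P352 ND, block A3: symmetric operators that commute with the stress tensor commute with the
Poincaré generators
-/

set_option linter.all false

noncomputable section

open MeasureTheory SchwartzMap Complex Filter Topology Set
open scoped SchwartzMap ComplexConjugate ContDiff

namespace Vale.Agent.P352.ND

open GF (Ix V Fn Sch ev pd bar sim o bas IsCutoff)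
open H246 H496 H15 H755 H746
open UniformSpace (Completion)

variable {D : Type*} [NormedAddCommGroup D] [InnerProductSpace ℂ D] {Q : GF.Theory D}
  {T : Ix → Ix → GF.Fld D} {A : (V → V) → D → D}

lemma isPo_of {X : V → V} (hX : IsSim 0 X) : IsPo fun n x => X x n := by
  obtain ⟨c, w, hw, h⟩ := hX
  exact ⟨c, w, hw, fun n x => by
    show X x n = _
    rw [h]; ring⟩

lemma cur_real (X : V → V) (g : V → ℝ) (u : D) : cur T X (fun x => (g x : ℂ)) u =
    ∑ n, T o n (fun x => (GF.eta n * X x n * g x : ℝ)) u := by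
  unfold cur
  refine Finset.sum_congr rfl fun n _ => ?_
  refine congrArg (fun f => T o n f u) ?_
  funext x
  push_cast
  ring

/-- the standard cutoffs -/
lemma exists_cut : ∃ (α : ℝ → ℝ), Tst α ∧ ∫ u, α u = 1 ∧
    IsCutoff fun R x => ((α (x o) * H755.chi R x : ℝ) : ℂ) := by
  obtain ⟨α, hα, hα1⟩ := exists_prof
  refine ⟨α, hα, hα1, α, bmp, hα.2, bmp.hasCompactSupport, hα1, ?_, fun R hR => ⟨?_, fun x => ?_⟩⟩
  · have h1 : Metric.ball (0 : V) 1 ∈ 𝓝 (0 : V) := Metric.ball_mem_nhds _ one_pos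
    filter_upwards [h1] with x hx
    exact bmp.one_of_mem_closedBall (Metric.ball_subset_closedBall hx)
  · exact tstIs (tst_prof hα hR)
  · push_cast
    congr 2
    unfold H755.chi
    congr 1
    funext n
    by_cases h : n = o
    · simp [sp, h]
    · simp [sp, h, div_eq_inv_mul]

/-- commutators with the charges -/
theorem com_gen (hT : Q.IsStress T) (hP : PCh Q T A) {X : V → V} (hX : IsSim 0 X) {B : GF.Fld D}
    (hB : Q.fld B) {f : Fn} (hf : H755.CS f) {g : V → ℝ} (hg : Ok (tsupport f) g) (v : D) :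
    com T (fun n x => X x n) g B f v = A X (B f v) - B f (A X v) := by
  obtain ⟨α, hα, hα1, hcut⟩ := exists_cut
  obtain ⟨M1, hM1, hM1'⟩ := supp_bd hα
  obtain ⟨M4, hM4⟩ := hf.2.isCompact.isBounded.subset_closedBall (0 : V)
  have hM : 0 ≤ M1 + |M4| := by positivity
  have hfM : ∀ y ∈ tsupport f, ∀ i, |y i| ≤ M1 + |M4| := by
    intro y hy i
    have h3 := hM4 hy
    rw [mem_closedBall_zero_iff] at h3
    have h4 := norm_le_pi_norm y i
    have h5 := le_abs_self M4
    rw [Real.norm_eq_abs] at h4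
    linarith
  refine ext_inner_left ℂ fun w => ?_
  have l1 := hP _ X B f v w hcut hX hB hf.1 hf.2
  refine tendsto_nhds_unique (tendsto_const_nhds.congr' ?_) l1
  filter_upwards [eventually_ge_atTop (3 * (M1 + |M4|) + 1)] with R hR
  have h1 : Ok (tsupport f) (fun x => α (x o) * H755.chi R x) := by
    refine ok_prof hα hα1 hM hR (fun u hu => ?_) hfM
    have := abs_nonneg M4
    exact (hM1' u hu).trans (by linarith)
  rw [pcom_eq hT hB (isPo_of hX) hf subset_rfl hg h1 v]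
  unfold com
  rw [cur_real, cur_real]

/-! ### the scaled cutoffs -/

/-- a profile in time with small support -/
lemma exists_small : ∃ α : ℝ → ℝ, Tst α ∧ ∫ u, α u = 1 ∧ ∀ u, α u ≠ 0 → |u| ≤ 1 / 2 := by
  let f : ContDiffBump (0 : ℝ) := ⟨1 / 4, 1 / 2, by norm_num, by norm_num⟩
  refine ⟨f.normed volume, ⟨f.contDiff_normed, f.hasCompactSupport_normed⟩, f.integral_normed,
    fun u hu => ?_⟩
  have h1 : u ∈ Function.support (f.normed volume) := hu
  rw [f.support_normed_eq, mem_ball_zero_iff, Real.norm_eq_abs] at h1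
  exact h1.le

/-- the scaled cutoff -/
def gsc (α : ℝ → ℝ) (R : ℝ) (x : V) : ℝ := R⁻¹ * α (R⁻¹ * x o) * H755.chi R x

lemma sp_far' {M R : ℝ} (hM : 0 ≤ M) (hR : 4 * M + 1 ≤ R) {x y : V} (hx0 : |x o| ≤ R / 2)
    (hx : R ≤ ‖sp x‖) (hy : ∀ i, |y i| ≤ M) :
    GF.mdot (fun m => x m - y m) (fun m => x m - y m) < 0 := by
  obtain ⟨i, hi⟩ : ∃ i, R ≤ ‖sp x i‖ := by
    by_contra hne
    push Not at hne
    have hR0 : 0 < R := by linarith
    have := (pi_norm_lt_iff hR0).2 hne
    linarith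
  have hio : i ≠ o := by
    rintro rfl
    simp [sp] at hi
    linarith
  have hi' : R ≤ |x i| := by simpa [sp, hio] using hi
  have h1 : R - M ≤ |x i - y i| := by
    have := abs_sub_abs_le_abs_sub (x i) (y i)
    have := hy i
    linarith
  have h2 : |x o - y o| ≤ R / 2 + M := by
    have := abs_sub (x o) (y o)
    have := hy o
    linarith
  have h3 : (x o - y o) ^ 2 ≤ (R / 2 + M) ^ 2 := by
    rw [← sq_abs]
    exact pow_le_pow_left₀ (abs_nonneg _) h2 2
  have h4 : (R - M) ^ 2 ≤ (x i - y i) ^ 2 := by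
    rw [← sq_abs (x i - y i)]
    exact pow_le_pow_left₀ (by linarith) h1 2
  have h5 : (R / 2 + M) ^ 2 < (R - M) ^ 2 := by
    exact pow_lt_pow_left₀ (by linarith) (by linarith) (by norm_num)
  have h0 : (x o - y o) ^ 2 = (x 0 - y 0) ^ 2 := rfl
  simp only [GF.mdot, Fin.sum_univ_four, GF.eta, o, ↓reduceIte, Fin.isValue, one_ne_zero,
    Fin.reduceEq]
  rw [h0] at h3
  fin_cases i
  · exact absurd rfl hio
  · simp only [Fin.isValue, Fin.mk_one, Fin.reduceFinMk] at h4
    nlinarith [sq_nonneg (x 2 - y 2), sq_nonneg (x 3 - y 3)]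
  · simp only [Fin.isValue, Fin.mk_one, Fin.reduceFinMk] at h4
    nlinarith [sq_nonneg (x 1 - y 1), sq_nonneg (x 3 - y 3)]
  · simp only [Fin.isValue, Fin.mk_one, Fin.reduceFinMk] at h4
    nlinarith [sq_nonneg (x 1 - y 1), sq_nonneg (x 2 - y 2)]

lemma tst_sc {α : ℝ → ℝ} (hα : Tst α) {R : ℝ} (hR : 0 < R) : Tst fun u => R⁻¹ * α (R⁻¹ * u) := by
  refine ⟨contDiff_const.mul (hα.1.comp (contDiff_const.mul contDiff_id)), ?_⟩
  have h1 : HasCompactSupport fun u => α (R⁻¹ * u) := by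
    have := hα.2.comp_homeomorph (Homeomorph.mulLeft₀ R⁻¹ (inv_ne_zero hR.ne'))
    exact this
  exact h1.mul_left

lemma int_sc {α : ℝ → ℝ} (hα1 : ∫ u, α u = 1) {R : ℝ} (hR : 0 < R) :
    ∫ u, R⁻¹ * α (R⁻¹ * u) = 1 := by
  rw [integral_const_mul, Measure.integral_comp_mul_left, inv_inv, abs_of_pos hR, hα1, smul_eq_mul,
    mul_one, inv_mul_cancel₀ hR.ne']

lemma gsc_ok {α : ℝ → ℝ} (hα : Tst α) (hα1 : ∫ u, α u = 1) (hαs : ∀ u, α u ≠ 0 → |u| ≤ 1 / 2)
    {S : Set V} {M R : ℝ} (hM : 0 ≤ M) (hR : 4 * M + 1 ≤ R) (hS : ∀ y ∈ S, ∀ i, |y i| ≤ M) :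
    Ok S (gsc α R) := by
  have hR0 : 0 < R := by linarith
  refine ⟨tst_prof (tst_sc hα hR0) hR0, _, tst_sc hα hR0, int_sc hα1 hR0, fun x hx y hy => ?_⟩
  have h2 : x ∈ Zf (R / 2) R := by
    refine closure_minimal ?_ (isClosed_Zf (R / 2) R) hx
    intro z hz
    have h3 : R⁻¹ * α (R⁻¹ * z o) * (H755.chi R z - 1) ≠ 0 := by
      intro h4
      refine hz ?_
      show R⁻¹ * α (R⁻¹ * z o) * H755.chi R z = R⁻¹ * α (R⁻¹ * z o)
      linarith
    have h5 := hαs _ (right_ne_zero_of_mul (left_ne_zero_of_mul h3))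
    refine ⟨?_, ?_⟩
    · rw [abs_mul, abs_of_pos (inv_pos.2 hR0), inv_mul_le_iff₀ hR0] at h5
      linarith
    · by_contra hlt
      push Not at hlt
      exact right_ne_zero_of_mul h3 (by rw [chi_one hR0 hlt.le, sub_self])
  exact sp_far' hM hR h2.1 h2.2 (hS y hy)

lemma hcs_fl' {F : 𝓢(Mink, ℂ)} (h : HasCompactSupport F) : HasCompactSupport (fl F) := by
  have h1 : (fl F : V → ℂ) = F ∘ (WithLp.toLp 2 : V → Mink) := rfl
  rw [h1]
  exact h.comp_homeomorph (PiLp.homeomorph 2 (fun _ : Ix => ℝ)).symm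

/-- the cut off charge -/
def tr0 (T : Ix → Ix → GF.Fld D) (X : V → V) (g : V → ℝ) (u : D) : D :=
  ∑ n, T o n (fun x => (GF.eta n * X x n * g x : ℝ)) u

lemma scaled_vac (hT : Q.IsStress T) {g : V → ℝ} (hg : Tst g) (m n : Ix) :
    ∃ k : 𝓢(Mink, ℂ), ∀ R : ℝ, 0 < R →
      T m n (fun x => ((g (R⁻¹ • x) : ℝ) : ℂ)) Q.vac = Q.U R GF.one 0 (T m n (fl k) Q.vac) := by
  obtain ⟨k, hk⟩ := exists_fl (tstIs hg)
  refine ⟨k, fun R hR => ?_⟩
  have h3 := T_dil hT hR m n (scaleS R⁻¹ (inv_pos.2 hR).ne' k) Q.vac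
  have e : scaleS R hR.ne' (scaleS R⁻¹ (inv_pos.2 hR).ne' k) = k := by
    ext x
    rw [scaleS_apply, scaleS_apply, smul_smul, inv_mul_cancel₀ hR.ne', one_smul]
  rw [Q.U_vac _ _ _ hR isLor_one, e] at h3
  rw [← h3]
  refine congrArg (fun f => T m n f Q.vac) ?_
  funext x
  have h4 := congrFun hk (R⁻¹ • x)
  rw [← h4]
  rfl

/-- the charges with scaled cutoffs tend to zero on the vacuum -/
lemma tr0_vac (hT : Q.IsStress T) (Rp : H15.Rep Q A) {X : V → V} (hX : IsSim 0 X) {α : ℝ → ℝ}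
    (hα : Tst α) (z : D) :
    Tendsto (fun R => inner ℂ z (tr0 T X (gsc α R) Q.vac)) atTop (𝓝 0) := by
  obtain ⟨c, w, hw, h⟩ := hX
  have hG : Tst fun x : V => α (x o) * H755.chi 1 x := tst_prof hα one_pos
  have h1 : ∀ n, Tst fun x : V => (GF.eta n * c n) * (α (x o) * H755.chi 1 x) := fun n =>
    tst_smul contDiff_const hG
  have h2 : ∀ n, Tst fun x : V => (GF.eta n * ∑ m, x m * w m n) * (α (x o) * H755.chi 1 x) := by
    intro n
    refine tst_smul ?_ hG
    have cx : ∀ m : Ix, ContDiff ℝ ∞ fun x : V => x m := fun m => contDiff_apply ℝ ℝ m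
    have h3 := cx 0
    have h4 := cx 1
    have h5 := cx 2
    have h6 := cx 3
    simp only [Fin.sum_univ_four]
    fun_prop
  choose k1 hk1 using fun n => scaled_vac hT (h1 n) o n
  choose k2 hk2 using fun n => scaled_vac hT (h2 n) o n
  have e : ∀ R : ℝ, 0 < R → tr0 T X (gsc α R) Q.vac = ∑ n,
      (Q.U R GF.one 0 (T o n (fl (k2 n)) Q.vac) +
        ((R⁻¹ : ℝ) : ℂ) • Q.U R GF.one 0 (T o n (fl (k1 n)) Q.vac)) := by
    intro R hR
    unfold tr0
    refine Finset.sum_congr rfl fun n _ => ?_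
    rw [← hk1 n R hR, ← hk2 n R hR]
    have s1 : Tst fun x : V => (GF.eta n * ∑ m, (R⁻¹ • x) m * w m n) *
        (α ((R⁻¹ • x) o) * H755.chi 1 (R⁻¹ • x)) := by
      have hl : ContDiff ℝ ∞ fun x : V => R⁻¹ • x := contDiff_id.const_smul _
      refine ⟨(h2 n).1.comp hl, ?_⟩
      exact (h2 n).2.comp_homeomorph (Homeomorph.smulOfNeZero R⁻¹ (inv_ne_zero hR.ne'))
    have s2 : Tst fun x : V => (GF.eta n * c n) *
        (α ((R⁻¹ • x) o) * H755.chi 1 (R⁻¹ • x)) := by
      have hl : ContDiff ℝ ∞ fun x : V => R⁻¹ • x := contDiff_id.const_smul _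
      refine ⟨(h1 n).1.comp hl, ?_⟩
      exact (h1 n).2.comp_homeomorph (Homeomorph.smulOfNeZero R⁻¹ (inv_ne_zero hR.ne'))
    rw [← T_lin hT s1 s2]
    refine congrArg (fun f => T o n f Q.vac) ?_
    funext x
    congr 1
    have e1 : H755.chi 1 (R⁻¹ • x) = H755.chi R x := by
      unfold H755.chi
      congr 1
      rw [inv_one, one_smul]
      funext i
      by_cases hi : i = o
      · simp [sp, hi]
      · simp [sp, hi]
    have e2 : ∑ m, (R⁻¹ • x) m * w m n = R⁻¹ * ∑ m, x m * w m n := by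
      rw [Finset.mul_sum]
      refine Finset.sum_congr rfl fun m _ => ?_
      simp only [Pi.smul_apply, smul_eq_mul]
      ring
    rw [e1, e2, h]
    unfold gsc
    simp only [Pi.smul_apply, smul_eq_mul]
    ring
  have l : ∀ (n : Ix), Tendsto (fun R : ℝ => inner ℂ z (Q.U R GF.one 0 (T o n (fl (k2 n)) Q.vac)) +
      ((R⁻¹ : ℝ) : ℂ) * inner ℂ z (Q.U R GF.one 0 (T o n (fl (k1 n)) Q.vac))) atTop (𝓝 0) := by
    intro n
    have l1 := weak_zero hT Rp o n (k2 n) (z : Completion D)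
    have l2 := weak_zero hT Rp o n (k1 n) (z : Completion D)
    simp only [UniformSpace.Completion.inner_coe] at l1 l2
    have l3 : Tendsto (fun R : ℝ => ((R⁻¹ : ℝ) : ℂ)) atTop (𝓝 0) := by
      have := (Complex.continuous_ofReal.tendsto 0).comp
        (tendsto_inv_atTop_zero (𝕜 := ℝ))
      simpa [Function.comp_def] using this
    simpa using l1.add (l3.mul l2)
  have l4 : Tendsto (fun R : ℝ => ∑ n, (inner ℂ z (Q.U R GF.one 0 (T o n (fl (k2 n)) Q.vac)) +
      ((R⁻¹ : ℝ) : ℂ) * inner ℂ z (Q.U R GF.one 0 (T o n (fl (k1 n)) Q.vac)))) atTop (𝓝 0) := by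
    have := tendsto_finset_sum Finset.univ fun n _ => l n
    simpa using this
  refine l4.congr' ?_
  filter_upwards [eventually_gt_atTop (0 : ℝ)] with R hR
  rw [e R hR, inner_sum]
  refine Finset.sum_congr rfl fun n _ => ?_
  rw [inner_add_right, inner_smul_right]

lemma tst_gsc {α : ℝ → ℝ} (hα : Tst α) {R : ℝ} (hR : 0 < R) : Tst (gsc α R) :=
  tst_prof (tst_sc hα hR) hR

lemma tr0_add (hT : Q.IsStress T) {X : V → V} (hX : IsSim 0 X) {g : V → ℝ} (hg : Tst g) (v w : D) :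
    tr0 T X g (v + w) = tr0 T X g v + tr0 T X g w := by
  unfold tr0
  rw [← Finset.sum_add_distrib]
  exact Finset.sum_congr rfl fun n _ =>
    fadd (Q.bose_fld _ (hT.bose o n)) (tstIs (po_tst (isPo_of hX) hg n)) v w

lemma tr0_smul (hT : Q.IsStress T) {X : V → V} (hX : IsSim 0 X) {g : V → ℝ} (hg : Tst g) (c : ℂ)
    (v : D) : tr0 T X g (c • v) = c • tr0 T X g v := by
  unfold tr0
  rw [Finset.smul_sum]
  exact Finset.sum_congr rfl fun n _ =>
    fsmul (Q.bose_fld _ (hT.bose o n)) (tstIs (po_tst (isPo_of hX) hg n)) c v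

lemma tr0_symm (hT : Q.IsStress T) {X : V → V} (hX : IsSim 0 X) {g : V → ℝ} (hg : Tst g)
    (v w : D) : inner ℂ (tr0 T X g v) w = inner ℂ v (tr0 T X g w) := by
  unfold tr0
  rw [sum_inner, inner_sum]
  refine Finset.sum_congr rfl fun n _ => ?_
  rw [hT.herm o n _ _ _ (tstIs (po_tst (isPo_of hX) hg n))]
  congr 2
  funext x
  simp [bar]

/-- the weak limits -/
lemma tr0_lim (hT : Q.IsStress T) (Rp : H15.Rep Q A) (hP : PCh Q T A) {X : V → V}
    (hX : IsSim 0 X) {α : ℝ → ℝ} (hα : Tst α) (hα1 : ∫ u, α u = 1)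
    (hαs : ∀ u, α u ≠ 0 → |u| ≤ 1 / 2) {v : D} (hv : PW Q Set.univ v) : ∀ z : D,
    Tendsto (fun R => inner ℂ z (tr0 T X (gsc α R) v)) atTop (𝓝 (inner ℂ z (A X v))) := by
  have hAs := H746.A_symm Rp hX
  induction hv with
  | vac =>
    intro z
    rw [H746.A_vac Rp hX, inner_zero_right]
    exact tr0_vac hT Rp hX hα z
  | add _ _ h1 h2 =>
    intro z
    rw [SL.sym_add hAs, inner_add_right]
    refine ((h1 z).add (h2 z)).congr' ?_
    filter_upwards [eventually_gt_atTop (0 : ℝ)] with R hR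
    rw [tr0_add hT hX (tst_gsc hα hR), inner_add_right]
  | smul c _ h1 =>
    intro z
    rw [SL.sym_smul hAs, inner_smul_right]
    refine ((h1 z).const_mul c).congr' ?_
    filter_upwards [eventually_gt_atTop (0 : ℝ)] with R hR
    rw [tr0_smul hT hX (tst_gsc hα hR), inner_smul_right]
  | @fld B g v hB hg _ h1 =>
    intro z
    obtain ⟨B', hB', hadj⟩ := Q.adj B hB
    have hadj2 : ∀ u, inner ℂ z (B (fl g) u) = inner ℂ (B' (bar (fl g)) z) u := by
      intro u
      rw [← inner_conj_symm, hadj _ u z (isTest_fl g), inner_conj_symm]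
    have hcs : H755.CS (fl g) := by
      refine ⟨isTest_fl g, ?_⟩
      exact hcs_fl' hg.1
    obtain ⟨M4, hM4⟩ := hcs.2.isCompact.isBounded.subset_closedBall (0 : V)
    have hfM : ∀ y ∈ tsupport (fl g), ∀ i, |y i| ≤ |M4| := by
      intro y hy i
      have h3 := hM4 hy
      rw [mem_closedBall_zero_iff] at h3
      have h4 := norm_le_pi_norm y i
      have h5 := le_abs_self M4
      rw [Real.norm_eq_abs] at h4
      linarith
    have h2 := (h1 (B' (bar (fl g)) z)).add
      (tendsto_const_nhds (x := inner ℂ z (A X (B (fl g) v) - B (fl g) (A X v))))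
    have e : inner ℂ (B' (bar (fl g)) z) (A X v) +
        inner ℂ z (A X (B (fl g) v) - B (fl g) (A X v)) = inner ℂ z (A X (B (fl g) v)) := by
      rw [inner_sub_right, hadj2 (A X v)]
      ring
    rw [e] at h2
    refine h2.congr' ?_
    filter_upwards [eventually_ge_atTop (4 * |M4| + 1)] with R hR
    have h3 := com_gen hT hP hX hB hcs
      (gsc_ok hα hα1 hαs (abs_nonneg M4) hR hfM) v
    rw [← h3]
    unfold com
    rw [inner_sub_right, hadj2]
    unfold tr0
    ring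

/-- **Symmetric operators that commute with the stress tensor commute with the generators of the
Poincaré group.** -/
theorem com_P (hT : Q.IsStress T) (Rp : H15.Rep Q A) (hP : PCh Q T A) {B : D → D}
    (hB : ∀ v w, inner ℂ (B v) w = inner ℂ v (B w))
    (hc : ∀ m n f v, GF.IsTest f → HasCompactSupport f → B (T m n f v) = T m n f (B v))
    {X : V → V} (hX : IsSim 0 X) (v : D) : B (A X v) = A X (B v) := by
  obtain ⟨α, hα, hα1, hαs⟩ := exists_small
  have hAs := H746.A_symm Rp hX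
  have hd : Dense {v : D | PW Q Set.univ v} := dense_PS (Q := Q)
  have hBt : ∀ R : ℝ, 0 < R → ∀ v, B (tr0 T X (gsc α R) v) = tr0 T X (gsc α R) (B v) := by
    intro R hR v
    unfold tr0
    rw [SL.sym_sum hB]
    refine Finset.sum_congr rfl fun n _ => ?_
    have h1 := po_tst (isPo_of hX) (tst_gsc hα hR) n
    exact hc o n _ v (tstIs h1) (h1.2.comp_left (g := fun x : ℝ => (x : ℂ)) (by simp))
  have key : ∀ v w : D, PW Q Set.univ v → PW Q Set.univ w →
      inner ℂ w (B (A X v)) = inner ℂ w (A X (B v)) := by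
    intro v w hv hw
    have l1 := tr0_lim hT Rp hP hX hα hα1 hαs hv (B w)
    have l2 := tr0_lim hT Rp hP hX hα hα1 hαs hw (B v)
    have l3 : Tendsto (fun R => inner ℂ (tr0 T X (gsc α R) w) (B v)) atTop
        (𝓝 (inner ℂ (A X w) (B v))) := by
      have := (Complex.continuous_conj.tendsto _).comp l2
      simpa only [Function.comp_def, inner_conj_symm] using this
    rw [← hB, ← hAs w (B v)]
    refine tendsto_nhds_unique l1 (l3.congr' ?_)
    filter_upwards [eventually_gt_atTop (0 : ℝ)] with R hR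
    rw [tr0_symm hT hX (tst_gsc hα hR), ← hBt R hR, ← hB]
  have key2 : ∀ v : D, PW Q Set.univ v → B (A X v) = A X (B v) := by
    intro v hv
    refine hd.eq_of_inner_right (𝕜 := ℂ) fun w hw => key v w hv hw
  refine hd.eq_of_inner_right (𝕜 := ℂ) fun w hw => ?_
  rw [← hB, ← hAs, ← hAs, ← hB, key2 w hw]

end Vale.Agent.P352.ND

end
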