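import Vale.Agent.P352.N86.K.C2
import Vale.Agent.P352.N86.K.C3
import Vale.Agent.P352.NF.E11

/-!
# P352: the generators of the null deformations as second moments: symmetry, covariance,
translations along the null plane, and the vectors created by the stress tensor
-/

set_option linter.all false

noncomputable section

open MeasureTheory Filter Topology SchwartzMap Complex
open scoped SchwartzMap ComplexConjugate ContDiff LineDeriv

namespace Vale.Agent.P352.ND

open GF (Ix V Fn Fld Theory Sch IsLor bas eta o sim pd tr ev bar)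
open H246 H496 H755 H15 H846 H246R H746 N86 NC
open UniformSpace (Completion)

variable {D : Type*} [NormedAddCommGroup D] [InnerProductSpace ℂ D]
variable {Q : GF.Theory D} {T : Ix → Ix → GF.Fld D} {J : Ix → GF.Fld D}
variable {H : D → D} {alg : Set V → Set (D → D)} {S : V → ℝ → D → D} {G : V → D → D}
variable {A : (V → V) → D → D}

theorem ks_of (N : CNet Q H alg S) (Gg : Gnr Q alg S G) (R : H15.Rep Q A) :
    NF.KS Q A G := by
  refine { R with symm := ?_, cov := ?_, tra := ?_ }
  · intro a v w ha
    exact H496.G_adj N Gg ha v w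
  · intro s L r a b v hs hr hL ha hb hab
    have h := H246D.G_cov N Gg ha hb hs hr hL hab v
    have hr' : (r : ℂ) ≠ 0 := by exact_mod_cast hr.ne'
    have hs' : (s : ℂ) ≠ 0 := by exact_mod_cast hs.ne'
    rw [h, smul_smul]
    have e : ((r / s : ℝ) : ℂ) * ((s / r : ℝ) : ℂ) = 1 := by
      push_cast
      field_simp
    rw [e, one_smul]
  · intro a x v ha hx
    have hx' : GF.mdot a (-x) = 0 := by
      rw [← neg_one_smul ℝ x, md_smul, hx, mul_zero]
    have h := W_plane N Gg R ha hx' v
    unfold Wop at h
    rw [neg_neg] at h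
    have e : Yx a (-x) = XX a x := by
      funext z
      rw [Yx_eq]
      unfold XX cK
      funext n
      simp only [Pi.add_apply, Pi.sub_apply, Pi.smul_apply, smul_eq_mul, Pi.neg_apply, GF.mdot,
        Fin.sum_univ_four]
      ring
    rw [e] at h
    rw [← sub_eq_zero, ← h]
    abel

/-- the second derivative of the translated generators annihilates the vectors created by the
stress tensor -/
theorem xi_tvec (hT : Q.IsStress T) (hJ : IsVirial Q T J) (N : CNet Q H alg S)
    (Gg : Gnr Q alg S G) (R : H15.Rep Q A) {a : V} (ha : IsNull a) (x : V)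
    (g : Ix → Ix → 𝓢(Mink, ℂ)) : Xi A G a x (tvec Q T g) = 0 :=
  NF.Xi_zero hT hJ (ks_of N Gg R) ha x g

theorem xi_T (hT : Q.IsStress T) (hJ : IsVirial Q T J) (N : CNet Q H alg S)
    (Gg : Gnr Q alg S G) (R : H15.Rep Q A) {a : V} (ha : IsNull a) (x : V) (m n : Ix) {f : Fn}
    (hf : GF.IsTest f) : Xi A G a x (T m n f Q.vac) = 0 := by
  obtain ⟨F, rfl⟩ := exists_fl hf
  have h0 : ∀ m n, T m n (fl (0 : 𝓢(Mink, ℂ))) Q.vac = 0 := fun m n =>
    (fcl (Q.bose_fld _ (hT.bose m n)) Q.vac).map_zero
  have h := xi_tvec hT hJ N Gg R ha x (fun m' n' => if m' = m then (if n' = n then F else 0) else 0)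
  have e : tvec Q T (fun m' n' => if m' = m then (if n' = n then F else 0) else 0) =
      T m n (fl F) Q.vac := by
    unfold tvec
    rw [Finset.sum_eq_single m, Finset.sum_eq_single n]
    · simp
    · intro n' _ hn
      simp only [if_true, if_neg hn, h0]
    · simp
    · intro m' _ hm
      simp only [if_neg hm, h0, Finset.sum_const_zero]
    · simp
  rwa [e] at h

theorem h_eq (N : CNet Q H alg S) (R : H15.Rep Q A) (v : D) : H v = A (fun _ => bas o 1) v := by
  have h1 := N.energy v
  have h2 : HasDerivAt (fun t : ℝ => Q.U 1 GF.one (bas o t) v) (I • A (fun _ => bas o 1) v) 0 := by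
    refine R.der (fun _ => 1) (fun _ => GF.one) (fun e => bas o e) (fun _ => bas o 1) _ rfl rfl
      ?_ (fun _ => ⟨one_pos, isLor_one⟩) fun n x => ?_
    · funext n
      simp [bas]
    have e : (fun e : ℝ => sim 1 GF.one (bas o e) x n) = fun e : ℝ => e * bas o 1 n + x n := by
      funext e
      simp [sim, GF.one, bas]
    rw [e]
    simpa using ((hasDerivAt_id (0 : ℝ)).mul_const (bas o 1 n)).add_const (x n)
  have h3 := h1.unique h2
  exact smul_right_injective D I_ne_zero h3

end Vale.Agent.P352.ND

end
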