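import Vale.Agent.P352.ND.X3d
import Vale.Agent.P352.ND.A3c
import Vale.Agent.P352.ND.S1

/-!
# P352 ND: the second differences of the generators of the null deformations vanish
-/

set_option linter.all false

noncomputable section

open MeasureTheory Filter Topology SchwartzMap Complex Set
open scoped SchwartzMap ComplexConjugate ContDiff LineDeriv

namespace Vale.Agent.P352.ND

open GF (Ix V Fn Fld Theory Sch IsLor bas o sim pd tr ev bar)
open H246 H496 H755 H15 H846 H246R H746 N86 NC
open UniformSpace (Completion)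

variable {D : Type*} [NormedAddCommGroup D] [InnerProductSpace ℂ D]
variable {Q : GF.Theory D} {T : Ix → Ix → GF.Fld D} {J : Ix → GF.Fld D}
variable {A : (V → V) → D → D} {G : V → D → D}
variable {H : D → D} {alg : Set V → Set (D → D)} {S : V → ℝ → D → D}

/-- **Step (5)**: the second derivatives of the generators of the null deformations vanish -/
theorem xi_nd (hT : Q.IsStress T) (hJ : IsVirial Q T J) (N : CNet Q H alg S)
    (Gg : Gnr Q alg S G) (hP : PCh Q T A) (h : NF.KS Q A G) {a b : V} (ha : IsNull a)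
    (hb : IsNull b) (hab : GF.mdot a b = 1) (v : D) : Xi A G a b v = 0 :=
  xi_of_boost hT h ha hb hab (fun v => com_P hT h.toRep hP (NF.Xi_symm hT h ha b)
    (fun m n f v hf hc => xiT hT hJ N Gg h ha b m n f v hf hc) (NF.f4_Nf_sim a b) v) v

/-- the second differences vanish -/
theorem sd_nd (hT : Q.IsStress T) (hJ : IsVirial Q T J) (N : CNet Q H alg S)
    (Gg : Gnr Q alg S G) (hP : PCh Q T A) (h : NF.KS Q A G) {a b : V} (ha : IsNull a)
    (hb : IsNull b) (hab : GF.mdot a b = 1) (u t : ℝ) (v : D) : Sd Q A G a b u t v = 0 :=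
  sd_of_xi h (lb_of N Gg) ha hb hab (xi_nd hT hJ N Gg hP h ha hb hab) u t v

/-- the hypothesis `hx` of `ngen_of` -/
theorem hx_of (hT : Q.IsStress T) (hJ : IsVirial Q T J) (N : CNet Q H alg S)
    (Gg : Gnr Q alg S G) (R : H15.Rep Q A) (hP : PCh Q T A) (a b : V) (ha : IsNull a)
    (hb : IsNull b) (hab : GF.mdot a b = 1) (v : D) : Xi A G a b v = 0 :=
  xi_nd hT hJ N Gg hP (ks_of N Gg R) ha hb hab v

end Vale.Agent.P352.ND

end
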