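import Vale.Agent.P352.ND.X0
import Vale.Agent.P352.NF.F7

/-!
# P352 ND: assembly of the special conformal generators up to neutral charges
-/

set_option linter.all false

noncomputable section

open MeasureTheory Filter Topology SchwartzMap Complex
open scoped SchwartzMap ComplexConjugate ContDiff

namespace Vale.Agent.P352.ND

open GF (Ix V Fn Fld Theory Sch IsLor bas o sim pd tr ev bar)
open H246 H496 H755 H15 H846 H246R H746 N86 NC NF
open H121 (Cop)
open G (NGen)

variable {D : Type*} [NormedAddCommGroup D] [InnerProductSpace ℂ D]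
variable {Q : GF.Theory D} {T : Ix → Ix → GF.Fld D} {J : Ix → GF.Fld D}
variable {A : (V → V) → D → D} {K : V → D → D}

open Classical in
/-- the charge with a choice of the second null vector -/
def Cc (Q : Theory D) (A : (V → V) → D → D) (K : V → D → D) (a : V) (v : D) : D :=
  if ha : IsNull a then Cop Q A K a (Classical.choose (H755.exists_dual ha)) v else 0

/-- the same charge -/
lemma cc_eq (h : KS Q A K) (hl : LB Q K) {a b : V} (ha : IsNull a) (hb : IsNull b)
    (hab : GF.mdot a b = 1) (hx : ∀ v, Xi A K a b v = 0) (v : D) :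
    Cc Q A K a v = Cop Q A K a b v := by
  have hc := Classical.choose_spec (H755.exists_dual ha)
  simp only [Cc, dif_pos ha]
  exact cop_b h (ck_of h hl) ha hb hab (fun u t v => sd_of_xi h hl ha hb hab hx u t v) hc.1 hc.2 v

/-- **Special conformal generators up to neutral charges**. -/
theorem ngen_of (h : KS Q A K) (hl : LB Q K)
    (hx : ∀ a b, IsNull a → IsNull b → GF.mdot a b = 1 → ∀ v, Xi A K a b v = 0)
    (hJ : ∀ a b, IsNull a → IsNull b → GF.mdot a b = 1 → ∀ m f v, GF.IsTest f →
      Cop Q A K a b (J m f v) = J m f (Cop Q A K a b v))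
    (hK : ∀ a b, IsNull a → IsNull b → GF.mdot a b = 1 → ∀ c v, IsNull c →
      Cop Q A K a b (K c v) = K c (Cop Q A K a b v))
    (hA : ∀ a b, IsNull a → IsNull b → GF.mdot a b = 1 → ∀ X v, IsSim 0 X →
      Cop Q A K a b (A X v) = A X (Cop Q A K a b v)) :
    NGen Q J A K (Cc Q A K) := by
  have e : ∀ (a : V) (ha : IsNull a) (v : D), Cc Q A K a v =
      Cop Q A K a (Classical.choose (H755.exists_dual ha)) v := fun a ha v => by
    simp only [Cc, dif_pos ha]
  have hc : ∀ (a : V) (ha : IsNull a), IsNull (Classical.choose (H755.exists_dual ha)) ∧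
      GF.mdot a (Classical.choose (H755.exists_dual ha)) = 1 := fun a ha =>
    Classical.choose_spec (H755.exists_dual ha)
  have htra : ∀ a x v, IsNull a → Q.U 1 GF.one x (K a (Q.U 1 GF.one (-x) v)) = K a v +
      A (fun z => -(2 * GF.mdot a x) • z + (2 * GF.mdot x z) • a - (2 * GF.mdot a z) • x +
        cK a x) v - ((2 * GF.mdot a x : ℝ) : ℂ) • Cc Q A K a v := by
    intro a x v ha
    obtain ⟨hb, hab⟩ := hc a ha
    rw [e a ha]
    exact k_shift h (ck_of h hl) ha hb hab
      (fun u t v => sd_of_xi h hl ha hb hab (hx a _ ha hb hab) u t v) x v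
  have hs : ∀ a v w, IsNull a → inner ℂ (Cc Q A K a v) w = inner ℂ v (Cc Q A K a w) := by
    intro a v w ha
    rw [e a ha, e a ha]
    exact cop_symm h ha _ v w
  exact
    { toRep := h.toRep
      symm := h.symm
      cov := h.cov
      tra := htra
      comJ := fun a m f v ha hf => by
        rw [e a ha, e a ha]
        exact hJ a _ ha (hc a ha).1 (hc a ha).2 m f v hf
      comK := fun a b v ha hb => by
        rw [e a ha, e a ha]
        exact hK a _ ha (hc a ha).1 (hc a ha).2 b v hb
      comA := fun a r X v ha hX => f7_comA hs h.toRep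
        (fun a s v ha hs' => f7_dil h.toRep h.cov htra a s v ha hs') ha
        (fun X v hX => by
          rw [e a ha, e a ha]
          exact hA a _ ha (hc a ha).1 (hc a ha).2 X v hX) hX v
      vac := fun a ha => by
        rw [e a ha]
        exact cop_vac h ha _ (f7_K_vac h.cov ha)
      symC := hs }

end Vale.Agent.P352.ND

end
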