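import Vale.Agent.P352.ND.W1
import Vale.Agent.P352.H246.Main

set_option linter.all false

/-!
# Families of distributions that commute with the fields smeared in opposite wedges
-/

noncomputable section

open MeasureTheory SchwartzMap Complex Filter Topology
open scoped SchwartzMap ComplexConjugate ENNReal LineDeriv

namespace Vale.Agent.P352.ND

open GF (Ix V Fn Sch ev pd bar sim bas o)
open H246 H15 H496
open UniformSpace (Completion)

variable {D : Type*} [NormedAddCommGroup D] [InnerProductSpace ℂ D]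
variable {Q : GF.Theory D}

/-- The operators `K a` act locally on the fields `J m` relative to the fields smeared in opposite
wedges bounded by null hyperplanes orthogonal to `a`. -/
def NLocF (Q : GF.Theory D) (J : Ix → GF.Fld D) (K : V → D → D) : Prop :=
  ∀ (a : V) (m : Ix) (B : GF.Fld D) (g f : Fn) (v : D), IsNull a → Q.fld B → GF.IsTest g →
    HasCompactSupport g → In (cc (tsupport g)) f → Wsep a f (tsupport g) →
    B g (K a (J m f v)) - B g (J m f (K a v)) = K a (J m f (B g v)) - J m f (K a (B g v))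

/-- families of operator valued distributions, labelled by null pairs, with the same vacuum
vectors, that commute with the fields smeared in opposite wedges -/
structure VFam (Q : GF.Theory D) (Z : V → V → GF.Fld D) : Prop where
  adj : ∀ a b f v w, NPr a b → GF.IsTest f →
    inner ℂ (Z a b f v) w = inner ℂ v (Z a b (bar f) w)
  lin : ∀ a b (f g : Fn) (c : ℝ) v, NPr a b → GF.IsTest f → GF.IsTest g →
    Z a b (fun x => f x + c * g x) v = Z a b f v + (c : ℂ) • Z a b g v
  cont : ∀ a b v, NPr a b → Continuous fun g => Z a b (ev g) v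
  vac : ∀ a b a' b' f, NPr a b → NPr a' b' → GF.IsTest f → Z a b f Q.vac = Z a' b' f Q.vac
  com : ∀ (a b : V) (B : GF.Fld D) (g f : Fn) (v : D), NPr a b → Q.fld B → GF.IsTest g →
    HasCompactSupport g → In (cc (tsupport g)) f → Wsep a f (tsupport g) →
    Wsep b f (tsupport g) → B g (Z a b f v) = Z a b f (B g v)

variable {Z : V → V → GF.Fld D}

section lin

variable (h : VFam Q Z) {a b : V} (hp : NPr a b)
include h hp

lemma VFam.addv {f : Fn} (hf : GF.IsTest f) (v w : D) :
    Z a b f (v + w) = Z a b f v + Z a b f w := by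
  refine ext_inner_right ℂ fun u => ?_
  rw [inner_add_left, h.adj _ _ _ _ _ hp hf, h.adj _ _ _ _ _ hp hf, h.adj _ _ _ _ _ hp hf,
    inner_add_left]

lemma VFam.smulv {f : Fn} (hf : GF.IsTest f) (c : ℂ) (v : D) :
    Z a b f (c • v) = c • Z a b f v := by
  refine ext_inner_right ℂ fun u => ?_
  rw [inner_smul_left, h.adj _ _ _ _ _ hp hf, h.adj _ _ _ _ _ hp hf, inner_smul_left]

lemma VFam.addf (f g : 𝓢(Mink, ℂ)) (v : D) :
    Z a b (fl (f + g)) v = Z a b (fl f) v + Z a b (fl g) v := by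
  have h1 := h.lin a b (fl f) (fl g) 1 v hp (isTest_fl f) (isTest_fl g)
  rw [ofReal_one, one_smul] at h1
  rw [← h1]
  congr 1
  funext x
  simp

lemma VFam.zerof (v : D) : Z a b (fl (0 : 𝓢(Mink, ℂ))) v = 0 := by
  have h1 := h.addf hp 0 0 v
  rw [add_zero] at h1
  exact left_eq_add.1 h1

lemma VFam.contf (v : D) : Continuous fun g : 𝓢(Mink, ℂ) => Z a b (fl g) v :=
  (h.cont a b v hp).comp toSchL.continuous

end lin

/-- the operators do not depend on the null pair -/
theorem VFam.agree (h : VFam Q Z) {a b a' b' : V} (hp : NPr a b) (hp' : NPr a' b') {f : Fn}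
    (hf : GF.IsTest f) (v : D) : Z a b f v = Z a' b' f v := by
  have key : ∀ F : 𝓢(Mink, ℂ), HasCompactSupport F → Z a b (fl F) v = Z a' b' (fl F) v := by
    intro F hF
    have hK : IsCompact (tsupport (fl F)) := hasCompactSupport_fl hF
    set c : Fin 4 → V := ![a, b, a', b'] with hc
    have hcn : ∀ i, IsNull (c i) := by
      intro i
      fin_cases i
      · exact hp.1
      · exact hp.2.1
      · exact hp'.1
      · exact hp'.2.1
    obtain ⟨S, hS, hSK, hSep⟩ := exists_bigW hK c hcn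
    have step : ∀ G : 𝓢(Mink, ℂ), tsupport (fl G) = tsupport (fl F) → HasCompactSupport G →
        ∀ w, PW Q (MW S) w → Z a b (fl G) w = Z a' b' (fl G) w := by
      intro G hG hGc w hw
      induction hw with
      | vac => exact h.vac a b a' b' _ hp hp' (isTest_fl G)
      | add _ _ h1 h2 =>
        rw [h.addv hp (isTest_fl G), h.addv hp' (isTest_fl G), h1, h2]
      | smul c _ h1 =>
        rw [h.smulv hp (isTest_fl G), h.smulv hp' (isTest_fl G), h1]
      | @fld B g v hB hg _ h1 =>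
        have hO : HasCompactSupport (fl g) := hasCompactSupport_fl hg.1
        have hOS : tsupport (fl g) ⊆ S := (In_fl.2 hg).2.2
        have hcc : In (cc (tsupport (fl g))) (fl G) := by
          refine ⟨isTest_fl G, hasCompactSupport_fl hGc, fun x hx y hy => ?_⟩
          have h2 := hSK (hOS hy) x (by rw [← hG]; exact hx)
          rw [mdot_symm'] at h2
          exact h2
        have s1 := fun i => hSep _ hOS (fl G) hG.le i
        rw [← h.com a b _ _ _ v hp hB (isTest_fl g) hO hcc (s1 0) (s1 1),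
          ← h.com a' b' _ _ _ v hp' hB (isTest_fl g) hO hcc (s1 2) (s1 3), h1]
    have hcs : HasCompactSupport (conjS F) := by
      have h1 : HasCompactSupport (bar (fl F)) := by
        rw [HasCompactSupport, tsupport_bar]
        exact hK
      rw [bar_fl] at h1
      exact hasCompactSupport_of_fl h1
    have hts : tsupport (fl (conjS F)) = tsupport (fl F) := by
      rw [← bar_fl, tsupport_bar]
    refine (dense_big (Q := Q) hS).eq_of_inner_left ℂ fun w hw => ?_
    have hw' : PW Q (MW S) w := hw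
    rw [h.adj _ _ _ _ _ hp (isTest_fl F), h.adj _ _ _ _ _ hp' (isTest_fl F), bar_fl,
      step _ hts hcs w hw']
  obtain ⟨F, rfl⟩ := exists_fl hf
  obtain ⟨g, hg, hlim⟩ := exists_compact_seq F
  have h1 := ((h.contf hp v).tendsto F).comp hlim
  have h2 := ((h.contf hp' v).tendsto F).comp hlim
  have e : ((fun g : 𝓢(Mink, ℂ) => Z a b (fl g) v) ∘ g) =
      (fun g : 𝓢(Mink, ℂ) => Z a' b' (fl g) v) ∘ g := by
    funext n
    exact key _ (hg n)
  rw [e] at h1
  exact tendsto_nhds_unique h1 h2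

/-- opposite wedges -/
lemma wdg_of {θ φ : ℝ} {c : V} {f g : 𝓢(Mink, ℂ)} (hf : IsTest (MW (Wed (Rt θ φ) c 1)) f)
    (hg : IsTest (MW (Wed (Rt θ φ) c (-1))) g) :
    tsupport (fl f) ⊆ Wdg (wa θ φ) (wb θ φ) c ∧ tsupport (fl g) ⊆ Wdg (wb θ φ) (wa θ φ) c := by
  have hf' := (In_fl.2 hf).2.2
  have hg' := (In_fl.2 hg).2.2
  have hs : ∀ b x : V, GF.mdot b (x - c) = GF.mdot b x - GF.mdot b c := by
    intro b x
    have : x = (x - c) + c := by abel
    have h2 : GF.mdot b x = GF.mdot b (x - c) + GF.mdot b c := by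
      conv_lhs => rw [this]
      rw [mdot_comm'', mdot_add_left', mdot_comm'' _ b, mdot_comm'' _ b]
    linarith
  refine ⟨fun x hx => ?_, fun y hy => ?_⟩
  · have h1 := (mem_Wed_Rt θ φ c 1 x).1 (hf' hx)
    rw [one_mul, nd_sub] at h1
    refine ⟨?_, ?_⟩
    · rw [hs, mdot_wa, mdot_wa]
      have := (abs_lt.1 h1).2
      linarith
    · rw [hs, mdot_wb, mdot_wb]
      have := (abs_lt.1 h1).1
      linarith
  · have h1 := (mem_Wed_Rt θ φ c (-1) y).1 (hg' hy)
    rw [nd_sub] at h1
    refine ⟨?_, ?_⟩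
    · rw [hs, mdot_wb, mdot_wb]
      have := (abs_lt.1 h1).2
      linarith
    · rw [hs, mdot_wa, mdot_wa]
      have := (abs_lt.1 h1).1
      linarith

/-- locality relative to the fields in opposite wedges -/
lemma VFam.wedgeQ (h : VFam Q Z) {B : GF.Fld D} (hB : Q.fld B) {a b : V} (hp : NPr a b)
    {θ φ : ℝ} {c : V} {f g : 𝓢(Mink, ℂ)} (hf : IsTest (MW (Wed (Rt θ φ) c 1)) f)
    (hg : IsTest (MW (Wed (Rt θ φ) c (-1))) g) (v : D) :
    Z a b (fl f) (B (fl g) v) = B (fl g) (Z a b (fl f) v) := by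
  rw [h.agree hp (npr_w θ φ) (isTest_fl f), h.agree hp (npr_w θ φ) (isTest_fl f)]
  have hO : HasCompactSupport (fl g) := hasCompactSupport_fl hg.1
  have hcc : In (cc (tsupport (fl g))) (fl f) :=
    ⟨isTest_fl f, hasCompactSupport_fl hf.1,
      cc_of_sep (sep_fl (wed_sep (isLor_Rt θ φ) c hf hg))⟩
  have hn := npr_w θ φ
  obtain ⟨k1, k2⟩ := wdg_of hf hg
  refine (h.com _ _ _ _ _ v hn hB (isTest_fl g) hO hcc ?_ ?_).symm
  · exact ⟨wb θ φ, c, hn.2.1, by rw [hn.2.2]; norm_num, Or.inl ⟨k1, k2⟩⟩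
  · exact ⟨wa θ φ, c, hn.1, by rw [mdot_comm'', hn.2.2]; norm_num, Or.inr ⟨k1, k2⟩⟩

lemma VFam.comm_al (h : VFam Q Z) {a b : V} (hp : NPr a b) {θ φ : ℝ} {c : V}
    {f : 𝓢(Mink, ℂ)} (hf : IsTest (MW (Wed (Rt θ φ) c 1)) f) {X X' : D → D}
    (hX : Al Q (Wed (Rt θ φ) c (-1)) X X') :
    ∀ v, Z a b (fl f) (X v) = X (Z a b (fl f) v) := by
  induction hX with
  | one => intro v; rfl
  | add X X' Y Y' _ _ ih1 ih2 => intro v; rw [h.addv hp (isTest_fl f), ih1, ih2]
  | smul c X X' _ ih => intro v; rw [h.smulv hp (isTest_fl f), ih]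
  | fld B B' g X X' hB hB' hadj hg _ ih =>
    intro v
    obtain ⟨G, rfl, hG⟩ := exists_In hg
    rw [h.wedgeQ hB hp hf hG, ih]

/-- the trace identity -/
theorem VFam.trace (h : VFam Q Z) {T : Ix → Ix → GF.Fld D} (hT : Q.IsStress T) {a b : V}
    (hp : NPr a b)
    (hv : ∀ f, GF.IsTest f → GF.tr T f Q.vac = (3 : ℂ) • Z a b (box f) Q.vac)
    {f : Fn} (hf : GF.IsTest f) (v : D) : GF.tr T f v = (3 : ℂ) • Z a b (box f) v := by
  have hA := PField.tr hT
  have hz2 : ∀ (f : 𝓢(Mink, ℂ)) (v : D),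
      GF.tr T (fl f) v - (3 : ℂ) • Z a b (fl (boxS f)) v = 0 := by
    intro f v
    refine van (Q := Q) (B := fun f v => GF.tr T (fl f) v - (3 : ℂ) • Z a b (fl (boxS f)) v)
      (B' := fun f v => GF.tr T (fl f) v - (3 : ℂ) • Z a b (fl (boxS f)) v) ?_ ?_ ?_ ?_ f v
    · intro f v w
      rw [inner_sub_left, inner_sub_right, inner_smul_left, inner_smul_right, hA.herm,
        h.adj _ _ _ _ _ hp (isTest_fl _), bar_fl, conjS_boxS, map_ofNat]
    · intro f c X X' hf hX
      rw [h.comm_al hp (isTest_box hf) hX,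
        hX.comm hA (fun G hG => wed_sep (isLor_Rt 0 0) c hf hG)]
      have := (hX.map_add (GF.tr T (fl f) Q.vac)
        ((-1 : ℂ) • ((3 : ℂ) • Z a b (fl (boxS f)) Q.vac)))
      rw [hX.map_smul, hX.map_smul, neg_one_smul, neg_one_smul, ← sub_eq_add_neg,
        ← sub_eq_add_neg] at this
      exact this.symm
    · intro f hf'
      rw [sub_eq_zero]
      have h1 := hv (fl f) (isTest_fl _)
      rwa [box_fl] at h1
    · intro v
      exact (hA.cont v).sub (((h.contf hp v).comp continuous_boxS).const_smul (3 : ℂ))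
  obtain ⟨F, rfl⟩ := exists_fl hf
  rw [box_fl]
  exact sub_eq_zero.1 (hz2 F v)

/-! ### The wedge relation of the potential -/

section

variable {T : Ix → Ix → GF.Fld D} {μ : Measure Mink} {A : GF.Fld D}
variable (S : SymMeasure μ 4) (hA : PField Q T A 4) (two : Two Q A μ)

include two in
/-- the wedge relation for the operators that commute with the field in the opposite wedge -/
theorem wedge_relX {L : Ix → V} (hL : GF.IsLor L) (a : V) {f : 𝓢(Mink, ℂ)}
    (hf : IsTest (MW (Wed L a 1)) f) {X X' : D → D}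
    (hadj : ∀ v w, inner ℂ (X' v) w = inner ℂ v (X w))
    (hcom : ∀ g : 𝓢(Mink, ℂ), IsTest (MW (Wed L a 1)) g →
      A (fl g) (X Q.vac) = X (A (fl g) Q.vac)) :
    inner ℂ ((X' Q.vac : D) : Completion D) (lamV S hA f) =
      inner ℂ (lamV S hA (conjS f)) ((X Q.vac : D) : Completion D) := by
  set Jd := ContinuousLinearMap.adjoint (J S hA) with hJd
  set x := Jd ((X' Q.vac : D) : UniformSpace.Completion D) with hx
  set y := Jd ((X Q.vac : D) : UniformSpace.Completion D) with hy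
  have ex : ∀ φ, inner ℂ ((X' Q.vac : D) : UniformSpace.Completion D) (J S hA φ) =
      inner ℂ x φ := fun φ => (ContinuousLinearMap.adjoint_inner_left _ _ _).symm
  have ey : ∀ φ, inner ℂ (J S hA φ) ((X Q.vac : D) : UniformSpace.Completion D) =
      inner ℂ φ y := fun φ => (ContinuousLinearMap.adjoint_inner_right _ _ _).symm
  have hxm : MemLp (fun p => conj (x p)) 2 μ := (Lp.memLp x).star
  have e1 : ∀ f, inner ℂ x (toL S.good.temp f) = ∫ p, mft f p * conj (x p) ∂μ := by
    intro f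
    rw [L2.inner_def]
    apply integral_congr_ae
    filter_upwards [coeFn_toL S.good.temp f] with p hp
    rw [hp]
    simp
  have e2 : ∀ f, inner ℂ x (toI S f) = ∫ p, mft f p * ((im p : ℂ) * conj (x p)) ∂μ := by
    intro f
    rw [L2.inner_def]
    apply integral_congr_ae
    filter_upwards [coeFn_toI S f] with p hp
    rw [hp]
    simp only [RCLike.inner_apply]
    ring
  have key := wed_im S hL a hxm (Lp.memLp y) (fun g hg => by
    rw [← e1, ← inner_toL S.good.temp, ← ex, ← ey, J_toL S hA two, J_toL S hA two, hA.kap_apply,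
      hA.kap_apply, UniformSpace.Completion.inner_coe, UniformSpace.Completion.inner_coe,
      hadj, ← hcom g hg, hA.herm, conjS_conjS]) f hf
  rw [← e2, ← inner_toI S] at key
  rw [lamV_apply, lamV_apply, inner_smul_right, inner_smul_left, ex, ey, key]
  simp only [map_neg, map_div₀, map_one, map_ofNat]

end

/-- the wedge relation -/
theorem isPot_relX {T : Ix → Ix → GF.Fld D} (hT : Q.IsStress T) {l : Fn → Completion D}
    (hl : IsPot Q T l) {L : Ix → V} (hL : GF.IsLor L) (a : V) {f : 𝓢(Mink, ℂ)}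
    (hf : IsTest (MW (Wed L a 1)) f) {X X' : D → D}
    (hadj : ∀ v w, inner ℂ (X' v) w = inner ℂ v (X w))
    (hcom : ∀ g : 𝓢(Mink, ℂ), IsTest (MW (Wed L a 1)) g →
      GF.tr T (fl g) (X Q.vac) = X (GF.tr T (fl g) Q.vac)) :
    inner ℂ ((X' Q.vac : D) : Completion D) (l (fl f)) =
      inner ℂ (l (bar (fl f))) ((X Q.vac : D) : Completion D) := by
  obtain ⟨μ, Sy, two⟩ := (PField.tr hT).exists_sym
  have hp := isPot_lamF Sy (PField.tr hT) two
  have hll : ∀ f, GF.IsTest f → l f = lamF Sy (PField.tr hT) f := fun f hf => hp.unique hl f hf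
  rw [hll _ (isTest_fl f), hll _ (isTest_bar (isTest_fl f)), bar_fl, lamF_fl, lamF_fl]
  exact wedge_relX Sy (PField.tr hT) two hL a hf hadj hcom

/-- adjoint distributions that are local relative to the bosonic fields -/
structure RelW (Q : GF.Theory D) (B B' : GF.Fld D) : Prop where
  adj : ∀ f v w, GF.IsTest f → inner ℂ (B f v) w = inner ℂ v (B' (bar f) w)
  loc : ∀ A f g v, Q.bose A → GF.IsTest f → GF.IsTest g → GF.Sep f g →
    A f (B g v) = B g (A f v)
  loc' : ∀ A f g v, Q.bose A → GF.IsTest f → GF.IsTest g → GF.Sep f g →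
    A f (B' g v) = B' g (A f v)

lemma RelW.of {B B' : GF.Fld D} (h : RelF Q B B') : RelW Q B B' := ⟨h.adj, h.loc, h.loc'⟩

lemma RelW.adj' {B B' : GF.Fld D} (h : RelW Q B B') (f : Fn) (v w : D) (hf : GF.IsTest f) :
    inner ℂ (B' f v) w = inner ℂ v (B (bar f) w) :=
  adj_symm (fun f v w hf => h.adj f v w hf) f v w hf

lemma RelW.swap {B B' : GF.Fld D} (h : RelW Q B B') : RelW Q B' B :=
  ⟨fun f v w hf => h.adj' f v w hf, h.loc', h.loc⟩

/-- relatively local fields commute with the trace -/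
lemma relF_tr {T : Ix → Ix → GF.Fld D} (hT : Q.IsStress T) {B B' : GF.Fld D}
    (hB : RelW Q B B') {f g : Fn} (hf : GF.IsTest f) (hg : GF.IsTest g) (hs : GF.Sep f g)
    (v : D) : GF.tr T f (B g v) = B g (GF.tr T f v) := by
  refine ext_inner_right ℂ fun u => ?_
  rw [hB.adj _ _ _ hg]
  unfold GF.tr
  rw [sum_inner, sum_inner]
  refine Finset.sum_congr rfl fun m _ => ?_
  rw [inner_smul_left, inner_smul_left, hB.loc _ _ _ _ (hT.bose m m) hf hg hs, hB.adj _ _ _ hg]

section rel

variable {T : Ix → Ix → GF.Fld D} (hT : Q.IsStress T) (h : VFam Q Z) {a b : V} (hp : NPr a b)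
  (hpot : IsPot Q T fun f => ((Z a b f Q.vac : D) : Completion D))
include hT h hp hpot

lemma VFam.wedge_aux {B B' : GF.Fld D} (hB : RelW Q B B') {θ φ : ℝ} {c : V}
    {f g : 𝓢(Mink, ℂ)} (hf : IsTest (MW (Wed (Rt θ φ) c 1)) f)
    (hg : IsTest (MW (Wed (Rt θ φ) c (-1))) g) {X X' : D → D}
    (hX : Al Q (Wed (Rt θ φ) c (-1)) X X') :
    Z a b (fl f) (B (fl g) (X Q.vac)) = B (fl g) (Z a b (fl f) (X Q.vac)) := by
  have hbig : Big (MW (Wed (Rt θ φ) c (-1))) := big_wed θ φ c
  refine (dense_big (Q := Q) hbig).eq_of_inner_right ℂ fun w hw => ?_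
  have hw' : PW Q (MW (Wed (Rt θ φ) c (-1))) w := hw
  obtain ⟨Y, Y', hY, rfl⟩ := exists_Al hw'
  have hfb : IsTest (MW (Wed (Rt θ φ) c 1)) (conjS f) := by
    rw [← In_fl, ← bar_fl]
    exact (In_fl.2 hf).bar
  -- the operator in the opposite wedge
  have h1 := isPot_relX hT hpot (isLor_Rt θ φ) c (f := f) hf
    (X := fun v => Y' (B (fl g) (X v))) (X' := fun v => X' (B' (bar (fl g)) (Y v)))
    (fun v w => by
      rw [hX.adj', hB.adj' _ _ _ (isTest_bar (isTest_fl g)), bar_bar, hY.adj])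
    (fun G hG => by
      rw [hY.star.comm (PField.tr hT) (fun G' hG' => wed_sep (isLor_Rt θ φ) c hG hG'),
        relF_tr hT hB (isTest_fl G) (isTest_fl g) (sep_fl (wed_sep (isLor_Rt θ φ) c hG hg)),
        hX.comm (PField.tr hT) (fun G' hG' => wed_sep (isLor_Rt θ φ) c hG hG')])
  simp only [Completion.inner_coe, bar_fl] at h1
  -- the left hand side
  have e1 : inner ℂ (Y Q.vac) (Z a b (fl f) (B (fl g) (X Q.vac))) =
      inner ℂ (Z a b (fl (conjS f)) Q.vac) (Y' (B (fl g) (X Q.vac))) := by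
    rw [← hY.adj, ← h.comm_al hp hfb hY, h.adj _ _ _ _ _ hp (isTest_fl _), bar_fl, conjS_conjS]
  have e2 : inner ℂ (Y Q.vac) (B (fl g) (Z a b (fl f) (X Q.vac))) =
      inner ℂ (X' (B' (bar (fl g)) (Y Q.vac))) (Z a b (fl f) Q.vac) := by
    rw [hX.adj', ← h.comm_al hp hf hX, hB.adj' _ _ _ (isTest_bar (isTest_fl g)), bar_bar]
  rw [e1, e2, bar_fl, ← h1]

/-- locality in opposite wedges -/
lemma VFam.wedge {B B' : GF.Fld D} (hB : RelF Q B B') {θ φ : ℝ} {c : V}
    {f g : 𝓢(Mink, ℂ)} (hf : IsTest (MW (Wed (Rt θ φ) c 1)) f)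
    (hg : IsTest (MW (Wed (Rt θ φ) c (-1))) g) (v : D) :
    Z a b (fl f) (B (fl g) v) = B (fl g) (Z a b (fl f) v) := by
  have hbig : Big (MW (Wed (Rt θ φ) c (-1))) := big_wed θ φ c
  refine (dense_big (Q := Q) hbig).eq_of_inner_left ℂ fun w hw => ?_
  have hw' : PW Q (MW (Wed (Rt θ φ) c (-1))) w := hw
  obtain ⟨X, X', hX, rfl⟩ := exists_Al hw'
  have hfb : IsTest (MW (Wed (Rt θ φ) c 1)) (conjS f) := by
    rw [← In_fl, ← bar_fl]
    exact (In_fl.2 hf).bar
  have hgb : IsTest (MW (Wed (Rt θ φ) c (-1))) (conjS g) := by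
    rw [← In_fl, ← bar_fl]
    exact (In_fl.2 hg).bar
  have hB' : RelW Q B' B := (RelW.of hB).swap
  have h1 := VFam.wedge_aux hT h hp hpot hB' hfb hgb hX
  rw [h.adj _ _ _ _ _ hp (isTest_fl f), hB.adj _ _ _ (isTest_fl g), hB.adj _ _ _ (isTest_fl g),
    h.adj _ _ _ _ _ hp (isTest_fl f), bar_fl, bar_fl, h1]

/-- locality for test functions with compact support -/
lemma VFam.loc_comp {B B' : GF.Fld D} (hB : RelF Q B B') {f g : 𝓢(Mink, ℂ)}
    (hf : IsTest Set.univ f) (hg : IsTest Set.univ g)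
    (hs : SpSep f g) (v : D) : Z a b (fl f) (B (fl g) v) = B (fl g) (Z a b (fl f) v) := by
  have hz : ∀ f : 𝓢(Mink, ℂ), Z a b (fl f) 0 = 0 := by
    intro f
    have h1 := h.smulv hp (isTest_fl f) 0 0
    rwa [zero_smul, zero_smul] at h1
  have step : ∀ x ∈ tsupport f, ∃ U, IsOpen U ∧ x ∈ U ∧ ∀ f', IsTest U f' →
      Z a b (fl f') (B (fl g) v) = B (fl g) (Z a b (fl f') v) := by
    intro x hx
    obtain ⟨U, hU, hKU, h1⟩ := part_induct (P := fun g' => ∃ U, IsOpen U ∧ x ∈ U ∧
      ∀ f', IsTest U f' → Z a b (fl f') (B (fl g') v) = B (fl g') (Z a b (fl f') v))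
      (by
        refine ⟨Set.univ, isOpen_univ, trivial, fun f' hf' => ?_⟩
        rw [hB.zerof, hB.zerof, hz f'])
      (by
        rintro g1 g2 _ _ ⟨U1, hU1, hx1, h1⟩ ⟨U2, hU2, hx2, h2⟩
        refine ⟨U1 ∩ U2, hU1.inter hU2, ⟨hx1, hx2⟩, fun f' hf' => ?_⟩
        have e1 := h1 f' ⟨hf'.1, hf'.2.trans Set.inter_subset_left⟩
        have e2 := h2 f' ⟨hf'.1, hf'.2.trans Set.inter_subset_right⟩
        rw [hB.addf, hB.addf, h.addv hp (isTest_fl f'), e1, e2])
      hg.1.isCompact
      (by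
        intro y hy
        obtain ⟨θ, φ, c, hxa, hya⟩ := exists_sep (hs x hx y hy)
        exact ⟨_, isOpen_Wed_Rt θ φ c (-1), hya, fun g' hg' => ⟨_, isOpen_Wed_Rt θ φ c 1, hxa,
          fun f' hf' => VFam.wedge hT h hp hpot hB hf' hg' v⟩⟩)
    exact h1 g ⟨hg.1, hKU⟩
  obtain ⟨U, hU, hKU, h1⟩ := part_induct (P := fun f' =>
      Z a b (fl f') (B (fl g) v) = B (fl g) (Z a b (fl f') v))
    (by rw [h.zerof hp, h.zerof hp, hB.mapz])
    (by
      rintro f1 f2 _ _ e1 e2
      rw [h.addf hp, h.addf hp, hB.mapa, e1, e2])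
    hf.1.isCompact
    (by
      intro x hx
      exact step x hx)
  exact h1 f ⟨hf.1, hKU⟩

/-- locality relative to the distributions that are local relative to the fields -/
theorem VFam.locB {B B' : GF.Fld D} (hB : RelF Q B B') {f g : Fn} (hf : GF.IsTest f)
    (hg : GF.IsTest g) (hs : GF.Sep f g) (v : D) : Z a b f (B g v) = B g (Z a b f v) := by
  obtain ⟨F, rfl⟩ := exists_fl hf
  obtain ⟨G, rfl⟩ := exists_fl hg
  have hs' := spSep_of hs
  obtain ⟨u, hu, hus, hlim⟩ := exists_compact_sup F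
  obtain ⟨w, hw, hws, hlim'⟩ := exists_compact_sup G
  have hc : ∀ n m, Z a b (fl (u n)) (B (fl (w m)) v) = B (fl (w m)) (Z a b (fl (u n)) v) :=
    fun n m => VFam.loc_comp hT h hp hpot hB ⟨hu n, Set.subset_univ _⟩ ⟨hw m, Set.subset_univ _⟩
      (fun x hx y hy => hs' x (hus n hx) y (hws m hy)) v
  -- the second test function
  have h2 : ∀ n, Z a b (fl (u n)) (B (fl G) v) = B (fl G) (Z a b (fl (u n)) v) := by
    intro n
    refine ext_inner_right ℂ fun z => ?_
    have l1 : Tendsto (fun m => inner ℂ (Z a b (fl (u n)) (B (fl (w m)) v)) z) atTop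
        (𝓝 (inner ℂ (Z a b (fl (u n)) (B (fl G) v)) z)) := by
      simp only [h.adj _ _ _ _ _ hp (isTest_fl (u n))]
      exact (((hB.contf v).tendsto G).comp hlim').inner tendsto_const_nhds
    have l2 : Tendsto (fun m => inner ℂ (B (fl (w m)) (Z a b (fl (u n)) v)) z) atTop
        (𝓝 (inner ℂ (B (fl G) (Z a b (fl (u n)) v)) z)) :=
      (((hB.contf _).tendsto G).comp hlim').inner tendsto_const_nhds
    simp only [hc n] at l1
    exact tendsto_nhds_unique l1 l2
  refine ext_inner_right ℂ fun z => ?_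
  have l1 : Tendsto (fun n => inner ℂ (Z a b (fl (u n)) (B (fl G) v)) z) atTop
      (𝓝 (inner ℂ (Z a b (fl F) (B (fl G) v)) z)) :=
    (((h.contf hp _).tendsto F).comp hlim).inner tendsto_const_nhds
  have l2 : Tendsto (fun n => inner ℂ (B (fl G) (Z a b (fl (u n)) v)) z) atTop
      (𝓝 (inner ℂ (B (fl G) (Z a b (fl F) v)) z)) := by
    simp only [hB.adj _ _ _ (isTest_fl G)]
    exact (((h.contf hp v).tendsto F).comp hlim).inner tendsto_const_nhds
  simp only [h2] at l1
  exact tendsto_nhds_unique l1 l2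

/-- the family is an admissible operator valued distribution -/
lemma VFam.relF : RelF Q (Z a b) (Z a b) where
  lin := fun f g c v hf hg => h.lin a b f g c v hp hf hg
  cont := fun v => h.cont a b v hp
  adj := fun f v w hf => h.adj a b f v w hp hf
  loc := fun A f g v hA hf hg hs => by
    obtain ⟨B', hB', hadj⟩ := Q.adj A (Q.bose_fld A hA)
    exact (VFam.locB hT h hp hpot (relF_fld (Q.bose_fld A hA) hB' hadj) hg hf
      (sep_comm hs) v).symm
  loc' := fun A f g v hA hf hg hs => by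
    obtain ⟨B', hB', hadj⟩ := Q.adj A (Q.bose_fld A hA)
    exact (VFam.locB hT h hp hpot (relF_fld (Q.bose_fld A hA) hB' hadj) hg hf
      (sep_comm hs) v).symm

/-- the family is local -/
theorem VFam.loc_self {f g : Fn} (hf : GF.IsTest f) (hg : GF.IsTest g) (hs : GF.Sep f g)
    (v : D) : Z a b f (Z a b g v) = Z a b g (Z a b f v) :=
  VFam.locB hT h hp hpot (VFam.relF hT h hp hpot) hf hg hs v

end rel

end Vale.Agent.P352.ND
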