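import Vale.Agent.P352.H15.NPDefs
import Vale.Agent.P352.H496.Defs3

open MeasureTheory Filter Topology

namespace Vale.Agent.P352.ND

open GF H246 H496 H755 H15

noncomputable section

variable {D : Type*} [NormedAddCommGroup D] [InnerProductSpace ℂ D]

/-- The current `X^n T_{0n}` of `T` and the vector field `X`, smeared with `g`. -/
def cur (T : Ix → Ix → Fld D) (X : V → V) (g : Fn) (u : D) : D :=
  ∑ n, T o n (fun x => (eta n : ℂ) * X x n * g x) u

/-- The charges of the stress tensor `T` on space-like hyperplanes generate the Poincaré
transformations: the regularized charges of the currents `X^n T_{mn}`, `X` an infinitesimal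
Poincaré transformation, have the same commutators with the fields as the generators `A X`. -/
def PCh (Q : Theory D) (T : Ix → Ix → Fld D) (A : (V → V) → D → D) : Prop :=
  ∀ F X (B : Fld D) f v w, IsCutoff F → IsSim 0 X → Q.fld B → IsTest f → HasCompactSupport f →
    Tendsto (fun R => inner ℂ w (cur T X (F R) (B f v) - B f (cur T X (F R) v))) atTop
      (𝓝 (inner ℂ w (A X (B f v) - B f (A X v))))

/-- The algebras of wedges are generated by the Bose fields: the operators (with an adjoint on `D`)
that commute with the Bose fields smeared in a wedge commute with the algebra of the wedge. -/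
def Gend (Q : Theory D) (alg : Set V → Set (D → D)) : Prop :=
  ∀ a c y (P P' : D → D), IsNull a → IsNull c → 0 < mdot a c →
    (∀ v w, inner ℂ (P v) w = inner ℂ v (P' w)) →
    (∀ B f v, Q.bose B → In (Wdg a c y) f → P (B f v) = B f (P v) ∧ P' (B f v) = B f (P' v)) →
    ∀ X ∈ alg (Wdg a c y), ∀ v, P (X v) = X (P v)

/-- The operators `G a` are bounded on the orbits of the vectors of `D` under compact sets of
Poincaré transformations. -/
def OrbB (Q : Theory D) (G : V → D → D) : Prop :=
  ∀ a v (r : ℝ), IsNull a → ∃ C : ℝ, ∀ L y, IsLor L → (∀ m n, |L m n| ≤ r) →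
    (∀ m, |y m| ≤ r) → ‖G a (Q.U 1 L y v)‖ ≤ C

end

end Vale.Agent.P352.ND
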