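import Vale.Agent.P352.NF.Ks
import Vale.Agent.P352.NF.F4a
import Vale.Agent.P352.H731.Key

/-!
# P352 ND: operators `K` with vanishing second differences: the charge `C`
-/

set_option linter.all false

noncomputable section

open MeasureTheory Filter Topology SchwartzMap Complex
open scoped SchwartzMap ComplexConjugate ContDiff LineDeriv

namespace Vale.Agent.P352.ND

open GF (Ix V Fn Fld Theory Sch IsLor bas o sim pd tr ev bar)
open H246 H496 H755 H15 H846 H246R H746 N86 NC NF
open H121 (Cop kt)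
open UniformSpace (Completion)

variable {D : Type*} [NormedAddCommGroup D] [InnerProductSpace ℂ D]
variable {Q : GF.Theory D}
variable {A : (V → V) → D → D} {K : V → D → D}

/-- the translated operators depend continuously on the translation along null vectors -/
def CK (Q : GF.Theory D) (K : V → D → D) : Prop := ∀ a b v w, IsNull a → IsNull b →
  Continuous fun u : ℝ => inner ℂ w (Q.U 1 GF.one (u • b) (K a (Q.U 1 GF.one (-(u • b)) v)))

lemma f5_conj (R : H15.Rep Q A) {r : ℝ} {X : V → V} (hX : IsSim r X) (y : V) (v : D) :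
    Q.U 1 GF.one y (A X (Q.U 1 GF.one (-y) v)) = A (fun z => X (z - y)) v := by
  have h := A_tra R hX (-y) v
  rw [neg_neg] at h
  exact h

lemma f5_cont (h : KS Q A K) (hc : CK Q K) {a b : V} (ha : IsNull a) (hb : IsNull b) (v w : D) :
    Continuous (kt Q A K a b v w) := by
  have h1 := hc a b v w ha hb
  unfold kt
  fun_prop

lemma f5_aff (h : KS Q A K) (hc : CK Q K) {a b : V} (ha : IsNull a) (hb : IsNull b)
    (hz : ∀ u t v, Sd Q A K a b u t v = 0) (v w : D) (u : ℝ) :
    kt Q A K a b v w u = kt Q A K a b v w 0 +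
      (u : ℂ) * (kt Q A K a b v w 1 - kt Q A K a b v w 0) := by
  refine f4_mid (f5_cont h hc ha hb v w) (fun u t => ?_) u
  have h1 := inner_Sd (Q := Q) (A := A) (K := K) a b u t v w
  rw [hz, inner_zero_right] at h1
  have e : ∀ s, kt Q A K a b v w s = kh Q A K a b v w s := fun _ => rfl
  rw [e, e, e]
  linear_combination -h1

/-- the operators `K_a(x)` -/
theorem k_shift (h : KS Q A K) (hc : CK Q K) {a b : V} (ha : IsNull a)
    (hb : IsNull b) (hab : GF.mdot a b = 1)
    (hz : ∀ u t v, Sd Q A K a b u t v = 0) (x : V) (v : D) :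
    Q.U 1 GF.one x (K a (Q.U 1 GF.one (-x) v)) = K a v + A (H755.XX a x) v -
      ((2 * GF.mdot a x : ℝ) : ℂ) • Cop Q A K a b v := by
  set u : ℝ := GF.mdot a x with hu
  set x0 : V := x - u • b with hx0
  have hax0 : GF.mdot a x0 = 0 := by
    rw [hx0, H755.md_sub, H755.md_smul, hab, mul_one, sub_self]
  have e1 : Q.U 1 GF.one x (K a (Q.U 1 GF.one (-x) v)) = Q.U 1 GF.one (u • b)
      (Q.U 1 GF.one x0 (K a (Q.U 1 GF.one (-x0) (Q.U 1 GF.one (-(u • b)) v)))) := by
    rw [H755.UU, H755.UU]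
    have c1 : u • b + x0 = x := by rw [hx0]; module
    have c2 : -x0 + -(u • b) = -x := by rw [hx0]; module
    rw [c1, c2]
  have hs0 : IsSim 0 (H755.XX a x0) := by
    have h1 := H755.XX_sim a x0
    rw [hax0] at h1
    simpa using h1
  rw [e1, h.tra a x0 _ ha hax0, Vale.Agent.P352.U_add one_pos Vale.Agent.P352.isLor_one,
    f5_conj h.toRep hs0]
  -- the transversal direction
  have e2 : Q.U 1 GF.one (u • b) (K a (Q.U 1 GF.one (-(u • b)) v)) = K a v -
      ((2 * u : ℝ) : ℂ) • A (H846.Xw a b) v + ((2 * (u * u) : ℝ) : ℂ) • A (fun _ => b) v -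
      ((2 * u : ℝ) : ℂ) • Cop Q A K a b v := by
    refine ext_inner_left ℂ fun w => ?_
    have h1 := f5_aff h hc ha hb hz v w u
    have h2 := H121.inner_Cop (Q := Q) (A := A) (K := K) a b v w
    have h3 : kt Q A K a b v w u = inner ℂ w (Q.U 1 GF.one (u • b) (K a (Q.U 1 GF.one
      (-(u • b)) v))) + 2 * (u : ℂ) * inner ℂ w (A (H846.Xw a b) v) -
        2 * (u : ℂ) ^ 2 * inner ℂ w (A (fun _ => b) v) := rfl
    have h4 : kt Q A K a b v w 0 = inner ℂ w (K a v) := by
      unfold kt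
      simp only [zero_smul, neg_zero, H755.U0, Complex.ofReal_zero]
      ring
    rw [inner_sub_right, inner_add_right, inner_sub_right, inner_smul_right, inner_smul_right,
      inner_smul_right]
    push_cast
    rw [h3, h4] at h1
    rw [h4] at h2
    linear_combination h1 + (2 * (u : ℂ)) * h2
  have e3 : A (H755.XX a (u • b)) v = ((-2 * u : ℝ) : ℂ) • A (H846.Xw a b) v +
      ((2 * (u * u) : ℝ) : ℂ) • A (fun _ => b) v := H755.A_XXb h.toRep hb hab u v
  have e4 : A (H755.XX a x) v = A (H755.XX a (u • b)) v +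
      A (fun z => H755.XX a x0 (z - u • b)) v := by
    rw [← H755.A_addX h.toRep v (H755.XX_sim a (u • b)) (H755.sim_shift hs0 (u • b))]
    refine congrArg (fun X => A X v) (funext fun z => ?_)
    have hx : x = x0 + u • b := by rw [hx0]; module
    rw [hx]
    funext n
    simp only [H755.XX, cK, H755.md_smul, H755.md_smul_l, H755.md_add, H755.md_add_l,
      H755.md_sub, H755.md_sub_l, hab, hb.1, hax0,
      Pi.add_apply, Pi.sub_apply, Pi.smul_apply, smul_eq_mul]
    rw [H755.md_comm x0 b]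
    ring
  rw [e4, e3, e2]
  push_cast
  module

/-- the charge commutes with translations -/
theorem cop_tr (h : KS Q A K) (hc : CK Q K) {a b : V} (ha : IsNull a)
    (hb : IsNull b) (hab : GF.mdot a b = 1) (hz : ∀ u t v, Sd Q A K a b u t v = 0)
    (y : V) (v : D) :
    Q.U 1 GF.one y (Cop Q A K a b (Q.U 1 GF.one (-y) v)) = Cop Q A K a b v := by
  have hadd : ∀ v w, Q.U 1 GF.one y (v + w) = Q.U 1 GF.one y v + Q.U 1 GF.one y w := fun v w =>
    Vale.Agent.P352.U_add one_pos Vale.Agent.P352.isLor_one y v w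
  have hsm : ∀ (c : ℂ) v, Q.U 1 GF.one y (c • v) = c • Q.U 1 GF.one y v := fun c v =>
    Vale.Agent.P352.U_smul one_pos Vale.Agent.P352.isLor_one y c v
  have hsub : ∀ v w, Q.U 1 GF.one y (v - w) = Q.U 1 GF.one y v - Q.U 1 GF.one y w := by
    intro v w
    have h1 := hadd (v - w) w
    rw [sub_add_cancel] at h1
    rw [h1, add_sub_cancel_right]
  have k1 := k_shift h hc ha hb hab hz (y + b) v
  have k2 := k_shift h hc ha hb hab hz y v
  have e1 : Q.U 1 GF.one y (Q.U 1 GF.one b (K a (Q.U 1 GF.one (-b) (Q.U 1 GF.one (-y) v)))) =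
      Q.U 1 GF.one (y + b) (K a (Q.U 1 GF.one (-(y + b)) v)) := by
    rw [H755.UU, H755.UU]
    have c2 : -b + -y = -(y + b) := by module
    rw [c2]
  have hXs : IsSim 1 (fun z => H846.Xw a b (z - y)) := H755.sim_shift (H846.isSim_Xw a b) y
  have e5 : A (H755.XX a (y + b)) v = A (H755.XX a y) v -
      ((2 : ℂ) • A (fun z => H846.Xw a b (z - y)) v - (2 : ℂ) • A (fun _ => b) v) := by
    have h1 := h.add _ 0 2 _ _ v (H755.XX_sim a (y + b)) (H755.const_sim (0 : V))
    have h2 := H755.A_lin2 h.toRep (-2) 2 v hXs (H755.const_sim b)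
    have h3 : IsSim ((-2) * 1 + 2 * 0 : ℝ) (fun z => (-2 : ℝ) • (fun z => H846.Xw a b (z - y)) z +
        (2 : ℝ) • (fun _ : V => b) z) := by
      obtain ⟨c, w, hw, hz⟩ := hXs
      refine ⟨(-2 : ℝ) • c + (2 : ℝ) • b, fun m n => (-2) * w m n, fun m n => ?_, fun z n => ?_⟩
      · have := hw m n
        linear_combination (-2 : ℝ) * this
      · simp only [Pi.smul_apply, Pi.add_apply, smul_eq_mul]
        rw [show H846.Xw a b (z - y) n = c n + 1 * z n + ∑ m, z m * w m n from hz z n]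
        simp only [Fin.sum_univ_four]
        ring
    have h4 := H755.A_addX h.toRep v (H755.XX_sim a y) h3
    have h5 : (fun z => H755.XX a y z + ((-2 : ℝ) • (fun z => H846.Xw a b (z - y)) z +
        (2 : ℝ) • (fun _ : V => b) z)) = H755.XX a (y + b) := by
      funext z n
      have h6 := H755.md_comm y b
      simp only [H755.XX, H846.Xw, cK, H755.md_smul, H755.md_smul_l, H755.md_add, H755.md_add_l,
        H755.md_sub, H755.md_sub_l, hab, hb.1,
        Pi.add_apply, Pi.sub_apply, Pi.smul_apply, smul_eq_mul]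
      rw [h6]
      ring
    rw [h5, h2] at h4
    rw [h4]
    push_cast
    module
  show Q.U 1 GF.one y ((-(1 / 2) : ℂ) • (Q.U 1 GF.one b (K a (Q.U 1 GF.one (-b)
    (Q.U 1 GF.one (-y) v))) - K a (Q.U 1 GF.one (-y) v) +
    ((2 : ℂ) • A (H846.Xw a b) (Q.U 1 GF.one (-y) v) -
      (2 : ℂ) • A (fun _ => b) (Q.U 1 GF.one (-y) v)))) = _
  rw [hsm, hadd, hsub, hsub, hsm, hsm, e1, k1, k2, f5_conj h.toRep (H846.isSim_Xw a b),
    f5_conj h.toRep (H846.isSim_const b), e5, H755.md_add, hab]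
  push_cast
  module

/-- the charge does not depend on `b` -/
theorem cop_b (h : KS Q A K) (hc : CK Q K) {a b b' : V} (ha : IsNull a)
    (hb : IsNull b) (hab : GF.mdot a b = 1) (hz : ∀ u t v, Sd Q A K a b u t v = 0)
    (hb' : IsNull b') (hab' : GF.mdot a b' = 1) (v : D) :
    Cop Q A K a b' v = Cop Q A K a b v := by
  have k1 := k_shift h hc ha hb hab hz b' v
  have e3 : A (H755.XX a ((1:ℝ) • b')) v = ((-2 * 1 : ℝ) : ℂ) • A (H846.Xw a b') v +
      ((2 * (1 * 1) : ℝ) : ℂ) • A (fun _ => b') v := H755.A_XXb h.toRep hb' hab' 1 v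
  rw [one_smul] at e3
  rw [hab', e3] at k1
  have e4 : Cop Q A K a b' v = (-(1 / 2) : ℂ) • (Q.U 1 GF.one b' (K a (Q.U 1 GF.one (-b') v)) -
    K a v + ((2 : ℂ) • A (H846.Xw a b') v - (2 : ℂ) • A (fun _ => b') v)) := rfl
  rw [e4, k1]
  push_cast
  module

/-- the charge is symmetric -/
theorem cop_symm (h : KS Q A K) {a : V} (ha : IsNull a) (b : V)
    (v w : D) : inner ℂ (Cop Q A K a b v) w = inner ℂ v (Cop Q A K a b w) := by
  have hK := fun v w => h.symm a v w ha
  have e1 := A_symm h.toRep (H846.isSim_Xw a b) v w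
  have e2 := A_symm h.toRep (H846.isSim_const b) v w
  have e3 : inner ℂ (Q.U 1 GF.one b (K a (Q.U 1 GF.one (-b) v))) w =
      inner ℂ v (Q.U 1 GF.one b (K a (Q.U 1 GF.one (-b) w))) := by
    have h1 := Q.U_inner 1 GF.one (-b) (Q.U 1 GF.one b (K a (Q.U 1 GF.one (-b) v))) w one_pos
      isLor_one
    have h2 := Q.U_inner 1 GF.one (-b) v (Q.U 1 GF.one b (K a (Q.U 1 GF.one (-b) w))) one_pos
      isLor_one
    rw [← h1, ← h2, H755.UU, H755.UU, neg_add_cancel, H755.U0, H755.U0, hK]
  unfold Cop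
  have hc : (starRingEnd ℂ) (-(1 / 2) : ℂ) = -(1 / 2) := by
    have := Complex.conj_ofReal (-(1 / 2))
    push_cast at this
    exact this
  have hc2 : (starRingEnd ℂ) (2 : ℂ) = 2 := by
    have := Complex.conj_ofReal 2
    push_cast at this
    exact this
  rw [inner_smul_left, inner_smul_right, hc, inner_add_left, inner_add_right, inner_sub_left,
    inner_sub_left, inner_sub_right, inner_sub_right, inner_smul_left, inner_smul_left,
    inner_smul_right, inner_smul_right, hc2, e1, e2, e3, hK]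

/-- the charge annihilates the vacuum -/
theorem cop_vac (h : KS Q A K) {a : V} (ha : IsNull a) (b : V)
    (hv : K a Q.vac = 0) : Cop Q A K a b Q.vac = 0 := by
  unfold Cop
  have hU0 : ∀ y : V, Q.U 1 GF.one y (0 : D) = 0 := by
    intro y
    have h1 := U_smul (Q := Q) one_pos isLor_one y (0 : ℂ) (0 : D)
    rw [zero_smul, zero_smul] at h1
    exact h1
  rw [Q.U_vac _ _ _ one_pos isLor_one, hv, hU0, A_vac h.toRep (H846.isSim_Xw a b),
    A_vac h.toRep (H846.isSim_const b)]
  simp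

/-- the charges are covariant -/
theorem cop_cov (h : KS Q A K) (hc : CK Q K) {a b a' b' : V} (ha : IsNull a)
    (hb : IsNull b) (hab : GF.mdot a b = 1) (hz : ∀ u t v, Sd Q A K a b u t v = 0)
    (ha' : IsNull a') (hb' : IsNull b') (hab' : GF.mdot a' b' = 1)
    (hz' : ∀ u t v, Sd Q A K a' b' u t v = 0)
    {s r : ℝ} {L : Ix → V} (hs : 0 < s) (hr : 0 < r) (hL : GF.IsLor L)
    (hLa : sim 1 L 0 a = r • a') (x : V) (v : D) :
    Q.U s L x (Cop Q A K a b v) = Cop Q A K a' b' (Q.U s L x v) := by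
  have R := h.toRep
  -- the translations
  have e : ∀ v, Q.U s L x v = Q.U 1 GF.one x (Q.U s L 0 v) := by
    intro v
    rw [h.mul 1 GF.one x s L 0 v one_pos hs Vale.Agent.P352.isLor_one hL, one_mul]
    congr 1
    · funext m n
      simp [sim, GF.one, bas]
    · funext n
      simp [sim, GF.one, bas]
  suffices h0 : Q.U s L 0 (Cop Q A K a b v) = Cop Q A K a' b' (Q.U s L 0 v) by
    have h1 := cop_tr h hc ha' hb' hab' hz' x (Q.U 1 GF.one x (Q.U s L 0 v))
    rw [H755.UU, neg_add_cancel, H755.U0, ← h0] at h1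
    rw [e, e, h1]
  -- the point `b` and its image
  set y : V := sim s L 0 b with hy
  have hya : GF.mdot a' y = s / r := by
    have h1 : GF.mdot (sim 1 L 0 a) (sim 1 L 0 b) = 1 := by rw [md_LL hL, hab]
    rw [hLa, md_smul_l] at h1
    rw [hy, sim_s, md_smul]
    field_simp
    linarith
  have k1 := k_shift h hc ha hb hab hz b v
  have k2 := k_shift h hc ha' hb' hab' hz' y (Q.U s L 0 v)
  have hUa := U_add (Q := Q) hs hL (0 : V)
  have hUm := U_smul (Q := Q) hs hL (0 : V)
  have hUs := H746.U_sub' (Q := Q) hs hL (0 : V)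
  have q1 : Q.U s L 0 (Q.U 1 GF.one b (K a (Q.U 1 GF.one (-b) v))) =
      ((r / s : ℝ) : ℂ) • Q.U 1 GF.one y (K a' (Q.U 1 GF.one (-y) (Q.U s L 0 v))) := by
    have t1 : ∀ (c : V) (z : D), Q.U s L 0 (Q.U 1 GF.one c z) =
        Q.U 1 GF.one (sim s L 0 c) (Q.U s L 0 z) := by
      intro c z
      rw [h.mul s L 0 1 GF.one c z hs one_pos hL isLor_one,
        h.mul 1 GF.one (sim s L 0 c) s L 0 z one_pos hs isLor_one hL, mul_one, one_mul]
      congr 1
      · funext m
        have e0 : GF.one m = bas m 1 := rfl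
        rw [e0, c1_bas]
        funext n
        simp [sim, GF.one, bas]
      · funext n
        simp [sim, GF.one, bas]
    have t2 : sim s L 0 (-b) = -y := by
      rw [hy, sim_s s L (-b), sim_s s L b]
      have h3 := simL_smul L (-1) b
      rw [neg_one_smul] at h3
      rw [h3]
      module
    rw [t1, h.cov s L r a a' _ hs hr hL ha ha' hLa, t1, t2, ← hy,
      U_smul one_pos isLor_one]
  have q2 : Q.U s L 0 (A (XX a b) v) = ((r / s : ℝ) : ℂ) • A (XX a' y) (Q.U s L 0 v) := by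
    rw [A_conj R (XX_sim a b) hs hL]
    have h3 := R.add 0 (-(2 * GF.mdot a' y)) (r / s) (fun _ => (0 : V)) (XX a' y) (Q.U s L 0 v)
      (const_sim 0) (XX_sim a' y)
    have h4 : A (fun _ => (0 : V)) (Q.U s L 0 v) = 0 := A_zero' R _
    rw [h4, zero_add] at h3
    rw [← h3]
    refine congrArg (fun X => A X (Q.U s L 0 v)) (funext fun z => ?_)
    set z' : V := sim s⁻¹ (linv L) 0 (z - 0) with hz'
    have hzz : z = s • sim 1 L 0 z' := by
      rw [hz', sub_zero, sim_s s⁻¹, simL_smul, sim_linv hL, smul_smul, mul_inv_cancel₀ hs.ne',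
        one_smul]
    have m1 : GF.mdot a' z = s / r * GF.mdot a z' := by
      have h1 : GF.mdot (sim 1 L 0 a) (sim 1 L 0 z') = GF.mdot a z' := md_LL hL a z'
      rw [hLa, md_smul_l] at h1
      rw [hzz, md_smul]
      field_simp
      linear_combination h1
    have m2 : GF.mdot y z = s ^ 2 * GF.mdot b z' := by
      have h1 : GF.mdot (sim 1 L 0 b) (sim 1 L 0 z') = GF.mdot b z' := md_LL hL b z'
      rw [hzz, hy, sim_s, md_smul, md_smul_l, h1]
      ring
    have m3 : GF.mdot y y = 0 := by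
      have h1 : GF.mdot (sim 1 L 0 b) (sim 1 L 0 b) = GF.mdot b b := md_LL hL b b
      rw [hy, sim_s, md_smul, md_smul_l, h1, hb.1]
      ring
    have m4 : sim 1 L 0 (XX a b z') = -(2 * GF.mdot a b) • sim 1 L 0 z' +
        (2 * GF.mdot b z') • sim 1 L 0 a - (2 * GF.mdot a z') • sim 1 L 0 b +
        ((2 * GF.mdot a b) • sim 1 L 0 b - GF.mdot b b • sim 1 L 0 a) := by
      unfold XX cK
      rw [simL_add, simL_sub, simL_add, simL_smul, simL_smul, simL_smul, simL_sub, simL_smul,
        simL_smul]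
    have m5 : sim 1 L 0 z' = s⁻¹ • z := by
      rw [hzz, smul_smul, inv_mul_cancel₀ hs.ne', one_smul]
    have m6 : sim 1 L 0 b = s⁻¹ • y := by
      rw [hy, sim_s s L b, smul_smul, inv_mul_cancel₀ hs.ne', one_smul]
    rw [m4, hLa, m5, m6, hab, hb.1]
    unfold XX cK
    rw [hya, m1, m2, m3]
    funext n
    simp only [Pi.smul_apply, Pi.add_apply, Pi.sub_apply, smul_eq_mul, Pi.zero_apply]
    field_simp
    ring
  have h5 := congrArg (Q.U s L 0) k1
  rw [hUs, hUa, hUm, q1, k2, q2, h.cov s L r a a' v hs hr hL ha ha' hLa, hab, hya] at h5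
  have hsc : (s : ℂ) ≠ 0 := by exact_mod_cast hs.ne'
  have hrc : (r : ℂ) ≠ 0 := by exact_mod_cast hr.ne'
  have h6 : ((2 * 1 : ℝ) : ℂ) • Q.U s L 0 (Cop Q A K a b v) =
      (((r / s : ℝ) : ℂ) * ((2 * (s / r) : ℝ) : ℂ)) • Cop Q A K a' b' (Q.U s L 0 v) := by
    rw [smul_sub, smul_add, smul_smul] at h5
    have h7 := congrArg (fun z => ((r / s : ℝ) : ℂ) • K a' (Q.U s L 0 v) +
      ((r / s : ℝ) : ℂ) • A (XX a' y) (Q.U s L 0 v) - z) h5
    simp only [sub_sub_cancel] at h7
    exact h7.symm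
  have h8 : ((r / s : ℝ) : ℂ) * ((2 * (s / r) : ℝ) : ℂ) = ((2 * 1 : ℝ) : ℂ) := by
    push_cast
    field_simp
  rw [h8] at h6
  exact smul_right_injective D (by norm_num : ((2 * 1 : ℝ) : ℂ) ≠ 0) h6

theorem kc_of (h : KS Q A K) (hc : CK Q K) {a b : V} (ha : IsNull a)
    (hb : IsNull b) (hab : GF.mdot a b = 1) (hz : ∀ u t v, Sd Q A K a b u t v = 0) :
    H731.KC Q A a (K a) (Cop Q A K a b) where
  rep := h.toRep
  nul := ha
  ks v w := h.symm a v w ha
  cs v w := cop_symm h ha b v w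
  kc s L r v hs hr hL hLa := h.cov s L r a a v hs hr hL ha ha hLa
  cc s L r x v hs hr hL hLa := cop_cov h hc ha hb hab hz ha hb hab hz hs hr hL hLa x v
  tra x v := k_shift h hc ha hb hab hz x v

end Vale.Agent.P352.ND

end
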