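import Vale.Agent.P352.MathlibUsed

/-!
# Symmetric operators that commute with the generator of a unitary one parameter group commute
with the group

`D` is a pre-Hilbert space, `U` a one parameter group of isometries of `D` with generator
`A : D → D`, and `B : D → D` is symmetric with `B A = A B`. No bound on `B` is assumed: that
`t ↦ B (U t v)` is locally bounded is a consequence of the category theorem of Baire.
-/

set_option linter.all false

noncomputable section

open Filter Topology Complex Asymptotics Set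
open scoped ComplexConjugate

namespace Vale.Agent.P352.ND

variable {D : Type*} [NormedAddCommGroup D] [InnerProductSpace ℂ D]

/-- the product rule -/
lemma bai_prod {B : D → D} (hB : ∀ v w, inner ℂ (B v) w = inner ℂ v (B w)) {w v : ℝ → D}
    {w' v' : D} {u : ℝ} (hw : HasDerivAt w w' u) (hv : HasDerivAt v v' u) {C : ℝ}
    (hC : ∀ᶠ h in 𝓝 u, ‖B (v h)‖ ≤ C) :
    HasDerivAt (fun h => inner ℂ (w h) (B (v h)))
      (inner ℂ w' (B (v u)) + inner ℂ (w u) (B v')) u := by
  have hBi : ∀ x y : D, inner ℂ x (B y) = inner ℂ (B x) y := fun x y => (hB x y).symm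
  have t1 : HasDerivAt (fun h => inner ℂ (w h - w u - (h - u) • w') (B (v h))) (0 : ℂ) u := by
    have h1 : (fun h => w h - w u - (h - u) • w') =o[𝓝 u] fun h => h - u := hw.isLittleO
    have h2 : (fun h => inner ℂ (w h - w u - (h - u) • w') (B (v h))) =o[𝓝 u] fun h => h - u := by
      have h3 : (fun h => (inner ℂ (w h - w u - (h - u) • w') (B (v h)) : ℂ)) =O[𝓝 u]
          fun h => w h - w u - (h - u) • w' := by
        refine IsBigO.of_bound C ?_
        filter_upwards [hC] with h hh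
        refine (norm_inner_le_norm _ _).trans ?_
        rw [mul_comm]
        exact mul_le_mul_of_nonneg_right hh (norm_nonneg _)
      exact h3.trans_isLittleO h1
    rw [hasDerivAt_iff_isLittleO]
    simpa using h2
  have t2 : HasDerivAt (fun h => inner ℂ (B (w u)) (v h)) (inner ℂ (B (w u)) v') u :=
    ((innerSL ℂ (B (w u))).restrictScalars ℝ).hasFDerivAt.comp_hasDerivAt u hv
  have t3 : HasDerivAt (fun h => inner ℂ (B w') (v h)) (inner ℂ (B w') v') u :=
    ((innerSL ℂ (B w')).restrictScalars ℝ).hasFDerivAt.comp_hasDerivAt u hv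
  have t4 : HasDerivAt (fun h : ℝ => ((h - u : ℝ) : ℂ)) ((1 : ℝ) : ℂ) u :=
    ((hasDerivAt_id u).sub_const u).ofReal_comp
  have t5 := t4.mul t3
  have t6 := (t1.add t2).add t5
  have e : (fun h => inner ℂ (w h) (B (v h))) =
      ((fun h => inner ℂ (w h - w u - (h - u) • w') (B (v h))) + fun h => inner ℂ (B (w u)) (v h)) +
        (fun h : ℝ => ((h - u : ℝ) : ℂ)) * fun h => inner ℂ (B w') (v h) := by
    funext h
    simp only [Pi.add_apply, Pi.mul_apply]
    rw [← hBi, ← hBi, inner_sub_left, inner_sub_left, inner_smul_left_eq_smul]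
    rw [Complex.real_smul]
    ring
  rw [e]
  refine t6.congr_deriv ?_
  rw [← hBi, ← hBi]
  simp
  ring

section

variable {U : ℝ → D → D} {A B : D → D} (h0 : ∀ v, U 0 v = v)
  (hadd : ∀ s t v, U s (U t v) = U (s + t) v)
  (hi : ∀ t v w, inner ℂ (U t v) (U t w) = inner ℂ v w)
  (hd : ∀ v, HasDerivAt (fun t => U t v) (Complex.I • A v) 0)

include hadd hd in
lemma bai_der (t : ℝ) (v : D) : HasDerivAt (fun s => U s v) (Complex.I • A (U t v)) t := by
  have h3 : HasDerivAt (fun r => U r (U t v)) (Complex.I • A (U t v)) (t - t) := by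
    rw [sub_self]; exact hd (U t v)
  have h4 := h3.comp_sub_const t t
  refine h4.congr_of_eventuallyEq (Eventually.of_forall fun s => ?_)
  show U s v = U (s - t) (U t v)
  rw [hadd, sub_add_cancel]

include h0 hadd hd in
lemma bai_cont (v : D) : Continuous fun s => U s v :=
  continuous_iff_continuousAt.2 fun t => (bai_der hadd hd t v).continuousAt

include h0 hi hd in
lemma bai_A (v w : D) : inner ℂ (A v) w = inner ℂ v (A w) := by
  have h1 := (hd v).inner ℂ (hd w)
  have h2 : (fun t => inner ℂ (U t v) (U t w)) = fun _ => inner ℂ v w := by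
    funext t; exact hi t v w
  rw [h2] at h1
  have h3 := h1.unique (hasDerivAt_const _ _)
  rw [h0, h0, inner_smul_right, inner_smul_left, conj_I] at h3
  have h4 : I * (inner ℂ v (A w) - inner ℂ (A v) w) = 0 := by linear_combination h3
  have h5 := (mul_eq_zero.1 h4).resolve_left I_ne_zero
  exact (sub_eq_zero.1 h5).symm

include h0 hadd hi in
lemma bai_move (t : ℝ) (v w : D) : inner ℂ (U t w) v = inner ℂ w (U (-t) v) := by
  rw [← hi (-t) (U t w), hadd, neg_add_cancel, h0]

variable (hB : ∀ v w, inner ℂ (B v) w = inner ℂ v (B w))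

include hB in
lemma bai_smul (c : ℂ) (v : D) : B (c • v) = c • B v := by
  refine ext_inner_left ℂ fun z => ?_
  rw [← hB z (c • v), inner_smul_right, inner_smul_right, hB z v]

variable (hAB : ∀ v, B (A v) = A (B v))

include h0 hadd hi hd hB hAB in
/-- the derivative vanishes where `B (U t v)` is locally bounded -/
lemma bai_zero {t : ℝ} {v : D} {C : ℝ} (hC : ∀ᶠ s in 𝓝 t, ‖B (U s v)‖ ≤ C) (w : D) :
    HasDerivAt (fun s => inner ℂ w (U (-s) (B (U s v)))) 0 t := by
  have h1 := bai_prod hB (bai_der hadd hd t w) (bai_der hadd hd t v) hC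
  have e : (fun s => inner ℂ w (U (-s) (B (U s v)))) = fun s => inner ℂ (U s w) (B (U s v)) := by
    funext s
    rw [bai_move h0 hadd hi]
  rw [e]
  refine h1.congr_deriv ?_
  rw [bai_smul hB, inner_smul_left, inner_smul_right, conj_I, hAB, ← bai_A h0 hi hd]
  ring

include h0 hadd hd hB in
/-- lower semicontinuity -/
lemma bai_closed (v : D) (C : ℝ) : IsClosed {t : ℝ | ‖B (U t v)‖ ≤ C} := by
  by_cases hC : 0 ≤ C
  · have e : {t : ℝ | ‖B (U t v)‖ ≤ C} =
        ⋂ w : D, {t : ℝ | ‖inner ℂ (B w) (U t v)‖ ≤ C * ‖w‖} := by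
      ext t
      simp only [mem_setOf_eq, mem_iInter]
      constructor
      · intro h w
        rw [hB]
        refine (norm_inner_le_norm _ _).trans ?_
        rw [mul_comm]
        exact mul_le_mul_of_nonneg_right h (norm_nonneg _)
      · intro h
        have h1 := h (B (U t v))
        rw [hB, inner_self_eq_norm_sq_to_K, norm_pow] at h1
        have h2 : ‖((‖B (U t v)‖ : ℝ) : ℂ)‖ = ‖B (U t v)‖ := by
          rw [Complex.norm_real, norm_norm]
        have h3 : ‖B (U t v)‖ ^ 2 ≤ C * ‖B (U t v)‖ := by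
          rw [← h2]
          simpa [h2] using h1
        by_cases hz : ‖B (U t v)‖ = 0
        · rw [hz]; exact hC
        · have h4 : 0 < ‖B (U t v)‖ := lt_of_le_of_ne (norm_nonneg _) (Ne.symm hz)
          have h5 : ‖B (U t v)‖ * ‖B (U t v)‖ ≤ C * ‖B (U t v)‖ := by
            rw [← pow_two]; exact h3
          exact le_of_mul_le_mul_right h5 h4
    rw [e]
    refine isClosed_iInter fun w => ?_
    exact isClosed_le (continuous_const.inner (bai_cont h0 hadd hd v)).norm continuous_const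
  · have e : {t : ℝ | ‖B (U t v)‖ ≤ C} = ∅ := by
      ext t
      simp only [mem_setOf_eq, mem_empty_iff_false, iff_false, not_le]
      exact lt_of_lt_of_le (not_le.1 hC) (norm_nonneg _)
    rw [e]
    exact isClosed_empty

include h0 hadd hi hd hB in
/-- limits -/
lemma bai_lim {v u : D} {t' : ℝ} {S : Set ℝ} (hS : t' ∈ closure S)
    (hu : ∀ t ∈ S, U (-t) (B (U t v)) = u) : U (-t') (B (U t' v)) = u := by
  refine ext_inner_left ℂ fun w => ?_
  have hmem : (𝓝[S] t').NeBot := mem_closure_iff_nhdsWithin_neBot.1 hS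
  have hb : ∀ t ∈ S, ‖B (U t v)‖ ≤ ‖u‖ := by
    intro t ht
    rw [← hu t ht]
    have h1 : ‖U (-t) (B (U t v))‖ ^ 2 = ‖B (U t v)‖ ^ 2 := by
      have h2 := hi (-t) (B (U t v)) (B (U t v))
      rw [inner_self_eq_norm_sq_to_K, inner_self_eq_norm_sq_to_K] at h2
      exact_mod_cast h2
    have h3 : ‖U (-t) (B (U t v))‖ = ‖B (U t v)‖ := by
      rwa [sq_eq_sq₀ (norm_nonneg _) (norm_nonneg _)] at h1
    exact h3.ge
  have l1 : Tendsto (fun t => inner ℂ (U t w - U t' w) (B (U t v))) (𝓝[S] t') (𝓝 (0 : ℂ)) := by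
    have hc : Tendsto (fun t => ‖U t w - U t' w‖ * ‖u‖) (𝓝[S] t') (𝓝 0) := by
      have h1 : Tendsto (fun t => U t w) (𝓝 t') (𝓝 (U t' w)) :=
        (bai_cont h0 hadd hd w).tendsto t'
      have h2 := (((h1.sub_const (U t' w)).norm).mul_const ‖u‖)
      rw [sub_self, norm_zero, zero_mul] at h2
      exact h2.mono_left nhdsWithin_le_nhds
    refine squeeze_zero_norm' ?_ hc
    filter_upwards [self_mem_nhdsWithin] with t ht
    exact (norm_inner_le_norm _ _).trans (mul_le_mul_of_nonneg_left (hb t ht) (norm_nonneg _))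
  have l2 : Tendsto (fun t => inner ℂ (B (U t' w)) (U t v)) (𝓝[S] t')
      (𝓝 (inner ℂ (B (U t' w)) (U t' v))) :=
    ((continuous_const.inner (bai_cont h0 hadd hd v)).tendsto t').mono_left nhdsWithin_le_nhds
  have l3 := l1.add l2
  rw [zero_add, hB, bai_move h0 hadd hi] at l3
  have l4 : Tendsto (fun t => inner ℂ (U t w - U t' w) (B (U t v)) +
      inner ℂ (B (U t' w)) (U t v)) (𝓝[S] t') (𝓝 (inner ℂ w u)) := by
    refine tendsto_const_nhds.congr' ?_
    filter_upwards [self_mem_nhdsWithin] with t ht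
    rw [hB, ← inner_add_left, sub_add_cancel, bai_move h0 hadd hi, hu t ht]
  exact tendsto_nhds_unique l3 l4

include h0 hadd hi hd hB hAB in
/-- constancy on intervals of local boundedness -/
lemma bai_const {v : D} {α β : ℝ} (hΩ : ∀ t ∈ Ioo α β, ∃ C : ℝ, ∀ᶠ s in 𝓝 t, ‖B (U s v)‖ ≤ C)
    (h : α < β) : U (-β) (B (U β v)) = U (-α) (B (U α v)) := by
  have h1 : ∀ a ∈ Ioo α β, ∀ t ∈ Ioo α β, a ≤ t → U (-t) (B (U t v)) = U (-a) (B (U a v)) := by
    intro a ha t ht hat
    refine ext_inner_left ℂ fun w => ?_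
    have hI : ∀ s ∈ Icc a t, s ∈ Ioo α β := fun s hs => ⟨ha.1.trans_le hs.1, hs.2.trans_lt ht.2⟩
    exact constant_of_has_deriv_right_zero (f := fun s => inner ℂ w (U (-s) (B (U s v))))
      (a := a) (b := t) (fun s hs => by
        obtain ⟨C, hC⟩ := hΩ s (hI s hs)
        exact (bai_zero h0 hadd hi hd hB hAB hC w).continuousAt.continuousWithinAt) (fun s hs => by
        obtain ⟨C, hC⟩ := hΩ s (hI s ⟨hs.1, hs.2.le⟩)
        exact (bai_zero h0 hadd hi hd hB hAB hC w).hasDerivWithinAt) t ⟨hat, le_rfl⟩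
  set m : ℝ := (α + β) / 2 with hm
  have hmI : m ∈ Ioo α β := ⟨by rw [hm]; linarith, by rw [hm]; linarith⟩
  have h2 : ∀ t ∈ Ioo α β, U (-t) (B (U t v)) = U (-m) (B (U m v)) := by
    intro t ht
    rcases le_total m t with h3 | h3
    · exact h1 m hmI t ht h3
    · exact (h1 t ht m hmI h3).symm
  have h3 : closure (Ioo α β) = Icc α β := closure_Ioo h.ne
  rw [bai_lim h0 hadd hi hd hB (t' := β) (S := Ioo α β) (by rw [h3]; exact ⟨h.le, le_rfl⟩) h2,
    bai_lim h0 hadd hi hd hB (t' := α) (S := Ioo α β) (by rw [h3]; exact ⟨le_rfl, h.le⟩) h2]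

include hi in
lemma bai_norm (t : ℝ) (v : D) : ‖U t v‖ = ‖v‖ := by
  have h2 := hi t v v
  rw [inner_self_eq_norm_sq_to_K, inner_self_eq_norm_sq_to_K] at h2
  have h1 : ‖U t v‖ ^ 2 = ‖v‖ ^ 2 := by exact_mod_cast h2
  rwa [sq_eq_sq₀ (norm_nonneg _) (norm_nonneg _)] at h1

include h0 hadd hi hd hB hAB in
/-- **Local boundedness is automatic** (Baire). -/
theorem bai_loc (v : D) (t : ℝ) : ∃ C : ℝ, ∀ᶠ s in 𝓝 t, ‖B (U s v)‖ ≤ C := by
  set Ω : Set ℝ := {t | ∃ C : ℝ, ∀ᶠ s in 𝓝 t, ‖B (U s v)‖ ≤ C} with hΩ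
  have hop : IsOpen Ω := by
    rw [isOpen_iff_mem_nhds]
    rintro t ⟨C, hC⟩
    have h1 := eventually_eventually_nhds.2 hC
    filter_upwards [h1] with s hs
    exact ⟨C, hs⟩
  by_contra hcon
  have hF : IsClosed Ωᶜ := hop.isClosed_compl
  have hne : Nonempty (Ωᶜ : Set ℝ) := ⟨⟨t, hcon⟩⟩
  have hcomp : CompleteSpace (Ωᶜ : Set ℝ) := hF.completeSpace_coe
  set f : ℕ → Set (Ωᶜ : Set ℝ) := fun n => {x | ‖B (U (x : ℝ) v)‖ ≤ (n : ℝ)} with hf
  have hfc : ∀ n, IsClosed (f n) := fun n =>
    (bai_closed h0 hadd hd hB v (n : ℝ)).preimage continuous_subtype_val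
  have hfU : ⋃ n, f n = univ := by
    rw [eq_univ_iff_forall]
    intro x
    obtain ⟨n, hn⟩ := exists_nat_ge ‖B (U (x : ℝ) v)‖
    exact mem_iUnion.2 ⟨n, hn⟩
  obtain ⟨n, ⟨x, hx⟩⟩ := nonempty_interior_of_iUnion_of_closed hfc hfU
  rw [mem_interior_iff_mem_nhds, Metric.mem_nhds_iff] at hx
  obtain ⟨ε, hε, hball⟩ := hx
  have hb : ∀ s ∈ (Ωᶜ : Set ℝ), |s - x| < ε → ‖B (U s v)‖ ≤ n := by
    intro s hs hsx
    exact hball (show (⟨s, hs⟩ : (Ωᶜ : Set ℝ)) ∈ Metric.ball x ε by
      rw [Metric.mem_ball]; exact hsx)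
  have hnrm : ∀ s s', U (-s) (B (U s v)) = U (-s') (B (U s' v)) →
      ‖B (U s v)‖ = ‖B (U s' v)‖ := by
    intro s s' h
    rw [← bai_norm hi (-s) (B (U s v)), h, bai_norm hi]
  refine x.2 ⟨n, ?_⟩
  filter_upwards [Metric.ball_mem_nhds (x : ℝ) hε] with s hs
  rw [Metric.mem_ball, Real.dist_eq] at hs
  by_cases hsF : s ∈ (Ωᶜ : Set ℝ)
  · exact hb s hsF hs
  rcases lt_trichotomy s (x : ℝ) with hlt | heq | hgt
  · -- the first point of `Ωᶜ` to the right of `s`
    set G : Set ℝ := Ωᶜ ∩ Icc s x with hG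
    have hGc : IsCompact G := by
      rw [hG, inter_comm]
      exact isCompact_Icc.inter_right hF
    have hGn : G.Nonempty := ⟨x, x.2, hlt.le, le_rfl⟩
    have hmem := hGc.sInf_mem hGn
    set t' : ℝ := sInf G with ht'
    have h1 : s < t' := lt_of_le_of_ne hmem.2.1 fun h => hsF (by rw [h]; exact hmem.1)
    have h2 := bai_const h0 hadd hi hd hB hAB (v := v) (α := s) (β := t') (fun r hr => by
      by_contra hr'
      have h3 : r ∈ G := ⟨hr', hr.1.le, hr.2.le.trans hmem.2.2⟩
      exact absurd (csInf_le hGc.bddBelow h3) (not_le.2 hr.2)) h1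
    rw [← hnrm _ _ h2]
    refine hb t' hmem.1 ?_
    rw [abs_lt] at hs ⊢
    constructor <;> linarith [hmem.2.2, hs.1, hs.2]
  · exact absurd (by rw [heq]; exact x.2) hsF
  · set G : Set ℝ := Ωᶜ ∩ Icc x s with hG
    have hGc : IsCompact G := by
      rw [hG, inter_comm]
      exact isCompact_Icc.inter_right hF
    have hGn : G.Nonempty := ⟨x, x.2, le_rfl, hgt.le⟩
    have hmem := hGc.sSup_mem hGn
    set t' : ℝ := sSup G with ht'
    have h1 : t' < s := lt_of_le_of_ne hmem.2.2 fun h => hsF (by rw [← h]; exact hmem.1)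
    have h2 := bai_const h0 hadd hi hd hB hAB (v := v) (α := t') (β := s) (fun r hr => by
      by_contra hr'
      have h3 : r ∈ G := ⟨hr', hmem.2.1.trans hr.1.le, hr.2.le⟩
      exact absurd (le_csSup hGc.bddAbove h3) (not_le.2 hr.1)) h1
    rw [hnrm _ _ h2]
    refine hb t' hmem.1 ?_
    rw [abs_lt] at hs ⊢
    constructor <;> linarith [hmem.2.1, hs.1, hs.2]

include h0 hadd hi hd hB hAB in
/-- **A symmetric operator that commutes with the generator commutes with the group.** -/
theorem bai (t : ℝ) (v : D) : B (U t v) = U t (B v) := by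
  have h1 : U (-t) (B (U t v)) = B v := by
    have h2 : U (-t) (B (U t v)) = U (-0) (B (U 0 v)) := by
      rcases lt_trichotomy t 0 with h | h | h
      · exact (bai_const h0 hadd hi hd hB hAB (v := v)
          (fun s _ => bai_loc h0 hadd hi hd hB hAB v s) h).symm
      · rw [h]
      · exact bai_const h0 hadd hi hd hB hAB (v := v)
          (fun s _ => bai_loc h0 hadd hi hd hB hAB v s) h
    rw [h2, neg_zero, h0, h0]
  rw [← h1, hadd, add_neg_cancel, h0]

end

end Vale.Agent.P352.ND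

end
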