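import Vale.Agent.P352.MathlibUsed

/-!
# P352 ND: symmetric operators that commute with a generator commute with the one parameter group

No continuity or boundedness is assumed; the proof uses the Baire category theorem.
-/

set_option linter.all false

noncomputable section

open Filter Topology Set Asymptotics

namespace Vale.Agent.P352.ND

variable {D : Type*} [NormedAddCommGroup D] [InnerProductSpace ℂ D]

/-- a one parameter group of isometries of a pre-Hilbert space, with generator `A` -/
structure Flow (U : ℝ → D → D) (A : D → D) : Prop where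
  zero : ∀ v, U 0 v = v
  add : ∀ s t v, U s (U t v) = U (s + t) v
  inner : ∀ t v w, inner ℂ (U t v) (U t w) = inner ℂ v w
  der : ∀ v, HasDerivAt (fun t => U t v) (Complex.I • A v) 0

section

variable {U : ℝ → D → D} {A C : D → D}

lemma Flow.der_at (h : Flow U A) (t : ℝ) (v : D) :
    HasDerivAt (fun s => U s v) (Complex.I • A (U t v)) t := by
  have h1 := h.der (U t v)
  rw [← sub_self t] at h1
  have h2 := HasDerivAt.comp_sub_const t t h1
  have e : (fun s => U (s - t) (U t v)) = fun s => U s v := by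
    funext s
    rw [h.add, sub_add_cancel]
  rwa [e] at h2

lemma Flow.cont (h : Flow U A) (v : D) : Continuous fun s => U s v :=
  continuous_iff_continuousAt.2 fun t => (h.der_at t v).continuousAt

lemma Flow.norm (h : Flow U A) (t : ℝ) (v : D) : ‖U t v‖ = ‖v‖ := by
  have h1 := h.inner t v v
  rw [inner_self_eq_norm_sq_to_K, inner_self_eq_norm_sq_to_K] at h1
  have h2 : ‖U t v‖ ^ 2 = ‖v‖ ^ 2 := by exact_mod_cast h1
  exact (sq_eq_sq₀ (norm_nonneg _) (norm_nonneg _)).1 h2

/-- the commutator vanishes on `D` on the level of generators -/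
structure Cmt (U : ℝ → D → D) (A C : D → D) : Prop extends Flow U A where
  sym : ∀ v w, Inner.inner ℂ (C v) w = Inner.inner ℂ v (C w)
  com : ∀ v, C (A v) = A (C v)

lemma Cmt.cinner (h : Cmt U A C) (v w : D) :
    Continuous fun s => (Inner.inner ℂ w (C (U s v)) : ℂ) := by
  have e : (fun s => (Inner.inner ℂ w (C (U s v)) : ℂ)) = fun s => Inner.inner ℂ (C w) (U s v) := by
    funext s
    rw [h.sym]
  rw [e]
  exact continuous_const.inner (h.toFlow.cont v)

/-- the norm of `C U(t) v` is lower semicontinuous -/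
lemma Cmt.closed (h : Cmt U A C) (v : D) (n : ℕ) : IsClosed {t | ‖C (U t v)‖ ≤ n} := by
  have e : {t | ‖C (U t v)‖ ≤ n} =
      ⋂ w : D, {t | ‖(Inner.inner ℂ w (C (U t v)) : ℂ)‖ ≤ ‖w‖ * n} := by
    ext t
    simp only [mem_setOf_eq, mem_iInter]
    constructor
    · intro ht w
      exact (norm_inner_le_norm _ _).trans (mul_le_mul_of_nonneg_left ht (norm_nonneg _))
    · intro ht
      have h1 := ht (C (U t v))
      have h2 : ‖(Inner.inner ℂ (C (U t v)) (C (U t v)) : ℂ)‖ = ‖C (U t v)‖ * ‖C (U t v)‖ := by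
        rw [inner_self_eq_norm_sq_to_K, norm_pow, pow_two]
        simp
      rw [h2] at h1
      by_contra hlt
      push Not at hlt
      have h3 : 0 < ‖C (U t v)‖ := (Nat.cast_nonneg n).trans_lt hlt
      exact absurd (le_of_mul_le_mul_left h1 h3) (not_le.2 hlt)
  rw [e]
  exact isClosed_iInter fun w => isClosed_le (h.cinner v w).norm continuous_const

/-- `C U(s) v` is bounded near `t` -/
def Lbd (U : ℝ → D → D) (C : D → D) (v : D) (t : ℝ) : Prop :=
  ∃ n : ℕ, ∀ᶠ s in 𝓝 t, ‖C (U s v)‖ ≤ n

lemma lbd_open (v : D) : IsOpen {t | Lbd U C v t} := by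
  rw [isOpen_iff_mem_nhds]
  rintro t ⟨n, hn⟩
  filter_upwards [eventually_eventually_nhds.2 hn] with s hs
  exact ⟨n, hs⟩

/-- the derivative of the matrix elements of `U(-s) C U(s)` vanishes where `C U(s) v` is bounded -/
lemma Cmt.der0 (h : Cmt U A C) (v w : D) {t : ℝ} (ht : Lbd U C v t) :
    HasDerivAt (fun s => (Inner.inner ℂ (U s w) (C (U s v)) : ℂ)) 0 t := by
  obtain ⟨n, hn⟩ := ht
  have hw := h.der_at t w
  have hv := h.der_at t v
  set w' : D := Complex.I • A (U t w) with hw'
  set v' : D := Complex.I • A (U t v) with hv'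
  have t1 : HasDerivAt (fun s => (Inner.inner ℂ (U s w - U t w - (s - t) • w') (C (U s v)) : ℂ))
      (0 : ℂ) t := by
    have h1 : (fun s => U s w - U t w - (s - t) • w') =o[𝓝 t] fun s => s - t := hw.isLittleO
    have h3 : (fun s => (Inner.inner ℂ (U s w - U t w - (s - t) • w') (C (U s v)) : ℂ)) =O[𝓝 t]
        fun s => U s w - U t w - (s - t) • w' := by
      refine IsBigO.of_bound n ?_
      filter_upwards [hn] with s hs
      refine (norm_inner_le_norm _ _).trans ?_
      rw [mul_comm]
      exact mul_le_mul_of_nonneg_right hs (norm_nonneg _)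
    rw [hasDerivAt_iff_isLittleO]
    simpa using h3.trans_isLittleO h1
  have t2 : HasDerivAt (fun s => (Inner.inner ℂ (C (U t w)) (U s v) : ℂ))
      (Inner.inner ℂ (C (U t w)) v') t :=
    ((innerSL ℂ (C (U t w))).restrictScalars ℝ).hasFDerivAt.comp_hasDerivAt t hv
  have t3 : HasDerivAt (fun s => (Inner.inner ℂ (C w') (U s v) : ℂ)) (Inner.inner ℂ (C w') v') t :=
    ((innerSL ℂ (C w')).restrictScalars ℝ).hasFDerivAt.comp_hasDerivAt t hv
  have t4 : HasDerivAt (fun s : ℝ => ((s - t : ℝ) : ℂ)) ((1 : ℝ) : ℂ) t :=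
    ((hasDerivAt_id t).sub_const t).ofReal_comp
  have t6 := (t1.add t2).add (t4.mul t3)
  have e : (fun s => (Inner.inner ℂ (U s w) (C (U s v)) : ℂ)) =
      ((fun s => (Inner.inner ℂ (U s w - U t w - (s - t) • w') (C (U s v)) : ℂ)) +
        fun s => (Inner.inner ℂ (C (U t w)) (U s v) : ℂ)) +
        (fun s : ℝ => ((s - t : ℝ) : ℂ)) * fun s => (Inner.inner ℂ (C w') (U s v) : ℂ) := by
    funext s
    simp only [Pi.add_apply, Pi.mul_apply]
    rw [h.sym, h.sym, inner_sub_left, inner_sub_left, inner_smul_left_eq_smul, Complex.real_smul]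
    ring
  rw [e]
  refine t6.congr_deriv ?_
  have e1 : (Inner.inner ℂ (C w') (U t v) : ℂ) = -Complex.I * Inner.inner ℂ (A (U t w)) (C (U t v)) := by
    rw [h.sym, hw', inner_smul_left, Complex.conj_I]
  have hA : ∀ x y : D, (Inner.inner ℂ (A x) y : ℂ) = Inner.inner ℂ x (A y) := by
    intro x y
    have d1 : HasDerivAt (fun s => (Inner.inner ℂ (U s x) (U s y) : ℂ))
        (Inner.inner ℂ (U 0 x) (Complex.I • A y) + Inner.inner ℂ (Complex.I • A x) (U 0 y)) 0 :=
      (h.der x).inner ℂ (h.der y)
    have d2 : HasDerivAt (fun s => (Inner.inner ℂ (U s x) (U s y) : ℂ)) 0 0 := by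
      have : (fun s => (Inner.inner ℂ (U s x) (U s y) : ℂ)) = fun _ => Inner.inner ℂ x y := by
        funext s
        exact h.inner s x y
      rw [this]
      exact hasDerivAt_const _ _
    have d3 := d1.unique d2
    rw [h.zero, h.zero, inner_smul_right, inner_smul_left, Complex.conj_I] at d3
    have hI : Complex.I ≠ 0 := Complex.I_ne_zero
    have d4 : Complex.I * ((Inner.inner ℂ x (A y) : ℂ) - Inner.inner ℂ (A x) y) = 0 := by
      linear_combination d3
    exact (sub_eq_zero.1 ((mul_eq_zero.1 d4).resolve_left hI)).symm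
  have e2 : (Inner.inner ℂ (C (U t w)) v' : ℂ) =
      Complex.I * Inner.inner ℂ (A (U t w)) (C (U t v)) := by
    rw [hv', inner_smul_right, hA, ← h.com, h.sym]
  rw [e2]
  simp only [sub_self, Complex.ofReal_zero, zero_mul, Complex.ofReal_one, one_mul, zero_add,
    add_zero]
  rw [e1]
  ring

/-- on open intervals where `C U(s) v` is locally bounded it is transported by `U`, up to the end
points -/
lemma Cmt.const (h : Cmt U A C) (v : D) {I : Set ℝ} (hI : IsOpen I) (hI' : IsPreconnected I)
    (hb : ∀ s ∈ I, Lbd U C v s) {t s : ℝ} (ht : t ∈ I) (hs : s ∈ closure I) :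
    C (U s v) = U (s - t) (C (U t v)) := by
  have key : ∀ s ∈ I, C (U s v) = U (s - t) (C (U t v)) := by
    intro s hs
    refine ext_inner_left ℂ fun z => ?_
    have hz : U s (U (-s) z) = z := by rw [h.add, add_neg_cancel, h.zero]
    have h1 : (Inner.inner ℂ (U s (U (-s) z)) (C (U s v)) : ℂ) =
        Inner.inner ℂ (U t (U (-s) z)) (C (U t v)) := by
      refine hI.is_const_of_deriv_eq_zero
        (f := fun s' => (Inner.inner ℂ (U s' (U (-s) z)) (C (U s' v)) : ℂ)) hI' ?_ ?_ hs ht
      · intro s' hs'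
        exact (h.der0 v (U (-s) z) (hb s' hs')).differentiableAt.differentiableWithinAt
      · intro s' hs'
        exact (h.der0 v (U (-s) z) (hb s' hs')).deriv
    rw [hz] at h1
    rw [h1, ← h.inner (s - t), h.add, sub_add_cancel, hz]
  refine ext_inner_left ℂ fun z => ?_
  have hcl : IsClosed {s | (Inner.inner ℂ z (C (U s v)) : ℂ) =
      Inner.inner ℂ z (U (s - t) (C (U t v)))} :=
    isClosed_eq (h.cinner v z)
      (continuous_const.inner ((h.toFlow.cont (C (U t v))).comp (continuous_id.sub continuous_const)))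
  exact closure_minimal (fun s hs => by
    show (Inner.inner ℂ z (C (U s v)) : ℂ) = _
    rw [key s hs]) hcl hs

/-- **A symmetric operator that commutes with the generator commutes with the group.** -/
theorem int_com (h : Cmt U A C) (t : ℝ) (v : D) : C (U t v) = U t (C v) := by
  have hall : ∀ t, Lbd U C v t := by
    by_contra hne
    push Not at hne
    set E : Set ℝ := {t | Lbd U C v t}ᶜ with hE
    have hEc : IsClosed E := (lbd_open v).isClosed_compl
    obtain ⟨e1, he1⟩ := hne
    have hEn : Nonempty E := ⟨⟨e1, he1⟩⟩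
    have hEcs : CompleteSpace E := hEc.completeSpace_coe
    obtain ⟨n, ⟨x0, hx0⟩⟩ := nonempty_interior_of_iUnion_of_closed
      (f := fun n : ℕ => {x : E | ‖C (U (x : ℝ) v)‖ ≤ n})
      (fun n => (h.closed v n).preimage continuous_subtype_val) (by
        rw [eq_univ_iff_forall]
        intro x
        obtain ⟨n, hn⟩ := exists_nat_ge ‖C (U (x : ℝ) v)‖
        exact mem_iUnion.2 ⟨n, hn⟩)
    obtain ⟨V, hV, hVe⟩ := isOpen_induced_iff.1
      (isOpen_interior : IsOpen (interior {x : E | ‖C (U (x : ℝ) v)‖ ≤ n}))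
    have hx0V : (x0 : ℝ) ∈ V := by
      have : x0 ∈ Subtype.val ⁻¹' V := by rw [hVe]; exact hx0
      exact this
    have hVn : ∀ x ∈ V, x ∈ E → ‖C (U x v)‖ ≤ n := by
      intro x hx hxE
      have h1 : (⟨x, hxE⟩ : E) ∈ Subtype.val ⁻¹' V := hx
      rw [hVe] at h1
      have h2 : (⟨x, hxE⟩ : E) ∈ {x : E | ‖C (U (x : ℝ) v)‖ ≤ n} := interior_subset h1
      exact h2
    obtain ⟨ε, hε, hεV⟩ := Metric.isOpen_iff.1 hV _ hx0V
    -- the bound on the ball
    have hball : ∀ t ∈ Metric.ball (x0 : ℝ) ε, ‖C (U t v)‖ ≤ n := by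
      intro t ht
      by_cases htE : t ∈ E
      · exact hVn t (hεV ht) htE
      have htL : Lbd U C v t := by
        by_contra hc
        exact htE hc
      -- the end point
      obtain ⟨b, I, hI, hI', hIb, htI, hbI, hbE, hbB⟩ : ∃ (b : ℝ) (I : Set ℝ), IsOpen I ∧
          IsPreconnected I ∧ (∀ s ∈ I, Lbd U C v s) ∧ t ∈ I ∧ b ∈ closure I ∧ b ∈ E ∧
            b ∈ Metric.ball (x0 : ℝ) ε := by
        obtain ⟨δ, hδ, hδL⟩ := Metric.isOpen_iff.1 (lbd_open (U := U) (C := C) v) t htL
        have hx0E : (x0 : ℝ) ∈ E := x0.2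
        have hne : t ≠ x0 := fun h => htE (h ▸ hx0E)
        rw [Metric.mem_ball, Real.dist_eq] at ht
        rcases lt_or_gt_of_ne hne with hlt | hgt
        · have hS : IsCompact (E ∩ Icc t x0) := isCompact_Icc.inter_left hEc
          have hSn : (E ∩ Icc t (x0 : ℝ)).Nonempty := ⟨x0, hx0E, hlt.le, le_rfl⟩
          have hb := hS.sInf_mem hSn
          set b : ℝ := sInf (E ∩ Icc t x0) with hbdef
          have htb : t < b := lt_of_le_of_ne hb.2.1 fun h => htE (h ▸ hb.1)
          refine ⟨b, Ioo (t - δ) b, isOpen_Ioo, isPreconnected_Ioo, fun s hs => ?_,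
            ⟨by linarith, htb⟩, ?_, hb.1, ?_⟩
          · rcases lt_or_ge s t with h1 | h1
            · refine hδL ?_
              rw [Metric.mem_ball, Real.dist_eq, abs_lt]
              constructor <;> linarith [hs.1]
            · by_contra hc
              have h2 : b ≤ s := csInf_le hS.bddBelow ⟨hc, h1, (hs.2.trans_le hb.2.2).le⟩
              exact absurd hs.2 (not_lt.2 h2)
          · rw [closure_Ioo (by linarith)]
            exact ⟨by linarith, le_rfl⟩
          · rw [Metric.mem_ball, Real.dist_eq, abs_lt]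
            have h3 := (abs_lt.1 ht).1
            constructor <;> linarith [hb.2.2]
        · have hS : IsCompact (E ∩ Icc (x0 : ℝ) t) := isCompact_Icc.inter_left hEc
          have hSn : (E ∩ Icc (x0 : ℝ) t).Nonempty := ⟨x0, hx0E, le_rfl, hgt.le⟩
          have hb := hS.sSup_mem hSn
          set b : ℝ := sSup (E ∩ Icc (x0 : ℝ) t) with hbdef
          have htb : b < t := lt_of_le_of_ne hb.2.2 fun h => htE (h ▸ hb.1)
          refine ⟨b, Ioo b (t + δ), isOpen_Ioo, isPreconnected_Ioo, fun s hs => ?_,
            ⟨htb, by linarith⟩, ?_, hb.1, ?_⟩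
          · rcases lt_or_ge t s with h1 | h1
            · refine hδL ?_
              rw [Metric.mem_ball, Real.dist_eq, abs_lt]
              constructor <;> linarith [hs.2]
            · by_contra hc
              have h2 : s ≤ b := le_csSup hS.bddAbove ⟨hc, (hb.2.1.trans_lt hs.1).le, h1⟩
              exact absurd hs.1 (not_lt.2 h2)
          · rw [closure_Ioo (by linarith)]
            exact ⟨le_rfl, by linarith⟩
          · rw [Metric.mem_ball, Real.dist_eq, abs_lt]
            have h3 := (abs_lt.1 ht).2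
            constructor <;> linarith [hb.2.1]
      have h1 := h.const v hI hI' hIb htI hbI
      have h2 : ‖C (U b v)‖ = ‖C (U t v)‖ := by rw [h1, h.norm]
      rw [← h2]
      exact hVn b (hεV hbB) hbE
    have h3 : Lbd U C v x0 := ⟨n, by
      filter_upwards [Metric.ball_mem_nhds (x0 : ℝ) hε] with s hs
      exact hball s hs⟩
    exact x0.2 h3
  have h1 := h.const v isOpen_univ isPreconnected_univ (fun s _ => hall s) (mem_univ (0 : ℝ))
    (s := t) (by rw [closure_univ]; exact mem_univ _)
  rw [sub_zero, h.zero] at h1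
  exact h1

end

end Vale.Agent.P352.ND

end
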