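import Vale.Agent.P352.ND.C7b
import Vale.Agent.P352.ND.F5
import Vale.Agent.P352.ND.A3c

/-!
# P352 ND: the charge `C` does not depend on the null direction
-/

set_option linter.all false

noncomputable section

open MeasureTheory Filter Topology

namespace Vale.Agent.P352.ND

open GF (Ix V Fn Fld Theory IsLor bas eta o sim)
open H246 H496 H755 H15 H846 H746 NF
open H121 (Cop kt)

variable {D : Type*} [NormedAddCommGroup D] [InnerProductSpace ℂ D]
variable {Q : GF.Theory D} {T : Ix → Ix → GF.Fld D} {A : (V → V) → D → D} {K : V → D → D}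

/-- a charge that commutes with the stress tensor commutes with the Poincaré generators -/
theorem c_com (hT : Q.IsStress T) (h : KS Q A K) (hP : PCh Q T A) {a : V} (ha : IsNull a) (b : V)
    (hcT : ∀ m n f v, GF.IsTest f → HasCompactSupport f →
      Cop Q A K a b (T m n f v) = T m n f (Cop Q A K a b v)) {X : V → V} (hX : IsSim 0 X) (v : D) :
    Cop Q A K a b (A X v) = A X (Cop Q A K a b v) :=
  com_P hT h.toRep hP (cop_symm h ha b) hcT hX v

/-- **The charge does not depend on the null direction.** -/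
theorem c_eq (h : KS Q A K) (hc : CK Q K) {a b a' b' : V} (ha : IsNull a) (hb : IsNull b)
    (hab : GF.mdot a b = 1) (hz : ∀ u t v, Sd Q A K a b u t v = 0) (ha' : IsNull a')
    (hb' : IsNull b') (hab' : GF.mdot a' b' = 1) (hz' : ∀ u t v, Sd Q A K a' b' u t v = 0)
    (hA : ∀ X v, IsSim 0 X → Cop Q A K a b (A X v) = A X (Cop Q A K a b v)) (v : D) :
    Cop Q A K a' b' v = Cop Q A K a b v := by
  obtain ⟨n, w, r, hn, hw, hr, hLa⟩ := exists_nrt ha ha'
  have hL := isLor_nrt hn hw
  have key : ∀ v, Cop Q A K a' b' (Q.U 1 (nrt n w) 0 v) = Cop Q A K a b (Q.U 1 (nrt n w) 0 v) := by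
    intro v
    have h1 := cop_cov h hc ha hb hab hz ha' hb' hab' hz' one_pos hr hL hLa 0 v
    have h2 := com_nrt h.toRep (cop_symm h ha b) hA hn hw 1 v
    rw [one_smul] at h2
    rw [h2, h1]
  have hf := flow_nrt h.toRep hn hw
  have e : v = Q.U 1 (nrt n w) 0 (Q.U 1 (nrt n ((-1 : ℝ) • w)) 0 v) := by
    have h1 := hf.add 1 (-1) v
    rw [add_neg_cancel, hf.zero] at h1
    simp only [one_smul] at h1
    exact h1.symm
  rw [e]
  exact key _

end Vale.Agent.P352.ND

end
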