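import Vale.Agent.P352.G.KLin
import Vale.Agent.P352.H846.TnDefs

/-!
# P352: symmetric operators of negative dimension that commute with the translations annihilate the
vectors of the tensor fields
-/

set_option linter.all false

noncomputable section

open MeasureTheory SchwartzMap Complex Filter Topology
open scoped SchwartzMap ComplexConjugate ENNReal NNReal LineDeriv

namespace Vale.Agent.P352.ND

open GF (Ix V Fn Sch ev pd bar sim bas o IsLor IsTest)
open H246 H496 H755 H746
open Vale.Agent.P352.H746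
open UniformSpace (Completion)

variable {D : Type*} [NormedAddCommGroup D] [InnerProductSpace ℂ D]
variable {Q : GF.Theory D} {T : Ix → Ix → GF.Fld D} {Z : D → D}

section

variable (hs : ∀ v w, inner ℂ (Z v) w = inner ℂ v (Z w))
include hs

lemma z_add (v w : D) : Z (v + w) = Z v + Z w := by
  refine ext_inner_left ℂ fun z => ?_
  rw [← hs z (v + w), inner_add_right, inner_add_right, hs z v, hs z w]

lemma z_smul (c : ℂ) (v : D) : Z (c • v) = c • Z v := by
  refine ext_inner_left ℂ fun z => ?_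
  rw [← hs z (c • v), inner_smul_right, inner_smul_right, hs z v]

lemma z_iter_add (k : ℕ) (v w : D) : Z^[k] (v + w) = Z^[k] v + Z^[k] w := by
  induction k with
  | zero => rfl
  | succ k ih => rw [Function.iterate_succ_apply', Function.iterate_succ_apply',
      Function.iterate_succ_apply', ih, z_add hs]

lemma z_iter_smul (k : ℕ) (r : ℂ) (v : D) : Z^[k] (r • v) = r • Z^[k] v := by
  induction k with
  | zero => rfl
  | succ k ih => rw [Function.iterate_succ_apply', Function.iterate_succ_apply', ih, z_smul hs]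

lemma z_iter_symm (k : ℕ) (v w : D) : inner ℂ (Z^[k] v) w = inner ℂ v (Z^[k] w) := by
  induction k generalizing v w with
  | zero => rfl
  | succ k ih => rw [Function.iterate_succ_apply', Function.iterate_succ_apply, ← ih, hs, ih]

/-- powers of two -/
lemma z_pow {v : D} (j : ℕ) (h : Z^[2 ^ j] v = 0) : Z v = 0 := by
  induction j with
  | zero => simpa using h
  | succ j ih =>
    refine ih ?_
    have e : inner ℂ (Z^[2 ^ j] v) (Z^[2 ^ j] v) = 0 := by
      rw [z_iter_symm hs, ← Function.iterate_add_apply]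
      have : 2 ^ j + 2 ^ j = 2 ^ (j + 1) := by ring
      rw [this, h, inner_zero_right]
    exact inner_self_eq_zero.1 e

variable (ht : ∀ (x : Mink) v, U1 Q x (Z v) = Z (U1 Q x v))
include ht

omit hs in
lemma z_iter_U1 (k : ℕ) (x : Mink) (v : D) : U1 Q x (Z^[k] v) = Z^[k] (U1 Q x v) := by
  induction k with
  | zero => rfl
  | succ k ih => rw [Function.iterate_succ_apply', Function.iterate_succ_apply', ht, ih]

variable (hd : ∀ (s : ℝ) v, 0 < s → Z (Q.U s GF.one 0 v) = (s : ℂ) • Q.U s GF.one 0 (Z v))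
include hd

omit ht in
lemma z_iter_scale (k : ℕ) {s : ℝ} (h0 : 0 < s) (v : D) :
    Z^[k] (Q.U s GF.one 0 v) = ((s : ℂ) ^ k) • Q.U s GF.one 0 (Z^[k] v) := by
  induction k with
  | zero => simp
  | succ k ih => rw [Function.iterate_succ_apply', Function.iterate_succ_apply', ih,
      z_smul hs, hd _ _ h0, smul_smul]; ring_nf

variable {l : ℕ} {d : ℝ} {Φ : (Fin l → Ix) → GF.Fld D} (hΦ : H846.IsTen Q l d Φ)
  (μ : Fin l → Ix)
include hΦ

omit ht hd in
lemma exists_zk (k : ℕ) : ∃ κ : 𝓢(Mink, ℂ) →L[ℂ] Completion D, ∀ f,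
    κ f = ((Z^[k] (Φ μ (fl f) Q.vac) : D) : Completion D) := by
  have hJm := Q.bose_fld _ (hΦ.1 μ)
  have := barrelled_schwartz
  set Ψ : 𝓢(Mink, ℂ) →ₗ[ℂ] D :=
    { toFun := fun f => Z^[k] (Φ μ (fl f) Q.vac)
      map_add' := fun f g => by rw [fld_addf hJm, z_iter_add hs]
      map_smul' := fun r f => by rw [fld_smulf hJm, z_iter_smul hs]; rfl } with hΨ
  have hcont : Continuous Ψ := by
    refine cont_of_weak Ψ (Z := Set.univ) dense_univ fun z _ => ?_
    have e : (fun f : 𝓢(Mink, ℂ) => inner ℂ z (Ψ f)) = fun f =>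
        inner ℂ (Z^[k] z) (Φ μ (fl f) Q.vac) := by
      funext f
      show inner ℂ z (Z^[k] (Φ μ (fl f) Q.vac)) = _
      rw [z_iter_symm hs]
    rw [e]
    exact continuous_const.inner (fld_cont hJm Q.vac)
  exact ⟨⟨(Completion.toComplₗᵢ (𝕜 := ℂ) (E := D)).toLinearMap ∘ₗ Ψ,
    (Completion.continuous_coe D).comp hcont⟩, fun f => rfl⟩

omit ht in
/-- the scaling relation -/
lemma zk_norm (k : ℕ) {κ : 𝓢(Mink, ℂ) →L[ℂ] Completion D}
    (hκ : ∀ f, κ f = ((Z^[k] (Φ μ (fl f) Q.vac) : D) : Completion D)) {s : ℝ}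
    (h0 : 0 < s) (f : 𝓢(Mink, ℂ)) :
    ‖κ f‖ = s ^ ((4 : ℝ) - d + k) * ‖κ (simS s h0 isLor_one 0 f)‖ := by
  have h1 := hΦ.2 μ s GF.one 0 (fl f) Q.vac h0 isLor_one (isTest_fl f)
  rw [Q.U_vac s GF.one 0 h0 isLor_one] at h1
  have h3 : Φ μ (fl f) Q.vac = ((s ^ (4 - d) : ℝ) : ℂ) •
      Q.U s GF.one 0 (Φ μ (fl (simS s h0 isLor_one 0 f)) Q.vac) := by
    rw [h1, Finset.sum_eq_single μ]
    · have e : ∏ i, GF.one (μ i) (μ i) = 1 := Finset.prod_eq_one fun i _ => by simp [GF.one, bas]
      rw [e, mul_one, ← fl_sim s h0 isLor_one]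
    · intro ν _ hν
      obtain ⟨i, hi⟩ := Function.ne_iff.1 hν
      have e : ∏ i, GF.one (ν i) (μ i) = 0 := Finset.prod_eq_zero (Finset.mem_univ i) (by
        simp [GF.one, bas, hi, Ne.symm hi])
      rw [e, mul_zero, Complex.ofReal_zero, zero_smul]
    · simp
  rw [hκ, hκ, h3, z_iter_smul hs, z_iter_scale hs hd k h0, Completion.norm_coe,
    Completion.norm_coe, norm_smul, norm_smul, U_nrm h0 isLor_one, norm_pow, Complex.norm_real,
    Complex.norm_real, Real.norm_of_nonneg (Real.rpow_nonneg h0.le _), Real.norm_of_nonneg h0.le,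
    ← mul_assoc, Real.rpow_add h0, Real.rpow_natCast]

/-- the distribution of negative dimension vanishes -/
lemma zk_zero (k : ℕ) (hk : d < k) {κ : 𝓢(Mink, ℂ) →L[ℂ] Completion D}
    (hκ : ∀ f, κ f = ((Z^[k] (Φ μ (fl f) Q.vac) : D) : Completion D)) (f : 𝓢(Mink, ℂ)) :
    κ f = 0 := by
  have hJm := Q.bose_fld _ (hΦ.1 μ)
  have cov : ∀ g (a : Mink) (z : D), inner ℂ ((U1 Q a z : D) : Completion D) (κ (tauS a g)) =
      inner ℂ (z : Completion D) (κ g) := by
    intro g a z
    have h1 : Φ μ (fl (tauS a g)) Q.vac = U1 Q a (Φ μ (fl g) Q.vac) := by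
      have h2 : U1 Q a (Φ μ (fl g) Q.vac) = Φ μ (fl (tauS a g)) (U1 Q a Q.vac) :=
        U_fld hJm g a Q.vac
      rw [h2, U1_vac]
    rw [hκ, hκ, h1, ← z_iter_U1 ht, Completion.inner_coe, Completion.inner_coe, U1_inner]
  obtain ⟨μ', Kd⟩ := exists_cvd κ cov
  have := Kd.fin
  set p : ℝ := (4 : ℝ) - d + k with hp
  have hp4 : 0 < 2 * p - 8 := by rw [hp]; linarith
  -- compactly supported Fourier transforms
  have key : ∀ G : 𝓢(Mink, ℂ), HasCompactSupport G → ∫ q, ‖G q‖ ^ 2 ∂μ' = 0 := by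
    intro G hG
    obtain ⟨g, hg⟩ := mftS_surj G
    have hg' : ∀ p, mft g p = G p := fun p => by rw [← hg, mftS_apply]
    obtain ⟨R, hR⟩ := hG.isCompact.isBounded.subset_closedBall (0 : Mink)
    obtain ⟨C, hC⟩ := hG.exists_bound_of_continuous G.continuous
    have hC0 : 0 ≤ C := (norm_nonneg _).trans (hC 0)
    have hb : ∀ s : ℝ, 0 < s → s ≤ 1 →
        ∫ q, ‖G q‖ ^ 2 ∂μ' ≤ s ^ (2 * p - 8) * (C ^ 2 * μ'.real (Metric.closedBall 0 R)) := by
      intro s h0 hs1
      have h1 := zk_norm hs hd hΦ μ k hκ h0 g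
      rw [← hp] at h1
      have h2 : ∫ q, ‖G q‖ ^ 2 ∂μ' = ‖κ g‖ ^ 2 := by
        rw [Vale.Agent.P352.G.H15.cvd_norm_sq Kd]
        simp only [hg']
      have h3 : ‖κ (simS s h0 isLor_one 0 g)‖ ^ 2 =
          ∫ q, (s ^ 8)⁻¹ * ‖G (s⁻¹ • q)‖ ^ 2 ∂μ' := by
        rw [Vale.Agent.P352.G.H15.cvd_norm_sq Kd]
        refine integral_congr_ae (Eventually.of_forall fun q => ?_)
        show ‖mft (simS s h0 isLor_one 0 g) q‖ ^ 2 = _
        rw [mft_simS, norm_mul, norm_mul, norm_chr, one_mul, hg', Complex.norm_real,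
          Real.norm_of_nonneg (by positivity)]
        have e : lam GF.one q = q := by
          ext k
          simp [lam_apply, GF.one, bas]
        rw [e]
        ring
      have h4 : ∫ q, (s ^ 8)⁻¹ * ‖G (s⁻¹ • q)‖ ^ 2 ∂μ' ≤
          (s ^ 8)⁻¹ * (C ^ 2 * μ'.real (Metric.closedBall 0 R)) := by
        rw [integral_const_mul]
        refine mul_le_mul_of_nonneg_left ?_ (by positivity)
        have h5 : ∀ q, ‖G (s⁻¹ • q)‖ ^ 2 ≤
            (Metric.closedBall (0 : Mink) R).indicator (fun _ => C ^ 2) q := by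
          intro q
          by_cases hq : q ∈ Metric.closedBall (0 : Mink) R
          · rw [Set.indicator_of_mem hq]
            exact pow_le_pow_left₀ (norm_nonneg _) (hC _) 2
          · rw [Set.indicator_of_notMem hq]
            have : G (s⁻¹ • q) = 0 := by
              by_contra h0'
              apply hq
              have h6 := hR (subset_tsupport _ h0')
              rw [mem_closedBall_zero_iff, norm_smul, norm_inv, Real.norm_of_nonneg h0.le] at h6
              rw [mem_closedBall_zero_iff]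
              have h7 : ‖q‖ ≤ s⁻¹ * ‖q‖ := by
                have : 1 ≤ s⁻¹ := (one_le_inv₀ h0).2 hs1
                nlinarith [norm_nonneg q]
              exact h7.trans h6
            rw [this]; simp
        have h8 : Integrable ((Metric.closedBall (0 : Mink) R).indicator (fun _ => C ^ 2)) μ' := by
          rw [integrable_indicator_iff Metric.isClosed_closedBall.measurableSet]
          exact integrableOn_const (isCompact_closedBall _ _).measure_lt_top.ne
        calc ∫ q, ‖G (s⁻¹ • q)‖ ^ 2 ∂μ' ≤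
            ∫ q, (Metric.closedBall (0 : Mink) R).indicator (fun _ => C ^ 2) q ∂μ' :=
              integral_mono_of_nonneg (Eventually.of_forall fun q => by positivity) h8
                (Eventually.of_forall h5)
          _ = C ^ 2 * μ'.real (Metric.closedBall 0 R) := by
              rw [integral_indicator Metric.isClosed_closedBall.measurableSet, setIntegral_const,
                smul_eq_mul, mul_comm]
      rw [h2, h1, mul_pow, h3]
      have e1 : (s ^ p) ^ 2 * (s ^ 8)⁻¹ = s ^ (2 * p - 8) := by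
        rw [Real.rpow_sub h0, div_eq_mul_inv, mul_comm 2 p, Real.rpow_mul h0.le]
        norm_cast
      calc (s ^ p) ^ 2 * ∫ q, (s ^ 8)⁻¹ * ‖G (s⁻¹ • q)‖ ^ 2 ∂μ' ≤
          (s ^ p) ^ 2 * ((s ^ 8)⁻¹ * (C ^ 2 * μ'.real (Metric.closedBall 0 R))) :=
            mul_le_mul_of_nonneg_left h4 (by positivity)
        _ = s ^ (2 * p - 8) * (C ^ 2 * μ'.real (Metric.closedBall 0 R)) := by
            rw [← mul_assoc, e1]
    refine le_antisymm ?_ (integral_nonneg fun q => by positivity)
    have hlim : Tendsto (fun s : ℝ => s ^ (2 * p - 8) * (C ^ 2 * μ'.real (Metric.closedBall 0 R)))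
        (𝓝[>] 0) (𝓝 0) := by
      have h1 : ContinuousAt (fun s : ℝ => s ^ (2 * p - 8)) 0 :=
        Real.continuousAt_rpow_const _ _ (Or.inr hp4.le)
      have h2 : Tendsto (fun s : ℝ => s ^ (2 * p - 8) *
          (C ^ 2 * μ'.real (Metric.closedBall 0 R))) (𝓝 0)
          (𝓝 (0 ^ (2 * p - 8) * (C ^ 2 * μ'.real (Metric.closedBall 0 R)))) :=
        (h1.tendsto).mul_const _
      rw [Real.zero_rpow hp4.ne', zero_mul] at h2
      exact h2.mono_left nhdsWithin_le_nhds
    refine ge_of_tendsto hlim ?_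
    have h1 : ∀ᶠ s : ℝ in 𝓝[>] 0, s ∈ Set.Ioo (0 : ℝ) 1 := Ioo_mem_nhdsGT one_pos
    filter_upwards [h1] with s h0
    exact hb s h0.1 h0.2.le
  -- balls have measure zero
  have hball : ∀ R : ℝ, 0 < R → μ' (Metric.closedBall 0 R) = 0 := by
    intro R hR
    let b : ContDiffBump (0 : Mink) := ⟨R, R + 1, hR, by linarith⟩
    have hbs : HasCompactSupport (fun x => ((b x : ℝ) : ℂ)) := by
      have := b.hasCompactSupport
      exact this.comp_left (g := fun t : ℝ => (t : ℂ)) (by simp)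
    have hbc : ContDiff ℝ ((⊤ : ℕ∞) : WithTop ℕ∞) (fun x => ((b x : ℝ) : ℂ)) :=
      Complex.ofRealCLM.contDiff.comp b.contDiff
    have h1 := key (hbs.toSchwartzMap hbc) hbs
    have h2 : Integrable (fun p => ‖(hbs.toSchwartzMap hbc) p‖ ^ 2) μ' := by
      have hcs : HasCompactSupport (fun p => ‖(hbs.toSchwartzMap hbc) p‖ ^ 2) :=
        hbs.comp_left (g := fun z : ℂ => ‖z‖ ^ 2) (by simp)
      exact Continuous.integrable_of_hasCompactSupport
        ((hbs.toSchwartzMap hbc).continuous.norm.pow 2) hcs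
    rw [integral_eq_zero_iff_of_nonneg (fun p => by positivity) h2] at h1
    have h3 : μ' {p | ¬ (‖(hbs.toSchwartzMap hbc) p‖ ^ 2 = 0)} = 0 := h1
    refine measure_mono_null ?_ h3
    intro p hp
    have h4 : b p = 1 := b.one_of_mem_closedBall hp
    show ¬ (‖((b p : ℝ) : ℂ)‖ ^ 2 = 0)
    rw [h4]; simp
  have hμ : μ' = 0 := by
    rw [← Measure.measure_univ_eq_zero]
    have : (Set.univ : Set Mink) = ⋃ k : ℕ, Metric.closedBall 0 ((k : ℝ) + 1) := by
      symm
      rw [Set.eq_univ_iff_forall]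
      intro p
      obtain ⟨k, hk⟩ := exists_nat_ge ‖p‖
      exact Set.mem_iUnion.2 ⟨k, by rw [mem_closedBall_zero_iff]; linarith⟩
    rw [this]
    exact measure_iUnion_null fun k => hball _ (by positivity)
  have h9 := Vale.Agent.P352.G.H15.cvd_norm_sq Kd f
  rw [hμ, integral_zero_measure] at h9
  exact norm_eq_zero.1 (pow_eq_zero_iff (two_ne_zero)|>.1 h9)

/-- a symmetric operator of negative dimension that commutes with the translations annihilates the
vectors of the tensor fields -/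
theorem z_ten {f : Fn} (hf : GF.IsTest f) : Z (Φ μ f Q.vac) = 0 := by
  obtain ⟨F, rfl⟩ := exists_fl hf
  obtain ⟨k, hk⟩ := exists_nat_gt d
  have hk2 : d < ((2 ^ k : ℕ) : ℝ) := hk.trans (by exact_mod_cast Nat.lt_two_pow_self)
  obtain ⟨κ, hκ⟩ := exists_zk hs hΦ μ (2 ^ k)
  have h0 := zk_zero hs ht hd hΦ μ (2 ^ k) hk2 hκ F
  rw [hκ] at h0
  refine z_pow hs k ?_
  have : ((Z^[2 ^ k] (Φ μ (fl F) Q.vac) : D) : Completion D) = ((0 : D) : Completion D) := by
    rw [h0, Completion.coe_zero]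
  exact Completion.coe_injective D this

end

/-- a symmetric operator of negative dimension that commutes with the translations annihilates the
vectors of the stress tensor -/
theorem z_T (hs : ∀ v w, inner ℂ (Z v) w = inner ℂ v (Z w))
    (ht : ∀ (x : Mink) v, U1 Q x (Z v) = Z (U1 Q x v))
    (hd : ∀ (s : ℝ) v, 0 < s → Z (Q.U s GF.one 0 v) = (s : ℂ) • Q.U s GF.one 0 (Z v))
    (hT : Q.IsStress T) (m n : Ix) {f : Fn} (hf : GF.IsTest f) : Z (T m n f Q.vac) = 0 := by
  have hΦ : H846.IsTen Q 2 4 (fun μ => T (μ 0) (μ 1)) := by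
    refine ⟨fun μ => hT.bose _ _, fun μ s L a f v hs hL hf => ?_⟩
    simp only
    rw [hT.cov _ _ s L a f v hs hL hf]
    have e := (finTwoArrowEquiv Ix).symm.sum_comp fun ν : Fin 2 → Ix =>
      ((s ^ ((4:ℝ) - 4) * ∏ i, L (ν i) (μ i) : ℝ) : ℂ) •
        Q.U s L a (T (ν 0) (ν 1) (fun x => f (sim s L a x)) v)
    rw [← e, Fintype.sum_prod_type]
    refine Finset.sum_congr rfl fun k _ => Finset.sum_congr rfl fun l _ => ?_
    simp [finTwoArrowEquiv, Fin.prod_univ_two]
  exact z_ten hs ht hd hΦ ![m, n] hf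

end Vale.Agent.P352.ND

end
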