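import Vale.Agent.P352.ND.F5
import Vale.Agent.P352.NF.E12
import Vale.Agent.P352.NF.E2

/-!
# P352 ND: `Xi = 0` on `D`, the operators `K` are exactly quadratic under translations
-/

set_option linter.all false

noncomputable section

open MeasureTheory Filter Topology SchwartzMap Complex Asymptotics
open scoped SchwartzMap ComplexConjugate ContDiff LineDeriv

namespace Vale.Agent.P352.ND

open GF (Ix V Fn Fld Theory Sch IsLor bas o sim pd tr ev bar)
open H246 H496 H755 H15 H846 H246R H746 N86 NC NF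
open UniformSpace (Completion)

variable {D : Type*} [NormedAddCommGroup D] [InnerProductSpace ℂ D]
variable {Q : GF.Theory D} {T : Ix → Ix → GF.Fld D}
variable {A : (V → V) → D → D} {K : V → D → D}

/-- the operators `K a` are bounded on the translates of a vector, locally uniformly -/
def LB (Q : GF.Theory D) (K : V → D → D) : Prop := ∀ a v, IsNull a → ∃ (C : ℝ) (m : ℕ), ∀ x,
  ‖K a (Q.U 1 GF.one x v)‖ ≤ C * (1 + ‖x‖) ^ m

/-- the product rule -/
lemma x0_prod {B B' : D → D} (hB : Adj B B') {w v : ℝ → D} {w' v' : D} {u : ℝ}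
    (hw : HasDerivAt w w' u) (hv : HasDerivAt v v' u) {C : ℝ}
    (hC : ∀ᶠ h in 𝓝 u, ‖B (v h)‖ ≤ C) :
    HasDerivAt (fun h => inner ℂ (w h) (B (v h)))
      (inner ℂ w' (B (v u)) + inner ℂ (w u) (B v')) u := by
  have hBi : ∀ x y : D, inner ℂ x (B y) = inner ℂ (B' x) y := fun x y => (hB.symm x y).symm
  have t1 : HasDerivAt (fun h => inner ℂ (w h - w u - (h - u) • w') (B (v h))) (0 : ℂ) u := by
    have h1 : (fun h => w h - w u - (h - u) • w') =o[𝓝 u] fun h => h - u := hw.isLittleO
    have h2 : (fun h => inner ℂ (w h - w u - (h - u) • w') (B (v h))) =o[𝓝 u] fun h => h - u := by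
      have h3 : (fun h => (inner ℂ (w h - w u - (h - u) • w') (B (v h)) : ℂ)) =O[𝓝 u]
          fun h => w h - w u - (h - u) • w' := by
        refine IsBigO.of_bound C ?_
        filter_upwards [hC] with h hh
        refine (norm_inner_le_norm _ _).trans ?_
        rw [mul_comm]
        exact mul_le_mul_of_nonneg_right hh (norm_nonneg _)
      exact h3.trans_isLittleO h1
    have h4 : HasDerivAt (fun h => inner ℂ (w h - w u - (h - u) • w') (B (v h))) (0 : ℂ) u := by
      rw [hasDerivAt_iff_isLittleO]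
      simpa using h2
    exact h4
  have t2 : HasDerivAt (fun h => inner ℂ (B' (w u)) (v h)) (inner ℂ (B' (w u)) v') u :=
    ((innerSL ℂ (B' (w u))).restrictScalars ℝ).hasFDerivAt.comp_hasDerivAt u hv
  have t3 : HasDerivAt (fun h => inner ℂ (B' w') (v h)) (inner ℂ (B' w') v') u :=
    ((innerSL ℂ (B' w')).restrictScalars ℝ).hasFDerivAt.comp_hasDerivAt u hv
  have t4 : HasDerivAt (fun h : ℝ => ((h - u : ℝ) : ℂ)) ((1 : ℝ) : ℂ) u :=
    ((hasDerivAt_id u).sub_const u).ofReal_comp
  have t5 := t4.mul t3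
  have t6 := (t1.add t2).add t5
  have e : (fun h => inner ℂ (w h) (B (v h))) =
      ((fun h => inner ℂ (w h - w u - (h - u) • w') (B (v h))) + fun h => inner ℂ (B' (w u)) (v h)) +
        (fun h : ℝ => ((h - u : ℝ) : ℂ)) * fun h => inner ℂ (B' w') (v h) := by
    funext h
    simp only [Pi.add_apply, Pi.mul_apply]
    rw [← hBi, ← hBi, inner_sub_left, inner_sub_left, inner_smul_left_eq_smul]
    rw [Complex.real_smul]
    ring
  rw [e]
  refine t6.congr_deriv ?_
  rw [← hBi, ← hBi]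
  simp
  ring

/-- the matrix elements of the translated operators -/
def gk (Q : GF.Theory D) (K : V → D → D) (a b : V) (v w : D) (u : ℝ) : ℂ :=
  inner ℂ (Q.U 1 GF.one (-(u • b)) w) (K a (Q.U 1 GF.one (-(u • b)) v))

lemma gk_eq (a b : V) (v w : D) (u : ℝ) : gk Q K a b v w u =
    inner ℂ w (Q.U 1 GF.one (u • b) (K a (Q.U 1 GF.one (-(u • b)) v))) := by
  unfold gk
  rw [← Q.U_inner 1 GF.one (u • b) _ _ one_pos isLor_one, Uadd1, add_neg_cancel, Uone]

lemma x0_loc (hl : LB Q K) {a : V} (ha : IsNull a) (b : V) (v : D) (u : ℝ) :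
    ∃ C, ∀ᶠ h in 𝓝 u, ‖K a (Q.U 1 GF.one (-(h • b)) v)‖ ≤ C := by
  obtain ⟨C, m, hC⟩ := hl a v ha
  have hC0 : 0 ≤ C := by
    have h1 := (norm_nonneg _).trans (hC 0)
    simpa using h1
  refine ⟨C * (1 + (|u| + 1) * ‖b‖) ^ m, ?_⟩
  filter_upwards [Metric.ball_mem_nhds u one_pos] with h hh
  refine (hC _).trans ?_
  refine mul_le_mul_of_nonneg_left (pow_le_pow_left₀ (by positivity) ?_ m) hC0
  rw [norm_neg, norm_smul, Real.norm_eq_abs]
  have h1 : |h - u| < 1 := by simpa [Real.dist_eq] using hh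
  have h2 : |h| ≤ |u| + 1 := by
    have := abs_add_le u (h - u)
    rw [add_sub_cancel] at this
    linarith
  have := mul_le_mul_of_nonneg_right h2 (norm_nonneg b)
  linarith

/-- the derivative of the matrix elements -/
lemma gk_der (h : KS Q A K) (hl : LB Q K) {a : V} (ha : IsNull a) (b : V) (v w : D) (u : ℝ) :
    HasDerivAt (gk Q K a b v w) (I * gk Q K a b v (A (fun _ => b) w) u -
      I * gk Q K a b (A (fun _ => b) v) w u) u := by
  have R := h.toRep
  have hK : Adj (K a) (K a) := fun v w => h.symm a v w ha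
  obtain ⟨C, hC⟩ := x0_loc hl ha b v u
  have h1 := x0_prod hK (e12_der R b w u) (e12_der R b v u) hC
  refine h1.congr_deriv ?_
  unfold gk
  rw [← e12_comm R, ← e12_comm R, inner_neg_left, inner_smul_left, conj_I]
  have e : K a (-(I • A (fun _ => b) (Q.U 1 GF.one (-(u • b)) v))) =
      (-I) • K a (A (fun _ => b) (Q.U 1 GF.one (-(u • b)) v)) := by
    rw [← neg_smul, hK.smul]
  rw [e, inner_smul_right]
  ring

theorem ck_of (h : KS Q A K) (hl : LB Q K) : CK Q K := by
  intro a b v w ha hb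
  have e : (fun u : ℝ => inner ℂ w (Q.U 1 GF.one (u • b) (K a (Q.U 1 GF.one (-(u • b)) v)))) =
      gk Q K a b v w := funext fun u => (gk_eq a b v w u).symm
  rw [e]
  exact continuous_iff_continuousAt.2 fun u => (gk_der h hl ha b v w u).continuousAt

/-- `Xi = 0` implies that the second differences vanish. -/
theorem sd_of_xi (h : KS Q A K) (hl : LB Q K) {a b : V} (ha : IsNull a) (hb : IsNull b)
    (hab : GF.mdot a b = 1) (hx : ∀ v, Xi A K a b v = 0) (u t : ℝ) (v : D) :
    Sd Q A K a b u t v = 0 := by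
  have R := h.toRep
  set P : D → D := A (fun _ => b) with hP
  have hPs : ∀ v w, inner ℂ (P v) w = inner ℂ v (P w) := A_symm R (const_sim b)
  have hcK : (fun _ : V => cK a b) = fun z : V => (fun _ : V => b) z + (1 : ℝ) • (fun _ : V => b) z := by
    funext z n
    simp only [cK, hab, hb.1, Pi.sub_apply, Pi.add_apply, Pi.smul_apply, smul_eq_mul]
    ring
  have hA2 : ∀ z : D, A (fun _ => cK a b) z = P z + P z := by
    intro z
    rw [hcK]
    have h1 := R.add 0 0 1 _ _ z (const_sim b) (const_sim b)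
    rw [h1, ofReal_one, one_smul]
  have key : ∀ (w : D) (u : ℝ), 2 * gk Q K a b (P v) (P w) u - gk Q K a b (P (P v)) w u -
      gk Q K a b v (P (P w)) u = 4 * inner ℂ w (P v) := by
    intro w u
    have h1 := congrArg (fun z => inner ℂ (Q.U 1 GF.one (-(u • b)) w) z)
      (hx (Q.U 1 GF.one (-(u • b)) v))
    unfold Xi NC.Pg at h1
    simp only [inner_sub_right, inner_smul_right, inner_zero_right, hA2, inner_add_right] at h1
    have e1 : inner ℂ (Q.U 1 GF.one (-(u • b)) w) (P (Q.U 1 GF.one (-(u • b)) v)) =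
        inner ℂ w (P v) := by
      rw [hP, e12_comm R, Q.U_inner _ _ _ _ _ one_pos isLor_one]
    unfold gk
    rw [hP, ← e12_comm R, ← e12_comm R, ← e12_comm R, ← e12_comm R, ← e12_comm R, ← e12_comm R,
      ← hP]
    rw [hPs, hPs, hPs, ← e1]
    rw [← hP] at h1
    linear_combination h1
  refine ext_inner_left ℂ fun w => ?_
  set c : ℂ := inner ℂ w (P v) with hc
  have h1 : ∀ u, HasDerivAt (fun u : ℝ => gk Q K a b v w u - 2 * (u : ℂ) ^ 2 * c)
      (I * gk Q K a b v (P w) u - I * gk Q K a b (P v) w u - 4 * (u : ℂ) * c) u := by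
    intro u
    have h4 : HasDerivAt (fun u : ℝ => 2 * (u : ℂ) ^ 2 * c) (2 * (2 * (u : ℂ)) * c) u := by
      have h5 : HasDerivAt (fun u : ℝ => (u : ℂ) ^ 2) (2 * (u : ℂ)) u := by
        have h6 := (ofRealCLM.hasDerivAt (x := u)).mul (ofRealCLM.hasDerivAt (x := u))
        refine (h6.congr_deriv ?_).congr_of_eventuallyEq (Eventually.of_forall fun y => ?_)
        · simp
          ring
        · simp [pow_two]
      exact (h5.const_mul 2).mul_const c
    refine ((gk_der h hl ha b v w u).sub h4).congr_deriv ?_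
    rw [← hP]
    ring
  have h2 : ∀ u, HasDerivAt (fun u : ℝ => I * gk Q K a b v (P w) u - I * gk Q K a b (P v) w u -
      4 * (u : ℂ) * c) 0 u := by
    intro u
    have h3 := (gk_der h hl ha b v (P w) u).const_mul I
    have h4 := (gk_der h hl ha b (P v) w u).const_mul I
    have h5 : HasDerivAt (fun u : ℝ => 4 * (u : ℂ) * c) (4 * 1 * c) u :=
      ((ofRealCLM.hasDerivAt (x := u)).const_mul 4).mul_const c
    refine ((h3.sub h4).sub h5).congr_deriv ?_
    have h6 := key w u
    have h7 : I * I = -1 := I_mul_I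
    rw [← hP]
    linear_combination h6 + (gk Q K a b v (P (P w)) u - 2 * gk Q K a b (P v) (P w) u +
      gk Q K a b (P (P v)) w u) * h7
  have h3 := e12_aff h1 h2 u t
  rw [Sd_Ku, inner_sub_right, inner_sub_right, inner_add_right, inner_smul_right,
    inner_smul_right, inner_zero_right]
  have e : ∀ s : ℝ, inner ℂ w (Ku Q K a b s v) = gk Q K a b v w s := fun s => (gk_eq a b v w s).symm
  rw [e, e, e]
  push_cast at h3 ⊢
  linear_combination h3

/-- a symmetric operator that commutes with the boost generator and has a non zero weight vanishes -/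
lemma x0_boost (R : H15.Rep Q A) {a b : V} (ha : IsNull a) (hb : IsNull b)
    (hab : GF.mdot a b = 1) {B : D → D} (hB : ∀ v w, inner ℂ (B v) w = inner ℂ v (B w))
    {k : ℝ} (hk : k ≠ 0) (hcov : ∀ (e : ℝ) (L : Ix → V) (v : D), IsLor L →
      sim 1 L 0 a = Real.exp (-e) • a →
        Q.U 1 L 0 (B v) = ((Real.exp (k * e) : ℝ) : ℂ) • B (Q.U 1 L 0 v))
    (hc : ∀ v, B (A (Nf a b) v) = A (Nf a b) (B v)) (v : D) : B v = 0 := by
  obtain ⟨L, h0, hL, hd, he⟩ := f4_boost ha hb hab
  have hN := f4_Nf_sim a b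
  have hder : ∀ v : D, HasDerivAt (fun e => Q.U 1 (L e) 0 v) (I • A (Nf a b) v) 0 := by
    intro v
    refine R.der (fun _ => 1) L (fun _ => 0) (Nf a b) v rfl h0 rfl (fun e => ⟨one_pos, hL e⟩)
      fun n x => ?_
    have e : (fun e => sim 1 (L e) 0 x n) = fun e => ∑ m, x m * L e m n := by
      funext e
      simp [sim]
    rw [e]
    have h2 : HasDerivAt (fun e => ∑ m, x m * L e m n)
        (∑ m, x m * (GF.eta m * (a m * b n - b m * a n))) 0 :=
      HasDerivAt.fun_sum fun m _ => (hd m n).const_mul (x m)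
    refine h2.congr_deriv ?_
    show _ = GF.mdot a x * b n - GF.mdot b x * a n
    simp only [GF.mdot, Fin.sum_univ_four]
    ring
  have hU0 : ∀ v : D, Q.U 1 (L 0) 0 v = v := by
    intro v
    rw [h0]
    exact U1_zero_all (Q := Q) v
  refine ext_inner_left ℂ fun z => ?_
  have h1 : HasDerivAt (fun e => inner ℂ z (Q.U 1 (L e) 0 (B v)))
      (inner ℂ z (I • A (Nf a b) (B v))) 0 :=
    ((innerSL ℂ z).restrictScalars ℝ).hasFDerivAt.comp_hasDerivAt (0 : ℝ) (hder (B v))
  have h2 : HasDerivAt (fun e => inner ℂ (B z) (Q.U 1 (L e) 0 v))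
      (inner ℂ (B z) (I • A (Nf a b) v)) 0 :=
    ((innerSL ℂ (B z)).restrictScalars ℝ).hasFDerivAt.comp_hasDerivAt (0 : ℝ) (hder v)
  have h3 : HasDerivAt (fun e : ℝ => ((Real.exp (k * e) : ℝ) : ℂ)) (k : ℂ) 0 := by
    have h4 : HasDerivAt (fun e : ℝ => Real.exp (k * e)) (Real.exp (k * 0) * (k * 1)) 0 :=
      ((hasDerivAt_id (0 : ℝ)).const_mul k).exp
    have h5 := h4.ofReal_comp
    refine h5.congr_deriv ?_
    simp
  have h6 := h3.mul h2
  have e1 : (fun e => inner ℂ z (Q.U 1 (L e) 0 (B v))) =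
      (fun e : ℝ => ((Real.exp (k * e) : ℝ) : ℂ)) * fun e => inner ℂ (B z) (Q.U 1 (L e) 0 v) := by
    funext e
    rw [hcov e (L e) v (hL e) (he e), inner_smul_right]
    show _ = ((Real.exp (k * e) : ℝ) : ℂ) * inner ℂ (B z) (Q.U 1 (L e) 0 v)
    rw [hB]
  rw [← e1] at h6
  have h7 := h1.unique h6
  rw [inner_smul_right, inner_smul_right, hU0] at h7
  simp only [mul_zero, Real.exp_zero, ofReal_one, one_mul] at h7
  rw [hB z (A (Nf a b) v), hc] at h7
  have h8 : (k : ℂ) * inner ℂ (B z) v = 0 := by linear_combination -h7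
  have h9 : inner ℂ (B z) v = 0 := by
    have hk' : (k : ℂ) ≠ 0 := by exact_mod_cast hk
    exact (mul_eq_zero.1 h8).resolve_left hk'
  rw [inner_zero_right, ← hB]
  exact h9

/-- `Xi` vanishes if it commutes with the boost generator -/
theorem xi_of_boost (hT : Q.IsStress T) (h : KS Q A K) {a b : V} (ha : IsNull a)
    (hb : IsNull b) (hab : GF.mdot a b = 1)
    (hc : ∀ v, Xi A K a b (A (Nf a b) v) = A (Nf a b) (Xi A K a b v)) (v : D) :
    Xi A K a b v = 0 := by
  refine x0_boost h.toRep ha hb hab (fun v w => NF.Xi_symm hT h ha b v w) (k := 1) one_ne_zero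
    (fun e L v hL he => ?_) hc v
  have h1 := NF.Xi_cov hT h one_pos (Real.exp_pos (-e)) hL ha ha he b v
  have h2 : GF.mdot a (sim 1 L 0 b) = Real.exp e := by
    have h3 : GF.mdot (sim 1 L 0 a) (sim 1 L 0 b) = GF.mdot a b := md_LL hL a b
    rw [he, md_smul_l, hab] at h3
    have h4 : Real.exp (-e) * Real.exp e = 1 := by rw [← Real.exp_add]; simp
    have h5 : Real.exp (-e) ≠ 0 := (Real.exp_pos _).ne'
    exact mul_left_cancel₀ h5 (h3.trans h4.symm)
  have h3 : Xi A K a (sim 1 L 0 b) (Q.U 1 L 0 v) =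
      (((Real.exp e) ^ 2 : ℝ) : ℂ) • Xi A K a b (Q.U 1 L 0 v) := by
    rw [← NF.Xi_smul hT h ha]
    refine NF.Xi_dep hT h ha ?_ _
    rw [h2, md_smul, hab, mul_one]
  rw [h1, h3, smul_smul, div_one, ← ofReal_mul]
  congr 2
  rw [one_mul, pow_two, ← mul_assoc, ← Real.exp_add, neg_add_cancel, Real.exp_zero, one_mul]

/-- for all points -/
theorem xi_all (hT : Q.IsStress T) (h : KS Q A K) {a b : V} (ha : IsNull a)
    (hab : GF.mdot a b = 1) (hx : ∀ v, Xi A K a b v = 0) (x : V) (v : D) :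
    Xi A K a x v = 0 := by
  have h1 : Xi A K a x v = Xi A K a (GF.mdot a x • b) v := by
    refine NF.Xi_dep hT h ha ?_ v
    rw [md_smul, hab, mul_one]
  rw [h1, NF.Xi_smul hT h ha, hx, smul_zero]

end Vale.Agent.P352.ND

end
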