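import Vale.Agent.P352.ND.E8a
import Vale.Agent.P352.ND.X0
import Vale.Agent.P352.ND.A3c
import Vale.Agent.P352.NF.F6
import Vale.Agent.P352.NF.F7
import Vale.Agent.P352.H834.NL

/-!
# P352 ND: the charge `C` commutes with the generator `K` of the null deformations

`E = i [C, K]` is a symmetric operator of negative dimension that commutes with the translations, so
it annihilates the vectors `T(f)Ω`. Its commutator with `T(f)` is local: `[E, T] = i [C, [K, T]]` and
`2 C = K + A(XX b c) - K(c)`. So `E` commutes with `T`, hence with the boosts, hence it vanishes.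
-/

set_option linter.all false

noncomputable section

open MeasureTheory SchwartzMap Complex Filter Topology
open scoped SchwartzMap ComplexConjugate ContDiff LineDeriv

namespace Vale.Agent.P352.ND

open GF (Ix V Fn Fld Theory Sch IsLor bas o sim pd tr ev bar)
open H246 H496 H755 H15 H746 NF
open H846 (Nf)
open H731 (KC)
open H148 (XK isSim_XK)
open H834 (Gx net_commC net_commC' net_comm_tr net_comm_tr')

variable {D : Type*} [NormedAddCommGroup D] [InnerProductSpace ℂ D]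
variable {Q : GF.Theory D} {T : Ix → Ix → GF.Fld D} {A : (V → V) → D → D}

/-! ## algebra -/

/-- an operator with an adjoint as a linear map -/
def e8_lm {X X' : D → D} (h : H496.Adj X X') : D →ₗ[ℂ] D where
  toFun := X
  map_add' := h.add
  map_smul' := fun c v => h.smul c v

/-- the Jacobi identity -/
lemma e8_jac {K T A1 Y1 X2 : D →ₗ[ℂ] D} {Z : D → D}
    (hAK : ∀ v, A1 (K v) - K (A1 v) = Z v)
    (hY1 : ∀ v, Y1 v = A1 (T v) - T (A1 v))
    (hX2 : ∀ v, X2 v = K (T v) - T (K v)) (v : D) :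
    A1 (X2 v) - X2 (A1 v) = Z (T v) - T (Z v) + (K (Y1 v) - Y1 (K v)) := by
  have e1 := hAK (T v)
  have e2 := congrArg T (hAK v)
  rw [← e1, ← e2, hX2, hX2, hY1, hY1]
  simp only [map_sub]
  abel

lemma e8_alg {K C T P A1 A2 Kc Y1 Y2 X2 : D →ₗ[ℂ] D}
    (h1 : ∀ v, (2 : ℂ) • C v = K v - (2 : ℂ) • A1 v + (2 : ℂ) • A2 v - Kc v)
    (hCT : ∀ v, C (T v) = T (C v))
    (hA1K : ∀ v, A1 (K v) - K (A1 v) = (2 * I) • K v)
    (hA2K : ∀ v, A2 (K v) - K (A2 v) = (2 * I) • (A1 v + C v))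
    (hY1 : ∀ v, Y1 v = A1 (T v) - T (A1 v))
    (hY2 : ∀ v, Y2 v = A2 (T v) - T (A2 v))
    (hX2 : ∀ v, X2 v = K (T v) - T (K v))
    (c1 : ∀ v, X2 (P v) = P (X2 v))
    (c2 : ∀ v, Y1 (P v) = P (Y1 v))
    (c3 : ∀ v, K (Y1 (P v)) - Y1 (K (P v)) = P (K (Y1 v) - Y1 (K v)))
    (c4 : ∀ v, K (Y2 (P v)) - Y2 (K (P v)) = P (K (Y2 v) - Y2 (K v)))
    (c5 : ∀ v, K (X2 (P v)) - X2 (K (P v)) = P (K (X2 v) - X2 (K v)))
    (c6 : ∀ v, Kc (X2 (P v)) - X2 (Kc (P v)) = P (Kc (X2 v) - X2 (Kc v))) (v : D) :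
    C (X2 (P v)) - X2 (C (P v)) = P (C (X2 v) - X2 (C v)) := by
  have j1 : ∀ v, A1 (X2 v) - X2 (A1 v) = (2 * I) • X2 v + (K (Y1 v) - Y1 (K v)) := by
    intro v
    rw [e8_jac hA1K hY1 hX2 v, hX2]
    simp only [map_smul, smul_sub]
  have j2 : ∀ v, A2 (X2 v) - X2 (A2 v) = (2 * I) • Y1 v + (K (Y2 v) - Y2 (K v)) := by
    intro v
    rw [e8_jac hA2K hY2 hX2 v, hY1]
    simp only [map_smul, map_add, ← smul_sub, hCT]
    congr 2
    abel
  have F : ∀ v, (2 : ℂ) • (C (X2 v) - X2 (C v)) = (K (X2 v) - X2 (K v)) -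
      (2 : ℂ) • ((2 * I) • X2 v + (K (Y1 v) - Y1 (K v))) +
      (2 : ℂ) • ((2 * I) • Y1 v + (K (Y2 v) - Y2 (K v))) - (Kc (X2 v) - X2 (Kc v)) := by
    intro v
    rw [← j1, ← j2, smul_sub, h1, ← map_smul X2, h1]
    simp only [map_sub, map_add, map_smul]
    module
  have G : (2 : ℂ) • (C (X2 (P v)) - X2 (C (P v))) = (2 : ℂ) • P (C (X2 v) - X2 (C v)) := by
    rw [← map_smul P, F, F, c3, c4, c5, c6, c1, c2]
    simp only [map_sub, map_add, map_smul]
  exact smul_right_injective D (two_ne_zero : (2 : ℂ) ≠ 0) G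

/-! ## commutators of `K` with the generators -/

section

variable {b c : V} {K C : D → D} (k : KC Q A b K C)
include k

lemma e8_dK (v : D) : A (fun z => z) (K v) = K (A (fun z => z) v) + I • K v := by
  have R := k.rep
  have hder : ∀ v : D, HasDerivAt (fun e : ℝ => Q.U (Real.exp e) GF.one 0 v)
      (Complex.I • A (fun z => z) v) 0 := by
    intro v
    refine R.der Real.exp (fun _ => GF.one) (fun _ => 0) _ v Real.exp_zero rfl rfl
      (fun e => ⟨Real.exp_pos e, isLor_one⟩) fun n x => ?_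
    have h1 : (fun e : ℝ => sim (Real.exp e) GF.one 0 x n) = fun e => Real.exp e * x n := by
      funext e
      simp [sim, GF.one, bas, Finset.mul_sum]
    rw [h1]
    simpa using (Real.hasDerivAt_exp 0).mul_const (x n)
  have hU0 : ∀ v : D, Q.U (Real.exp 0) GF.one 0 v = v := by
    intro v
    rw [Real.exp_zero]
    exact U1_zero_all (Q := Q) v
  refine ext_inner_left ℂ fun z => ?_
  have h1 : HasDerivAt (fun e => inner ℂ z (Q.U (Real.exp e) GF.one 0 (K v)))
      (inner ℂ z (I • A (fun z => z) (K v))) 0 :=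
    ((innerSL ℂ z).restrictScalars ℝ).hasFDerivAt.comp_hasDerivAt (0 : ℝ) (hder (K v))
  have h2 : HasDerivAt (fun e => inner ℂ (K z) (Q.U (Real.exp e) GF.one 0 v))
      (inner ℂ (K z) (I • A (fun z => z) v)) 0 :=
    ((innerSL ℂ (K z)).restrictScalars ℝ).hasFDerivAt.comp_hasDerivAt (0 : ℝ) (hder v)
  have h3 : HasDerivAt (fun e : ℝ => ((Real.exp (-e) : ℝ) : ℂ)) (-1) 0 := by
    have h4 : HasDerivAt (fun e : ℝ => Real.exp (-e)) (Real.exp (-0) * (-1)) 0 :=
      (hasDerivAt_neg (0 : ℝ)).exp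
    have h5 := h4.ofReal_comp
    refine h5.congr_deriv ?_
    simp
  have h6 := h3.mul h2
  have e1 : (fun e => inner ℂ z (Q.U (Real.exp e) GF.one 0 (K v))) =
      (fun e : ℝ => ((Real.exp (-e) : ℝ) : ℂ)) *
        fun e => inner ℂ (K z) (Q.U (Real.exp e) GF.one 0 v) := by
    funext e
    rw [k.kc (Real.exp e) GF.one 1 v (Real.exp_pos _) one_pos isLor_one
      (by rw [H731.sim_scale, one_smul]), inner_smul_right]
    show _ = ((Real.exp (-e) : ℝ) : ℂ) * inner ℂ (K z) (Q.U (Real.exp e) GF.one 0 v)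
    rw [k.ks, Real.exp_neg, one_div]
  rw [← e1] at h6
  have h7 := h1.unique h6
  rw [inner_smul_right, inner_smul_right, hU0] at h7
  simp only [neg_zero, Real.exp_zero, ofReal_one] at h7
  rw [inner_add_right, inner_smul_right, ← k.ks z v, ← k.ks z (A (fun z => z) v)]
  have hI : I * I = -1 := I_mul_I
  linear_combination (-I) * h7 + (inner ℂ z (A (fun z => z) (K v)) -
    inner ℂ (K z) (A (fun z => z) v)) * hI

/-- the weight of `K` under dilations and boosts -/
lemma e8_A1K (hc : IsNull c) (hbc : GF.mdot b c = 1) (v : D) :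
    A (Xw b c) (K v) - K (A (Xw b c) v) = (2 * I) • K v := by
  have R := k.rep
  have hX : ∀ u : D, A (Xw b c) u = A (fun z => z) u + A (Nf b c) u := by
    intro u
    rw [← A_addX R u f7_sim_E (f4_Nf_sim b c)]
    congr 1
    funext z
    simp only [Xw, Nf]
    abel
  have h1 := f4_NK (K := fun _ => K) R k.nul hc hbc k.ks (fun r L v hr hL hLa => by
    have := k.kc 1 L r v one_pos hr hL hLa
    rwa [div_one] at this) v
  rw [hX, hX, k.Kadd, e8_dK k, h1, two_mul, add_smul]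
  abel

/-- the commutator with the translations -/
lemma e8_A2K (hc : IsNull c) (hbc : GF.mdot b c = 1) (v : D) :
    A (fun _ => c) (K v) - K (A (fun _ => c) v) = (2 * I) • (A (Xw b c) v + C v) := by
  have R := k.rep
  have hder : ∀ v : D, HasDerivAt (fun t : ℝ => Q.U 1 GF.one (t • c) v)
      (I • A (fun _ => c) v) 0 := fun v => e1_der R c v
  have hU0 : ∀ v : D, Q.U 1 GF.one ((0 : ℝ) • c) v = v := by
    intro v
    rw [zero_smul]
    exact U1_zero_all (Q := Q) v
  refine ext_inner_left ℂ fun w => ?_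
  have d0 : ∀ x y : D, HasDerivAt (fun t : ℝ => inner ℂ x (Q.U 1 GF.one (t • c) y))
      (inner ℂ x (I • A (fun _ => c) y)) 0 := fun x y =>
    ((innerSL ℂ x).restrictScalars ℝ).hasFDerivAt.comp_hasDerivAt (0 : ℝ) (hder y)
  have dt : HasDerivAt (fun t : ℝ => ((t : ℝ) : ℂ)) 1 0 := ofRealCLM.hasDerivAt (x := (0 : ℝ))
  have h1 := d0 w (K v)
  have h2 := (((d0 (K w) v).sub ((dt.mul (d0 (A (Xw b c) w) v)).const_mul 2)).add
    ((dt.mul (dt.mul (d0 (A (fun _ => c) w) v))).const_mul 2)).sub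
    ((dt.mul (d0 (C w) v)).const_mul 2)
  have e : (fun t : ℝ => inner ℂ w (Q.U 1 GF.one (t • c) (K v))) = fun t : ℝ =>
      (inner ℂ (K w) (Q.U 1 GF.one (t • c) v) -
        2 * (((t : ℝ) : ℂ) * inner ℂ (A (Xw b c) w) (Q.U 1 GF.one (t • c) v)) +
        2 * (((t : ℝ) : ℂ) * (((t : ℝ) : ℂ) * inner ℂ (A (fun _ => c) w)
          (Q.U 1 GF.one (t • c) v)))) -
        2 * (((t : ℝ) : ℂ) * inner ℂ (C w) (Q.U 1 GF.one (t • c) v)) := by
    funext t
    have h3 := k.tra (t • c) (Q.U 1 GF.one (t • c) v)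
    rw [Uadd1, neg_add_cancel, Uone] at h3
    have h4 : A (XK b (t • c)) (Q.U 1 GF.one (t • c) v) =
        ((-2 * t : ℝ) : ℂ) • A (Xw b c) (Q.U 1 GF.one (t • c) v) +
          ((2 * (t * t) : ℝ) : ℂ) • A (fun _ => c) (Q.U 1 GF.one (t • c) v) :=
      H755.A_XXb R hc hbc t _
    rw [h3, h4, md_smul, hbc, inner_sub_right, inner_add_right, inner_add_right,
      inner_smul_right, inner_smul_right, inner_smul_right, ← k.ks, ← k.cs,
      ← A_symm R (Xw_sim b c), ← A_symm R (const_sim c)]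
    push_cast
    ring
  have h5 := h1.unique (h2.congr_of_eventuallyEq (Eventually.of_forall fun t => congrFun e t))
  simp only [hU0, inner_smul_right, ofReal_zero, zero_mul, mul_zero, add_zero, zero_add,
    one_mul, Pi.mul_apply] at h5
  rw [A_symm R (Xw_sim b c), k.cs, k.ks] at h5
  rw [inner_sub_right, inner_smul_right, inner_add_right]
  have hI : I * I = -1 := I_mul_I
  linear_combination (-I) * h5 + (inner ℂ w (A (fun _ => c) (K v)) -
    inner ℂ w (K (A (fun _ => c) v))) * hI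

end

/-! ## locality -/

section

variable {H : D → D} {alg : Set V → Set (D → D)} {S : V → ℝ → D → D} {G : V → D → D}

lemma e8_alSub (N : CNet Q H alg S) {W : Set V} {X X' : D → D} (h : Al Q W X X') : X ∈ alg W := by
  induction h with
  | one => exact N.one _
  | add X X' Y Y' _ _ ih1 ih2 => exact N.add _ _ ih1 _ ih2
  | smul c X X' _ ih => exact N.smul _ c _ ih
  | fld A B g X X' hA hB h hg _ ih => exact N.mul _ _ (N.fld _ A g hA hg) _ ih

lemma e8_mem4 (N : CNet Q H alg S) {W : Set V} (c : Ix → ℂ) {X : Ix → D → D}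
    (h : ∀ k, X k ∈ alg W) : (fun v => ∑ k, c k • X k v) ∈ alg W := by
  simp only [Fin.sum_univ_four]
  exact N.add _ _ (N.add _ _ (N.add _ _ (N.smul _ _ _ (h 0)) _ (N.smul _ _ _ (h 1))) _
    (N.smul _ _ _ (h 2))) _ (N.smul _ _ _ (h 3))

/-- the commutators of the generators with `T(f)` are in the algebra of the region of `f` -/
lemma e8_AT (N : CNet Q H alg S) (hT : Q.IsStress T) (R : H15.Rep Q A) {W : Set V} {f : Fn}
    (hf : In W f) {r : ℝ} {X : V → V} (hX : IsSim r X) (m n : Ix) :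
    (fun v => A X (T m n f v) - T m n f (A X v)) ∈ alg W := by
  obtain ⟨c, w, hw, hX'⟩ := id hX
  have e : (fun v => A X (T m n f v) - T m n f (A X v)) = fun v => Complex.I •
      (∑ k, (w k m : ℂ) • T k n f v + ∑ l, (w l n : ℂ) • T m l f v + T m n (vf X f) v) := by
    funext v
    rw [A_T R hT hw hX' hf.1 m n v, add_sub_cancel_left]
  have hv : In W (vf X f) := ⟨isTest_vf hX hf.1,
    IsCompact.of_isClosed_subset hf.2.1 (isClosed_tsupport _) (f4_vf hX hf.1 hf.2.1), (f4_vf hX hf.1 hf.2.1).trans hf.2.2⟩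
  rw [e]
  exact N.smul _ _ _ (N.add _ _ (N.add _ _
    (e8_mem4 N _ fun k => N.fld _ _ _ (Q.bose_fld _ (hT.bose k n)) hf) _
    (e8_mem4 N _ fun l => N.fld _ _ _ (Q.bose_fld _ (hT.bose m l)) hf)) _
    (N.fld _ _ _ (Q.bose_fld _ (hT.bose m n)) hv))

lemma e8_adjc {X X' Y Y' : D → D} (hX : H496.Adj X X') (hY : H496.Adj Y Y') :
    H496.Adj (fun v => X (Y v) - Y (X v)) (fun v => Y' (X' v) - X' (Y' v)) := by
  intro v w
  show inner ℂ (X (Y v) - Y (X v)) w = inner ℂ v (Y' (X' w) - X' (Y' w))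
  rw [inner_sub_left, inner_sub_right, hX, hY, hY, hX]

lemma e8_sub {b c : V} (hc : IsNull c) (hbc : GF.mdot b c = 1) (y : V) :
    Wdg c b (y + c) ⊆ Wdg c b y := by
  rintro x ⟨h1, h2⟩
  have e : x - y = x - (y + c) + c := by abel
  refine ⟨?_, ?_⟩
  · rw [e, md_add, hc.1, add_zero]; exact h1
  · rw [e, md_add, hbc]; linarith

/-- **locality**: the commutator of the charge with `[K, T(f)]` commutes with the algebra of a wedge -/
theorem e8_local (N : CNet Q H alg S) (Gg : Gnr Q alg S G) (hT : Q.IsStress T) {b c : V}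
    {C : D → D} (k : KC Q A b (G b) C) (hc : IsNull c) (hbc : GF.mdot b c = 1) {m n : Ix} {f : Fn}
    (hCT : ∀ v, C (T m n f v) = T m n f (C v)) {y : V} (hy : GF.mdot b y = 0)
    (hf : In (Wdg b c y) f) {P : D → D} (hP : P ∈ alg (Wdg c b (y + c))) (v : D) :
    C (G b (T m n f (P v)) - T m n f (G b (P v))) -
      (G b (T m n f (C (P v))) - T m n f (G b (C (P v)))) =
    P (C (G b (T m n f v) - T m n f (G b v)) - (G b (T m n f (C v)) - T m n f (G b (C v)))) := by
  have R := k.rep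
  have hb := k.nul
  have hbc' : 0 < GF.mdot b c := by rw [hbc]; exact one_pos
  have hP' : P ∈ alg (Wdg c b y) := N.mono _ _ (e8_sub hc hbc y) hP
  have aT : H496.Adj (T m n f) (T m n (bar f)) := fun v w => hT.herm m n f v w hf.1
  have aK : H496.Adj (G b) (G b) := k.ks
  have aC : H496.Adj C C := k.cs
  have a1 : H496.Adj (A (H755.Xw b c)) (A (H755.Xw b c)) := A_symm R (Xw_sim b c)
  have a2 : H496.Adj (A fun _ => c) (A fun _ => c) := A_symm R (const_sim c)
  obtain ⟨P2, -, aP⟩ := N.adj _ P hP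
  have aP : H496.Adj P P2 := aP
  have aKc : H496.Adj (Gx Q G b c) (Gx Q G b c) := by
    intro v w
    show inner ℂ (Q.U 1 GF.one c _) w = inner ℂ v (Q.U 1 GF.one c _)
    rw [H834.nl_move, k.ks, ← H834.nl_move']
  have aY1 := e8_adjc a1 aT
  have aY2 := e8_adjc a2 aT
  have aX2 := e8_adjc aK aT
  have mT : T m n f ∈ alg (Wdg b c y) := N.fld _ _ _ (Q.bose_fld _ (hT.bose m n)) hf
  have mY1 := e8_AT N hT R hf (Xw_sim b c) m n
  have mY2 := e8_AT N hT R hf (const_sim c) m n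
  -- locality with one generator
  have loc1 : ∀ X ∈ alg (Wdg b c y), ∀ Z ∈ alg (Wdg c b y), ∀ v,
      G b (X (Z v)) - X (G b (Z v)) = Z (G b (X v) - X (G b v)) := by
    intro X hX Z hZ v
    obtain ⟨Z2, -, aZ⟩ := N.adj _ Z hZ
    exact net_commC N Gg hb hc hbc' hy hX aZ (fun W hW u =>
      (N.loc b c y hb hc hbc' W hW Z hZ u).symm) v
  have cX : ∀ Z ∈ alg (Wdg c b y), ∀ v, e8_lm aX2 (Z v) = Z (e8_lm aX2 v) := fun Z hZ v =>
    loc1 _ mT Z hZ v
  have jac : ∀ {Kx : D → D} (aKx : H496.Adj Kx Kx), (∀ v, Kx (P (e8_lm aX2 v)) -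
      P (Kx (e8_lm aX2 v)) = e8_lm aX2 (Kx (P v) - P (Kx v))) → ∀ v, Kx (e8_lm aX2 (P v)) -
      e8_lm aX2 (Kx (P v)) = P (Kx (e8_lm aX2 v) - e8_lm aX2 (Kx v)) := by
    intro Kx aKx h v
    have h1 := h v
    rw [map_sub, cX P hP'] at h1
    have h2 : P (Kx (e8_lm aX2 v) - e8_lm aX2 (Kx v)) =
        P (Kx (e8_lm aX2 v)) - P (e8_lm aX2 (Kx v)) := map_sub (e8_lm aP) _ _
    rw [cX P hP', h2, sub_eq_sub_iff_add_eq_add]
    rw [sub_eq_sub_iff_add_eq_add] at h1
    rw [h1, add_comm]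
  have key := e8_alg (K := e8_lm aK) (C := e8_lm aC) (T := e8_lm aT) (P := e8_lm aP)
    (A1 := e8_lm a1) (A2 := e8_lm a2) (Kc := e8_lm aKc) (Y1 := e8_lm aY1) (Y2 := e8_lm aY2)
    (X2 := e8_lm aX2) (fun v => ?_) hCT (e8_A1K k hc hbc) (e8_A2K k hc hbc) (fun v => rfl)
    (fun v => rfl) (fun v => rfl) (fun v => loc1 _ mT P hP' v)
    (fun v => N.loc b c y hb hc hbc' _ mY1 P hP' v) (fun v => loc1 _ mY1 P hP' v)
    (fun v => loc1 _ mY2 P hP' v) (jac aK ?_) (jac aKc ?_) v
  · exact key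
  · show (2 : ℂ) • C v = G b v - (2 : ℂ) • A (H755.Xw b c) v + (2 : ℂ) • A (fun _ => c) v -
      Q.U 1 GF.one c (G b (Q.U 1 GF.one (-c) v))
    have h4 : A (XX b ((1:ℝ) • c)) v = ((-2 * 1 : ℝ) : ℂ) • A (H755.Xw b c) v +
        ((2 * (1 * 1) : ℝ) : ℂ) • A (fun _ => c) v := H755.A_XXb R hc hbc 1 v
    rw [one_smul] at h4
    have h5 : A (XK b c) v = A (XX b c) v := rfl
    rw [k.tra c v, h5, h4, hbc]
    push_cast
    module
  · intro v
    exact net_commC' N Gg hb hc hbc' hy hP' aX2 cX v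
  · intro v
    exact net_comm_tr' N Gg hb hc hbc' (x := c) (y := y + c) (by rw [md_add, hy, zero_add]) hP aX2
      (fun Z hZ u => cX Z (N.mono _ _ (e8_sub hc hbc y) hZ) u) v

end

/-! ## the operator `E` -/

/-- the commutator of the charge with the generator -/
def EE (K C : D → D) (v : D) : D := Complex.I • (C (K v) - K (C v))

section

variable {b c : V} {K C : D → D} (k : KC Q A b K C)
include k

lemma ee_symm (v w : D) : inner ℂ (EE K C v) w = inner ℂ v (EE K C w) := by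
  unfold EE
  rw [inner_smul_left, inner_smul_right, inner_sub_left, inner_sub_right, k.cs, k.ks, k.ks, k.cs,
    conj_I]
  ring

lemma ee_cov (s : ℝ) (L : Ix → V) (r : ℝ) (v : D) (hs : 0 < s) (hr : 0 < r) (hL : IsLor L)
    (h : sim 1 L 0 b = r • b) : Q.U s L 0 (EE K C v) = ((r / s : ℝ) : ℂ) • EE K C (Q.U s L 0 v) := by
  unfold EE
  rw [U_smul hs hL, H746.U_sub' hs hL, k.cc s L r 0 _ hs hr hL h, k.kc s L r _ hs hr hL h,
    k.kc s L r _ hs hr hL h, k.cc s L r 0 _ hs hr hL h, k.Csmul]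
  module

lemma ee_vac : EE K C Q.vac = 0 := by
  have h1 : Q.U 2 GF.one 0 (EE K C Q.vac) = _ := ee_cov k 2 GF.one 1 Q.vac two_pos one_pos
    isLor_one (by rw [H731.sim_scale, one_smul])
  rw [Q.U_vac 2 GF.one 0 two_pos isLor_one] at h1
  have h3 := congrArg norm h1
  rw [U_nrm0 two_pos isLor_one, norm_smul, Complex.norm_real,
    Real.norm_of_nonneg (by norm_num)] at h3
  have h4 : ‖EE K C Q.vac‖ = 0 := by linarith
  exact norm_eq_zero.1 h4

lemma ee_dil (s : ℝ) (v : D) (hs : 0 < s) :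
    EE K C (Q.U s GF.one 0 v) = (s : ℂ) • Q.U s GF.one 0 (EE K C v) := by
  rw [ee_cov k s GF.one 1 v hs one_pos isLor_one (by rw [H731.sim_scale, one_smul]), smul_smul]
  have : (s : ℂ) * ((1 / s : ℝ) : ℂ) = 1 := by
    have hs' : (s : ℂ) ≠ 0 := by exact_mod_cast hs.ne'
    push_cast
    field_simp
  rw [this, one_smul]

variable (hCA : ∀ (r : ℝ) (X : V → V) v, IsSim r X → C (A X v) = A X (C v))
include hCA

lemma ee_tr (x : Mink) (v : D) : U1 Q x (EE K C v) = EE K C (U1 Q x v) := by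
  have hsm : ∀ (c : ℂ) (v : D), U1 Q x (c • v) = c • U1 Q x v := fun c v =>
    U_smul one_pos isLor_one _ c v
  have hsub : ∀ v w : D, U1 Q x (v - w) = U1 Q x v - U1 Q x w := fun v w =>
    H746.U_sub' one_pos isLor_one _ v w
  unfold EE
  rw [hsm, hsub, ← k.CU1, k.KU1, k.KU1, ← k.CU1, k.Csub, k.Cadd, k.Csmul,
    hCA _ _ _ (isSim_XK b x.ofLp)]
  congr 1
  abel

end

/-! ## the theorem -/

section

variable {H : D → D} {alg : Set V → Set (D → D)} {S : V → ℝ → D → D} {G : V → D → D}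

/-- `E` commutes with the stress tensor below the null hyperplane -/
lemma ee_Tw (N : CNet Q H alg S) (Gg : Gnr Q alg S G) (hT : Q.IsStress T) {b c : V}
    {C : D → D} (k : KC Q A b (G b) C) (hc : IsNull c) (hbc : GF.mdot b c = 1)
    (hCT : ∀ m n f v, GF.IsTest f → C (T m n f v) = T m n f (C v))
    (hCA : ∀ (r : ℝ) (X : V → V) v, IsSim r X → C (A X v) = A X (C v)) {y : V}
    (hy : GF.mdot b y = 0) {f : Fn} (hf : In (Wdg b c y) f) (m n : Ix) (v : D) :
    EE (G b) C (T m n f v) = T m n f (EE (G b) C v) := by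
  have hfb : In (Wdg b c y) (bar f) := by
    refine ⟨isTest_bar hf.1, ?_, ?_⟩
    · rw [HasCompactSupport, H246.tsupport_bar]; exact hf.2.1
    · rw [H246.tsupport_bar]; exact hf.2.2
  have hcb : GF.mdot c b = 1 := by rw [H755.md_comm]; exact hbc
  have hW : Big (MW {z : V | GF.mdot b (y + c) < GF.mdot b z ∧ GF.mdot c z < GF.mdot c (y + c)}) := by
    refine big_two (c := c - b) one_pos one_pos ?_ ?_
    · rw [H755.md_sub, hbc, k.nul.1, sub_zero]
    · rw [H755.md_sub, hcb, hc.1, zero_sub]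
  have hsubW : {z : V | GF.mdot b (y + c) < GF.mdot b z ∧ GF.mdot c z < GF.mdot c (y + c)} ⊆
      Wdg c b (y + c) := by
    rintro z ⟨h1, h2⟩
    refine ⟨?_, ?_⟩
    · rw [H755.md_sub]; linarith
    · rw [H755.md_sub]; linarith
  have aT : H496.Adj (T m n (bar f)) (T m n f) := by
    intro v w
    have h1 := hT.herm m n (bar f) v w hfb.1
    rwa [bar_bar] at h1
  -- the commutator of `E` and `T`
  have hcomm : ∀ v, EE (G b) C (T m n (bar f) v) - T m n (bar f) (EE (G b) C v) =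
      Complex.I • (C (G b (T m n (bar f) v) - T m n (bar f) (G b v)) -
        (G b (T m n (bar f) (C v)) - T m n (bar f) (G b (C v)))) := by
    intro v
    have hTs : ∀ u w : D, T m n (bar f) (u - w) = T m n (bar f) u - T m n (bar f) w :=
      fun u w => map_sub (e8_lm aT) u w
    have hTm : ∀ (r : ℂ) (u : D), T m n (bar f) (r • u) = r • T m n (bar f) u :=
      fun r u => map_smul (e8_lm aT) r u
    unfold EE
    rw [hTm, hTs, hCT m n _ _ hfb.1, k.Csub, hCT m n _ _ hfb.1]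
    module
  have h0 : Complex.I • (C (G b (T m n (bar f) Q.vac) - T m n (bar f) (G b Q.vac)) -
        (G b (T m n (bar f) (C Q.vac)) - T m n (bar f) (G b (C Q.vac)))) = 0 := by
    rw [← hcomm, ee_vac k, z_T (ee_symm k) (ee_tr k hCA) (fun s v hs => ee_dil k s v hs) hT m n
      hfb.1]
    have : T m n (bar f) (0 : D) = 0 := map_zero (e8_lm aT)
    rw [this, sub_zero]
  have h0' := (smul_eq_zero.1 h0).resolve_left I_ne_zero
  rw [← sub_eq_zero]
  refine dens_eq (Q := Q) k.nul hc hbc hW fun X X' hX => ?_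
  have hXm : X ∈ alg (Wdg c b (y + c)) := N.mono _ _ hsubW (e8_alSub N hX)
  have h1 := e8_local N Gg hT k hc hbc (m := m) (n := n) (f := bar f)
    (fun v => hCT m n _ v hfb.1) hy hfb hXm Q.vac
  rw [h0'] at h1
  have h2 : X (0 : D) = 0 := by
    have := hX.map_smul 0 0
    rwa [zero_smul, zero_smul] at this
  have h3 := hcomm (X Q.vac)
  rw [h1, h2, smul_zero, sub_eq_zero] at h3
  rw [inner_sub_right, ← ee_symm k, ← aT, ← aT, ← ee_symm k, h3, sub_self]

/-- `E` commutes with the stress tensor -/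
theorem ee_T (N : CNet Q H alg S) (Gg : Gnr Q alg S G) (hT : Q.IsStress T) {b c : V}
    {C : D → D} (k : KC Q A b (G b) C) (hc : IsNull c) (hbc : GF.mdot b c = 1)
    (hCT : ∀ m n f v, GF.IsTest f → C (T m n f v) = T m n f (C v))
    (hCA : ∀ (r : ℝ) (X : V → V) v, IsSim r X → C (A X v) = A X (C v)) (m n : Ix) {f : Fn}
    (hf : GF.IsTest f) (hfc : HasCompactSupport f) (v : D) :
    EE (G b) C (T m n f v) = T m n f (EE (G b) C v) := by
  obtain ⟨M, hM⟩ : ∃ M, ∀ z ∈ tsupport f, GF.mdot b z < M := by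
    have h1 : IsCompact ((fun z : V => GF.mdot b z) '' tsupport f) :=
      IsCompact.image hfc (H846.contDiff_mdot b).continuous
    obtain ⟨c, hc⟩ := h1.bddAbove
    exact ⟨c + 1, fun z hz => by linarith [hc ⟨z, hz, rfl⟩]⟩
  obtain ⟨l, hl⟩ : ∃ l, ∀ z ∈ tsupport f, l < GF.mdot c z := by
    have h1 : IsCompact ((fun z : V => GF.mdot c z) '' tsupport f) :=
      IsCompact.image hfc (H846.contDiff_mdot c).continuous
    obtain ⟨c, hc⟩ := h1.bddBelow
    exact ⟨c - 1, fun z hz => by linarith [hc ⟨z, hz, rfl⟩]⟩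
  have hcb : GF.mdot c b = 1 := by rw [H755.md_comm]; exact hbc
  set x0 : V := -(M • c) with hx0
  set y : V := l • b with hy
  have hIn : In (tsupport f) f := ⟨hf, hfc, subset_rfl⟩
  obtain ⟨F, hF, hF2⟩ := exists_In hIn
  subst hF
  have hby : GF.mdot b y = 0 := by rw [hy, H755.md_smul, k.nul.1, mul_zero]
  have hsub : sim 1 GF.one x0 '' tsupport (fl F) ⊆ Wdg b c y := by
    rintro _ ⟨z, hz, rfl⟩
    have e : sim 1 GF.one x0 z = z - M • c := by
      rw [H755.sim_one', hx0]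
      abel
    rw [e]
    refine ⟨?_, ?_⟩
    · rw [H755.md_sub, H755.md_sub, H755.md_smul, hbc, hby]
      linarith [hM z hz]
    · rw [H755.md_sub, H755.md_sub, H755.md_smul, hc.1, hy, H755.md_smul, hcb]
      linarith [hl z hz]
  have hf' : In (Wdg b c y) (fl (tauS (WithLp.toLp 2 x0) F)) := by
    refine In_fl.2 ?_
    have h1 := isTest_tau hF2 x0
    exact ⟨h1.1, fun z hz => hsub (h1.2 hz)⟩
  have hU : ∀ v, U1 Q (WithLp.toLp 2 x0) (T m n (fl F) v) =
      T m n (fl (tauS (WithLp.toLp 2 x0) F)) (U1 Q (WithLp.toLp 2 x0) v) := fun v =>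
    U_fld (Q.bose_fld _ (hT.bose m n)) F (WithLp.toLp 2 x0) v
  have hinj : ∀ u w : D, U1 Q (WithLp.toLp 2 x0) u = U1 Q (WithLp.toLp 2 x0) w → u = w := by
    intro u w h
    have h1 := congrArg (U1 Q (-WithLp.toLp 2 x0)) h
    rwa [U1_U1_all, U1_U1_all, neg_add_cancel, U1_zero_all, U1_zero_all] at h1
  refine hinj _ _ ?_
  rw [ee_tr k hCA, hU, hU, ee_Tw N Gg hT k hc hbc hCT hCA hby hf', ee_tr k hCA]

/-- **The charge commutes with the generator of the null deformations.** -/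
theorem comK (N : CNet Q H alg S) (Gg : Gnr Q alg S G) (hT : Q.IsStress T) (hP : PCh Q T A)
    {b c : V} {C : D → D} (k : KC Q A b (G b) C) (hc : IsNull c) (hbc : GF.mdot b c = 1)
    (hCT : ∀ m n f v, GF.IsTest f → C (T m n f v) = T m n f (C v)) (v : D) :
    C (G b v) = G b (C v) := by
  have R := k.rep
  have hCA0 : ∀ (X : V → V) v, IsSim 0 X → C (A X v) = A X (C v) := fun X v hX =>
    com_P hT R hP k.cs (fun m n f v hf _ => hCT m n f v hf) hX v
  have hCA : ∀ (r : ℝ) (X : V → V) v, IsSim r X → C (A X v) = A X (C v) := fun r X v hX =>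
    NF.f7_comA (C := fun _ => C) (fun _ v w _ => k.cs v w) R (fun _ s v _ hs =>
      k.cc s GF.one 1 0 v hs one_pos isLor_one (by rw [H731.sim_scale, one_smul])) k.nul
      (fun X v hX => hCA0 X v hX) hX v
  have h0 := x0_boost R k.nul hc hbc (ee_symm k) (k := -1) (by norm_num) (fun e L v hL h => by
    rw [ee_cov k 1 L _ v one_pos (Real.exp_pos _) hL h, div_one, neg_one_mul])
    (fun v => com_P hT R hP (ee_symm k) (fun m n f v hf hfc =>
      ee_T N Gg hT k hc hbc hCT hCA m n hf hfc v) (f4_Nf_sim b c) v) v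
  unfold EE at h0
  exact sub_eq_zero.1 ((smul_eq_zero.1 h0).resolve_left I_ne_zero)

end

end Vale.Agent.P352.ND

end
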