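import Vale.Agent.P352.ND.E8b

/-!
# P352 ND: operators of negative dimension that commute with the translations annihilate the vectors
`J(f) Ω`: `C K J(f) Ω = 0` and the linearity of `a ↦ K a J(f) Ω`
-/

set_option linter.all false

noncomputable section

open MeasureTheory SchwartzMap Complex Filter Topology
open scoped SchwartzMap ComplexConjugate ContDiff LineDeriv

namespace Vale.Agent.P352.ND

open GF (Ix V Fn Fld Theory Sch IsLor bas o sim pd tr ev bar)
open H246 H496 H755 H15 H746 NF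
open H731 (KC)
open H148 (XK isSim_XK)

variable {D : Type*} [NormedAddCommGroup D] [InnerProductSpace ℂ D]
variable {Q : GF.Theory D} {T : Ix → Ix → GF.Fld D} {J : Ix → GF.Fld D} {A : (V → V) → D → D}

/-- `C K J(f) Ω = 0` -/
theorem kJ0 {b : V} {K C : D → D} (k : KC Q A b K C)
    (hCA : ∀ (r : ℝ) (X : V → V) v, IsSim r X → C (A X v) = A X (C v)) (hJ : IsVirial Q T J)
    (m : Ix) {f : Fn} (hf : GF.IsTest f) (hC : C (J m f Q.vac) = 0) :
    C (K (J m f Q.vac)) = 0 := by
  have h1 : EE K C (J m f Q.vac) = 0 :=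
    z_ten (ee_symm k) (ee_tr k hCA) (fun s v hs => ee_dil k s v hs) (isTen_J hJ) ![m] hf
  unfold EE at h1
  have h2 := (smul_eq_zero.1 h1).resolve_left I_ne_zero
  have h3 : K (0 : D) = 0 := by
    have h4 : Adj K K := k.ks
    have := h4.smul 0 (0 : D)
    simpa using this
  rwa [hC, h3, sub_zero] at h2

/-- on the vectors `J(f) Ω` the generators `K a` depend linearly on `a` -/
theorem klin0 {K : V → D → D} {C : D → D} {ι : Type*} [Fintype ι] (n : ι → V) (c : ι → ℝ)
    (hc : ∑ i, c i • n i = 0) (k : ∀ i, KC Q A (n i) (K (n i)) C) (R : Rep Q A)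
    (hJ : IsVirial Q T J) (m : Ix) {f : Fn} (hf : GF.IsTest f) :
    ∑ i, (c i : ℂ) • K (n i) (J m f Q.vac) = 0 := by
  refine z_ten (Z := G.H15.Zc n c K) (fun v w => ?_) (fun x v => ?_) (fun s v hs => ?_) (isTen_J hJ)
    ![m] hf
  · unfold G.H15.Zc
    rw [sum_inner, inner_sum]
    refine Finset.sum_congr rfl fun i _ => ?_
    rw [inner_smul_left, inner_smul_right, (k i).ks]
    simp
  · unfold G.H15.Zc
    have e1 : U1 Q x (∑ i, (c i : ℂ) • K (n i) v) = ∑ i, (c i : ℂ) • U1 Q x (K (n i) v) :=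
      G.H15.U_sum one_pos isLor_one _ _ _ _
    have e3 := G.H15.A_sum R Finset.univ n c x.ofLp (U1 Q x v)
    rw [hc] at e3
    have e : G.H15.Xf 0 x.ofLp = fun _ => 0 := by
      funext z k
      simp [G.H15.Xf, cK, GF.mdot]
    rw [e, G.H15.A_zero R] at e3
    have e4 : ∑ i, c i * GF.mdot (n i) x.ofLp = 0 := by
      have h1 : GF.mdot (∑ i, c i • n i) x.ofLp = ∑ i, c i * GF.mdot (n i) x.ofLp := by
        simp only [GF.mdot, Finset.sum_apply, Pi.smul_apply, smul_eq_mul, Finset.mul_sum,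
          Finset.sum_mul]
        rw [Finset.sum_comm]
        refine Finset.sum_congr rfl fun i _ => Finset.sum_congr rfl fun j _ => ?_
        ring
      rw [← h1, hc]
      simp [GF.mdot]
    rw [e1]
    have e5 : ∀ i, (c i : ℂ) • U1 Q x (K (n i) v) = (c i : ℂ) • K (n i) (U1 Q x v) +
        (c i : ℂ) • A (G.H15.Xf (n i) x.ofLp) (U1 Q x v) -
        ((2 * (c i * GF.mdot (n i) x.ofLp) : ℝ) : ℂ) • C (U1 Q x v) := by
      intro i
      rw [(k i).KU1 x v]
      have e6 : XK (n i) x.ofLp = G.H15.Xf (n i) x.ofLp := rfl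
      rw [e6]
      push_cast
      module
    rw [Finset.sum_congr rfl fun i _ => e5 i, Finset.sum_sub_distrib, Finset.sum_add_distrib, ← e3,
      ← Finset.sum_smul, ← Complex.ofReal_sum, ← Finset.mul_sum, e4]
    simp
  · unfold G.H15.Zc
    rw [G.H15.U_sum hs isLor_one, Finset.smul_sum]
    refine Finset.sum_congr rfl fun i _ => ?_
    rw [(k i).kc s GF.one 1 v hs one_pos isLor_one (by rw [H731.sim_scale, one_smul]), smul_smul,
      smul_smul]
    congr 1
    have : (s : ℂ) ≠ 0 := by exact_mod_cast hs.ne'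
    push_cast
    field_simp

end Vale.Agent.P352.ND

end
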