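import Mathlib.Analysis.InnerProductSpace.Calculus
import Mathlib.Analysis.Calculus.MeanValue
import Mathlib.Analysis.Calculus.Deriv.Shift
import Mathlib.Topology.Baire.CompleteMetrizable
import Mathlib.Topology.Baire.Lemmas

/-!
# P352 ND: symmetric operators that commute with the generator of a one parameter group commute
with the group (without any bound)
-/

set_option linter.all false

noncomputable section

open Filter Topology Set

namespace Vale.Agent.P352.ND.H823

variable {D : Type*} [NormedAddCommGroup D] [InnerProductSpace ℂ D]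

/-- a one parameter group of isometries with generator `A` on `D` -/
structure Grp (U : ℝ → D → D) (A : D → D) : Prop where
  zero : ∀ v, U 0 v = v
  add : ∀ s t v, U (s + t) v = U s (U t v)
  inn : ∀ t v w, inner ℂ (U t v) (U t w) = inner ℂ v w
  der : ∀ v, HasDerivAt (fun t : ℝ => U t v) (Complex.I • A v) 0

variable {U : ℝ → D → D} {A C : D → D}

namespace Grp

lemma inv (h : Grp U A) (t : ℝ) (v : D) : U t (U (-t) v) = v := by
  rw [← h.add, add_neg_cancel, h.zero]

lemma inv' (h : Grp U A) (t : ℝ) (v : D) : U (-t) (U t v) = v := by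
  rw [← h.add, neg_add_cancel, h.zero]

lemma adj (h : Grp U A) (t : ℝ) (v w : D) : inner ℂ v (U t w) = inner ℂ (U (-t) v) w := by
  rw [← h.inn t (U (-t) v) w, h.inv]

lemma adj' (h : Grp U A) (t : ℝ) (v w : D) : inner ℂ (U t v) w = inner ℂ v (U (-t) w) := by
  rw [← h.inn (-t) (U t v) w, h.inv']

lemma sub (h : Grp U A) (t : ℝ) (v w : D) : U t (v - w) = U t v - U t w := by
  refine ext_inner_left ℂ fun z => ?_
  rw [inner_sub_right, h.adj, h.adj, h.adj, inner_sub_right]

lemma smul (h : Grp U A) (t : ℝ) (c : ℂ) (v : D) : U t (c • v) = c • U t v := by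
  refine ext_inner_left ℂ fun z => ?_
  rw [inner_smul_right, h.adj, h.adj, inner_smul_right]

lemma norm (h : Grp U A) (t : ℝ) (v : D) : ‖U t v‖ = ‖v‖ := by
  have h1 := h.inn t v v
  have h2 : ‖U t v‖ ^ 2 = ‖v‖ ^ 2 := by
    rw [← inner_self_eq_norm_sq (𝕜 := ℂ), ← inner_self_eq_norm_sq (𝕜 := ℂ), h1]
  exact (pow_left_inj₀ (norm_nonneg _) (norm_nonneg _) two_ne_zero).1 h2

lemma hd (h : Grp U A) (t : ℝ) (v : D) :
    HasDerivAt (fun s : ℝ => U s v) (Complex.I • A (U t v)) t := by
  have h1 : HasDerivAt (fun s : ℝ => U s (U t v)) (Complex.I • A (U t v)) (t - t) := by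
    rw [sub_self]
    exact h.der _
  have h2 := h1.comp_sub_const t t
  refine h2.congr_of_eventuallyEq (Eventually.of_forall fun s => ?_)
  change U s v = U (s - t) (U t v)
  rw [← h.add, sub_add_cancel]

lemma cont (h : Grp U A) (v : D) : Continuous fun s : ℝ => U s v :=
  continuous_iff_continuousAt.2 fun t => (h.hd t v).continuousAt

lemma symm (h : Grp U A) (v w : D) : inner ℂ (A v) w = inner ℂ v (A w) := by
  have h1 := (h.der v).inner ℂ (h.der w)
  have h2 : (fun t : ℝ => inner ℂ (U t v) (U t w)) = fun _ => inner ℂ v w :=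
    funext fun t => h.inn t v w
  rw [h2] at h1
  have h3 := h1.unique (hasDerivAt_const (0:ℝ) _)
  rw [h.zero, h.zero, inner_smul_right, inner_smul_left, Complex.conj_I] at h3
  have h4 : Complex.I * (inner ℂ v (A w) - inner ℂ (A v) w) = 0 := by linear_combination h3
  rcases mul_eq_zero.1 h4 with h5 | h5
  · exact absurd h5 Complex.I_ne_zero
  · exact (sub_eq_zero.1 h5).symm

/-- the reversed group -/
lemma neg (h : Grp U A) : Grp (fun t => U (-t)) (fun v => -A v) where
  zero v := by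
    change U (-0) v = v
    rw [neg_zero, h.zero]
  add s t v := by
    change U (-(s + t)) v = U (-s) (U (-t) v)
    rw [neg_add, h.add]
  inn t v w := h.inn _ v w
  der v := by
    have h1 : HasDerivAt (fun t : ℝ => U t v) (Complex.I • A v) (-0) := by
      rw [neg_zero]
      exact h.der v
    have h2 := h1.scomp (0:ℝ) (hasDerivAt_neg (0:ℝ))
    refine h2.congr_deriv ?_
    rw [neg_one_smul, smul_neg]

end Grp

section

variable (h : Grp U A) (hs : ∀ v w, inner ℂ (C v) w = inner ℂ v (C w))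
  (hc : ∀ v, C (A v) = A (C v))

include hs in
lemma C_sub (v w : D) : C (v - w) = C v - C w := by
  refine ext_inner_left ℂ fun z => ?_
  rw [inner_sub_right, ← hs, ← hs, ← hs, inner_sub_right]

include hs in
lemma C_smul (c : ℂ) (v : D) : C (c • v) = c • C v := by
  refine ext_inner_left ℂ fun z => ?_
  rw [inner_smul_right, ← hs, ← hs, inner_smul_right]

include h hs in
/-- the sets on which the orbit is bounded are closed -/
lemma closed_le (v : D) {M : ℝ} (hM : 0 ≤ M) : IsClosed {t : ℝ | ‖C (U t v)‖ ≤ M} := by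
  have h1 : {t : ℝ | ‖C (U t v)‖ ≤ M} =
      ⋂ w : D, {t : ℝ | ‖(inner ℂ (C w) (U t v) : ℂ)‖ ≤ M * ‖w‖} := by
    ext t
    simp only [mem_setOf_eq, mem_iInter]
    constructor
    · intro ht w
      rw [hs]
      calc ‖(inner ℂ w (C (U t v)) : ℂ)‖ ≤ ‖w‖ * ‖C (U t v)‖ := norm_inner_le_norm _ _
        _ ≤ ‖w‖ * M := by gcongr
        _ = M * ‖w‖ := mul_comm _ _
    · intro ht
      have h2 := ht (C (U t v))
      rw [hs, inner_self_eq_norm_sq_to_K] at h2
      have h3 : ‖C (U t v)‖ ^ 2 ≤ M * ‖C (U t v)‖ := by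
        simpa using h2
      by_contra h4
      rw [not_le] at h4
      nlinarith [norm_nonneg (C (U t v))]
  rw [h1]
  refine isClosed_iInter fun w => isClosed_le ?_ continuous_const
  exact (continuous_const.inner (h.cont v)).norm

/-- the orbit of `v` is bounded near `t` -/
def LB (U : ℝ → D → D) (C : D → D) (v : D) (t : ℝ) : Prop :=
  ∃ M : ℝ, ∀ᶠ s in 𝓝 t, ‖C (U s v)‖ ≤ M

lemma isOpen_LB (v : D) : IsOpen {t : ℝ | LB U C v t} := by
  have h1 : {t : ℝ | LB U C v t} = ⋃ M : ℝ, {t : ℝ | ∀ᶠ s in 𝓝 t, ‖C (U s v)‖ ≤ M} := by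
    ext t
    simp [LB]
  rw [h1]
  exact isOpen_iUnion fun M => isOpen_setOf_eventually_nhds

include h hs hc in
/-- where the orbit is locally bounded the operators commute infinitesimally -/
lemma der_zero {v : D} {t : ℝ} (hb : LB U C v t) (w : D) :
    HasDerivAt (fun s : ℝ => (inner ℂ (U s w) (C (U s v)) : ℂ)) 0 t := by
  obtain ⟨M, hM⟩ := hb
  rw [hasDerivAt_iff_tendsto_slope_zero]
  -- the difference quotients of the orbits
  have hw := hasDerivAt_iff_tendsto_slope_zero.1 (h.hd t w)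
  have hv := hasDerivAt_iff_tendsto_slope_zero.1 (h.hd t v)
  have e1 : ∀ (r : ℝ) (x y : D), (inner ℂ (r • x) y : ℂ) = (r : ℂ) * inner ℂ x y := by
    intro r x y
    rw [← Complex.coe_smul, inner_smul_left, Complex.conj_ofReal]
  have e2 : ∀ (r : ℝ) (x y : D), (inner ℂ x (r • y) : ℂ) = (r : ℂ) * inner ℂ x y := by
    intro r x y
    rw [← Complex.coe_smul, inner_smul_right]
  have e : ∀ s : ℝ, s⁻¹ • ((inner ℂ (U (t + s) w) (C (U (t + s) v)) : ℂ) -
      inner ℂ (U t w) (C (U t v))) =
      inner ℂ (s⁻¹ • (U (t + s) w - U t w) - Complex.I • A (U t w)) (C (U (t + s) v)) +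
      inner ℂ (C (Complex.I • A (U t w))) (U (t + s) v) +
      inner ℂ (C (U t w)) (s⁻¹ • (U (t + s) v - U t v)) := by
    intro s
    rw [inner_sub_left, e1, e2, inner_sub_left, inner_sub_right, Complex.real_smul,
      hs (Complex.I • A (U t w)), hs (U t w), hs (U t w)]
    ring
  have l1 : Tendsto (fun s : ℝ => (inner ℂ (s⁻¹ • (U (t + s) w - U t w) -
      Complex.I • A (U t w)) (C (U (t + s) v)) : ℂ)) (𝓝[≠] 0) (𝓝 0) := by
    have h0 : Tendsto (fun s : ℝ => s⁻¹ • (U (t + s) w - U t w) - Complex.I • A (U t w))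
        (𝓝[≠] 0) (𝓝 0) := by
      have := hw.sub_const (Complex.I • A (U t w))
      rwa [sub_self] at this
    have hM1 : ∀ᶠ s in 𝓝[≠] (0:ℝ), ‖C (U (t + s) v)‖ ≤ M := by
      have h1 : Tendsto (fun s : ℝ => t + s) (𝓝 0) (𝓝 t) := by
        have h2 : ContinuousAt (fun s : ℝ => t + s) 0 := by fun_prop
        have h3 := h2.tendsto
        simpa using h3
      exact (h1.eventually hM).filter_mono nhdsWithin_le_nhds
    have h2 : Tendsto (fun s : ℝ => ‖s⁻¹ • (U (t + s) w - U t w) - Complex.I • A (U t w)‖ * M)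
        (𝓝[≠] 0) (𝓝 0) := by
      have := h0.norm.mul_const M
      simpa using this
    refine squeeze_zero_norm' ?_ h2
    filter_upwards [hM1] with s hs1
    exact (norm_inner_le_norm _ _).trans (mul_le_mul_of_nonneg_left hs1 (norm_nonneg _))
  have l2 : Tendsto (fun s : ℝ => (inner ℂ (C (Complex.I • A (U t w))) (U (t + s) v) : ℂ))
      (𝓝[≠] 0) (𝓝 (inner ℂ (C (Complex.I • A (U t w))) (U t v))) := by
    have h1 : Continuous fun s : ℝ =>
        (inner ℂ (C (Complex.I • A (U t w))) (U (t + s) v) : ℂ) :=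
      continuous_const.inner ((h.cont v).comp (continuous_const.add continuous_id))
    have h2 := h1.tendsto 0
    rw [add_zero] at h2
    exact h2.mono_left nhdsWithin_le_nhds
  have l3 : Tendsto (fun s : ℝ => (inner ℂ (C (U t w)) (s⁻¹ • (U (t + s) v - U t v)) : ℂ))
      (𝓝[≠] 0) (𝓝 (inner ℂ (C (U t w)) (Complex.I • A (U t v)))) :=
    tendsto_const_nhds.inner hv
  have l := (l1.add l2).add l3
  have e3 : (0:ℂ) + inner ℂ (C (Complex.I • A (U t w))) (U t v) +
      inner ℂ (C (U t w)) (Complex.I • A (U t v)) = 0 := by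
    rw [C_smul hs, hc, inner_smul_left, inner_smul_right, Complex.conj_I, h.symm, hs]
    ring
  rw [e3] at l
  refine l.congr fun s => (e s).symm

include h hs hc in
/-- at the end of an interval on which the orbit is locally bounded -/
lemma edge {v : D} {e t : ℝ} (het : e < t) (hO : ∀ s ∈ Ioc e t, LB U C v s) :
    ‖C (U e v)‖ = ‖C (U t v)‖ := by
  set z : D := U (-t) (C (U t v)) with hz
  -- the orbit on the interval
  have h1 : ∀ s ∈ Ioc e t, C (U s v) = U s z := by
    intro s hs1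
    refine ext_inner_left ℂ fun w' => ?_
    set w : D := U (-s) w' with hw
    have h2 : ∀ r ∈ Icc s t, HasDerivAt (fun s : ℝ => (inner ℂ (U s w) (C (U s v)) : ℂ)) 0 r :=
      fun r hr => der_zero h hs hc (hO r ⟨hs1.1.trans_le hr.1, hr.2⟩) w
    have h3 := constant_of_has_deriv_right_zero
      (fun r hr => (h2 r hr).continuousAt.continuousWithinAt)
      (fun r hr => (h2 r ⟨hr.1, hr.2.le⟩).hasDerivWithinAt) t ⟨hs1.2, le_rfl⟩
    have h4 : U s w = w' := h.inv s w'
    rw [h4] at h3
    rw [← h3, h.adj s, hz, ← hw, h.adj (-t), neg_neg]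
  have h2 : C (U e v) = U e z := by
    refine ext_inner_left ℂ fun w => ?_
    have l1 : Tendsto (fun s : ℝ => (inner ℂ (C w) (U s v) : ℂ)) (𝓝[>] e)
        (𝓝 (inner ℂ (C w) (U e v))) :=
      ((continuous_const.inner (h.cont v)).tendsto e).mono_left nhdsWithin_le_nhds
    have l2 : Tendsto (fun s : ℝ => (inner ℂ w (U s z) : ℂ)) (𝓝[>] e)
        (𝓝 (inner ℂ w (U e z))) :=
      ((continuous_const.inner (h.cont z)).tendsto e).mono_left nhdsWithin_le_nhds
    have l3 : (fun s : ℝ => (inner ℂ (C w) (U s v) : ℂ)) =ᶠ[𝓝[>] e]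
        fun s : ℝ => inner ℂ w (U s z) := by
      filter_upwards [Ioc_mem_nhdsGT het] with s hs1
      rw [hs, h1 s hs1]
    rw [← hs]
    exact tendsto_nhds_unique (l1.congr' l3) l2 ▸ rfl
  rw [h2, h.norm, hz, h.norm]

include h hs hc in
lemma edge' {v : D} {e t : ℝ} (het : t < e) (hO : ∀ s ∈ Ico t e, LB U C v s) :
    ‖C (U e v)‖ = ‖C (U t v)‖ := by
  have hc' : ∀ v, C (-A v) = -A (C v) := by
    intro v
    rw [← hc, ← neg_one_smul ℂ, C_smul hs, neg_one_smul]
  have h1 := edge h.neg hs hc' (v := v) (e := -e) (t := -t) (neg_lt_neg het) ?_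
  · simpa using h1
  · intro s hs1
    obtain ⟨M, hM⟩ := hO (-s) ⟨by linarith [hs1.2], by linarith [hs1.1]⟩
    exact ⟨M, (continuous_neg.tendsto s).eventually hM⟩

include h hs hc in
/-- the orbit is locally bounded (Baire) -/
lemma lb_all (v : D) (t : ℝ) : LB U C v t := by
  by_contra ht
  set F : Set ℝ := {t : ℝ | LB U C v t}ᶜ with hF
  have hFc : IsClosed F := (isOpen_LB v).isClosed_compl
  haveI : CompleteSpace F := hFc.completeSpace_coe
  haveI : Nonempty F := ⟨⟨t, ht⟩⟩
  obtain ⟨n, x, hx⟩ := nonempty_interior_of_iUnion_of_closed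
    (f := fun n : ℕ => {x : F | ‖C (U (x : ℝ) v)‖ ≤ n})
    (fun n => (closed_le h hs v (Nat.cast_nonneg n)).preimage continuous_subtype_val)
    (by
      ext x
      simp only [mem_iUnion, mem_setOf_eq, mem_univ, iff_true]
      exact exists_nat_ge _)
  rw [mem_interior_iff_mem_nhds, Metric.mem_nhds_iff] at hx
  obtain ⟨ε, hε, hx⟩ := hx
  have hb : ∀ y ∈ F, |y - x| < ε → ‖C (U y v)‖ ≤ n := by
    intro y hy hyx
    exact hx (show (⟨y, hy⟩ : F) ∈ Metric.ball x ε from by
      rw [Metric.mem_ball, Subtype.dist_eq, Real.dist_eq]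
      exact hyx)
  have hxF : (x : ℝ) ∈ F := x.2
  refine hxF ⟨n, ?_⟩
  filter_upwards [Metric.ball_mem_nhds (x : ℝ) hε] with s hs1
  rw [Metric.mem_ball, Real.dist_eq] at hs1
  by_cases hsF : s ∈ F
  · exact hb s hsF hs1
  rcases lt_trichotomy (x : ℝ) s with hlt | heq | hgt
  · -- the last point of `F` before `s`
    have hcp : IsCompact (F ∩ Icc (x : ℝ) s) := isCompact_Icc.inter_left hFc
    obtain ⟨he1, he2⟩ := hcp.sSup_mem ⟨x, hxF, le_rfl, hlt.le⟩
    set e : ℝ := sSup (F ∩ Icc (x : ℝ) s) with he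
    have hes : e < s := lt_of_le_of_ne he2.2 fun h1 => hsF (h1 ▸ he1)
    have h1 : ∀ r ∈ Ioc e s, LB U C v r := by
      intro r hr
      by_contra h2
      exact absurd (le_csSup hcp.bddAbove ⟨h2, he2.1.trans hr.1.le, hr.2⟩) (not_le.2 hr.1)
    rw [← edge h hs hc hes h1]
    refine hb e he1 ?_
    rw [abs_lt] at hs1 ⊢
    constructor <;> linarith [he2.1, he2.2]
  · exact absurd (heq ▸ hxF) hsF
  · -- the first point of `F` after `s`
    have hcp : IsCompact (F ∩ Icc s (x : ℝ)) := isCompact_Icc.inter_left hFc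
    obtain ⟨he1, he2⟩ := hcp.sInf_mem ⟨x, hxF, hgt.le, le_rfl⟩
    set e : ℝ := sInf (F ∩ Icc s (x : ℝ)) with he
    have hes : s < e := lt_of_le_of_ne he2.1 fun h1 => hsF (h1 ▸ he1)
    have h1 : ∀ r ∈ Ico s e, LB U C v r := by
      intro r hr
      by_contra h2
      exact absurd (csInf_le hcp.bddBelow ⟨h2, hr.1, hr.2.le.trans he2.2⟩) (not_le.2 hr.2)
    rw [← edge' h hs hc hes h1]
    refine hb e he1 ?_
    rw [abs_lt] at hs1 ⊢
    constructor <;> linarith [he2.1, he2.2]

include h hs hc in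
/-- **a symmetric operator that commutes with the generator commutes with the group** -/
theorem com_grp (t : ℝ) (v : D) : C (U t v) = U t (C v) := by
  refine ext_inner_left ℂ fun w' => ?_
  set w : D := U (-t) w' with hw
  have h1 : ∀ s, HasDerivAt (fun s : ℝ => (inner ℂ (U s w) (C (U s v)) : ℂ)) 0 s := fun s =>
    der_zero h hs hc (lb_all h hs hc v s) w
  have h2 := is_const_of_deriv_eq_zero (fun s => (h1 s).differentiableAt)
    (fun s => (h1 s).deriv) t 0
  simp only [h.zero] at h2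
  have h4 : U t w = w' := h.inv t w'
  rw [h4] at h2
  rw [h2, h.adj t, hw]

end

/-- a symmetric operator that commutes with the generator of a one parameter group of isometries
commutes with the group -/
theorem com_exp {U : ℝ → D → D} {A C : D → D} (h0 : ∀ v, U 0 v = v)
    (hadd : ∀ s t v, U (s + t) v = U s (U t v))
    (hin : ∀ t v w, inner ℂ (U t v) (U t w) = inner ℂ v w)
    (hder : ∀ v, HasDerivAt (fun t : ℝ => U t v) (Complex.I • A v) 0)
    (hs : ∀ v w, inner ℂ (C v) w = inner ℂ v (C w)) (hc : ∀ v, C (A v) = A (C v))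
    (t : ℝ) (v : D) : C (U t v) = U t (C v) :=
  com_grp ⟨h0, hadd, hin, hder⟩ hs hc t v

end Vale.Agent.P352.ND.H823
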