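import Vale.Agent.P352.ND.X3d
import Vale.Agent.P352.H755.ChE

/-!
# P352 NG: net locality from first order commutators with single fields
-/

set_option linter.all false

noncomputable section

open MeasureTheory Filter Topology SchwartzMap Complex Set
open scoped SchwartzMap ComplexConjugate ContDiff

namespace Vale.Agent.P352.ND

open GF (Ix V Fn Fld Theory Sch IsLor bas o sim pd tr ev bar)
open H246 H496 H755 H15 H846 H246R H746 N86 NC
open UniformSpace (Completion)

variable {D : Type*} [NormedAddCommGroup D] [InnerProductSpace ℂ D]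
variable {Q : GF.Theory D} {A : (V → V) → D → D} {K : V → D → D}

/-- The commutators of `K a` with the field `φ` commute with the fields in the opposite wedge, if
the edge of the wedge is in the null hyperplane `a·z = 0`. -/
def LocG (Q : GF.Theory D) (K : V → D → D) (φ : GF.Fld D) : Prop :=
  ∀ (B : GF.Fld D) (a c y : V) (f g : Fn) (v : D), Q.fld B → IsNull a → IsNull c →
    0 < GF.mdot a c → GF.mdot a y = 0 →
    ((In (Wdg a c y) f ∧ In (Wdg c a y) g) ∨ (In (Wdg c a y) f ∧ In (Wdg a c y) g)) →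
    K a (φ f (B g v)) - φ f (K a (B g v)) = B g (K a (φ f v) - φ f (K a v))

/-- translates of test functions -/
lemma in_tr {W W' : Set V} {f : Fn} (x : V) (h : In W f) (hW : ∀ z, z + x ∈ W → z ∈ W') :
    In W' (fun z => f (sim 1 GF.one x z)) := by
  obtain ⟨h1, h2, h3⟩ := h
  have e : (fun z => f (sim 1 GF.one x z)) = f ∘ (Homeomorph.addRight x) := by
    funext z
    show f (sim 1 GF.one x z) = f (z + x)
    rw [sim_one']
  refine ⟨?_, ?_, ?_⟩
  · obtain ⟨F, rfl⟩ := exists_fl h1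
    rw [fl_shift]
    exact isTest_fl _
  · rw [e]
    exact h2.comp_homeomorph _
  · rw [e]
    intro z hz
    have h5 : z ∈ (Homeomorph.addRight x) ⁻¹' tsupport f := by
      rw [← tsupport_comp_eq_preimage]
      exact hz
    exact hW z (h3 h5)

lemma wdg_tr {a c x y z : V} (h : z + x ∈ Wdg a c y) : z ∈ Wdg a c (y - x) := by
  have e : z - (y - x) = z + x - y := by abel
  obtain ⟨h1, h2⟩ := h
  exact ⟨by rw [e]; exact h1, by rw [e]; exact h2⟩

section

variable (hK : ∀ a v w, IsNull a → inner ℂ (K a v) w = inner ℂ v (K a w))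
include hK

/-- the translated form for single fields -/
lemma locG_tr {φ : GF.Fld D} (hφ : Q.fld φ) (h : LocG Q K φ) {B : GF.Fld D} (hB : Q.fld B)
    {a c x y : V} {f g : Fn} (ha : IsNull a) (hc : IsNull c) (hac : 0 < GF.mdot a c)
    (hy : GF.mdot a y = GF.mdot a x)
    (hs : (In (Wdg a c y) f ∧ In (Wdg c a y) g) ∨ (In (Wdg c a y) f ∧ In (Wdg a c y) g))
    (v : D) : Kx Q K a x (φ f (B g v)) - φ f (Kx Q K a x (B g v)) =
      B g (Kx Q K a x (φ f v) - φ f (Kx Q K a x v)) := by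
  have hU : ∀ u w : D, Q.U 1 GF.one x (u - w) = Q.U 1 GF.one x u - Q.U 1 GF.one x w :=
    fun u w => H834.nl_sub x u w
  have hf : GF.IsTest f := by rcases hs with hs | hs; exacts [hs.1.1, hs.1.1]
  have hg : GF.IsTest g := by rcases hs with hs | hs; exacts [hs.2.1, hs.2.1]
  obtain ⟨u, rfl⟩ : ∃ u, v = Q.U 1 GF.one x u := ⟨Q.U 1 GF.one (-x) v, (H834.nl_UU x v).symm⟩
  have eφ : ∀ w : D, φ f (Q.U 1 GF.one x w) =
      Q.U 1 GF.one x (φ (fun z => f (sim 1 GF.one x z)) w) := fun w => Q.transl φ x f w hφ hf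
  have eB : ∀ w : D, B g (Q.U 1 GF.one x w) =
      Q.U 1 GF.one x (B (fun z => g (sim 1 GF.one x z)) w) := fun w => Q.transl B x g w hB hg
  have eK : ∀ w : D, Kx Q K a x (Q.U 1 GF.one x w) = Q.U 1 GF.one x (K a w) := by
    intro w
    unfold Kx
    rw [H834.nl_UU']
  have hy0 : GF.mdot a (y - x) = 0 := by rw [md_sub, hy, sub_self]
  have k := h B a c (y - x) (fun z => f (sim 1 GF.one x z)) (fun z => g (sim 1 GF.one x z)) u hB
    ha hc hac hy0 (by
      rcases hs with ⟨h1, h2⟩ | ⟨h1, h2⟩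
      · exact Or.inl ⟨in_tr x h1 fun z => wdg_tr, in_tr x h2 fun z => wdg_tr⟩
      · exact Or.inr ⟨in_tr x h1 fun z => wdg_tr, in_tr x h2 fun z => wdg_tr⟩)
  have L1 : Kx Q K a x (φ f (B g (Q.U 1 GF.one x u))) = Q.U 1 GF.one x
      (K a (φ (fun z => f (sim 1 GF.one x z)) (B (fun z => g (sim 1 GF.one x z)) u))) := by
    rw [eB, eφ, eK]
  have L2 : φ f (Kx Q K a x (B g (Q.U 1 GF.one x u))) = Q.U 1 GF.one x
      (φ (fun z => f (sim 1 GF.one x z)) (K a (B (fun z => g (sim 1 GF.one x z)) u))) := by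
    rw [eB, eK, eφ]
  have L3 : Kx Q K a x (φ f (Q.U 1 GF.one x u)) = Q.U 1 GF.one x
      (K a (φ (fun z => f (sim 1 GF.one x z)) u)) := by
    rw [eφ, eK]
  have L4 : φ f (Kx Q K a x (Q.U 1 GF.one x u)) = Q.U 1 GF.one x
      (φ (fun z => f (sim 1 GF.one x z)) (K a u)) := by
    rw [eK, eφ]
  rw [L1, L2, L3, L4, ← hU, ← hU, eB, k]

/-- **Net locality** from first order commutators with single fields. -/
theorem netL_ng {φ φ' : GF.Fld D} (hφ : Q.fld φ)
    (hadj : ∀ f v w, GF.IsTest f → inner ℂ (φ f v) w = inner ℂ v (φ' (bar f) w))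
    (h : LocG Q K φ) : NetL Q K φ := by
  intro a c x y f X X' v ha hc hac hy hs
  have hf : GF.IsTest f := by rcases hs with hs | hs; exacts [hs.1.1, hs.1.1]
  -- linearity of the commutator
  have hφa : ∀ u w : D, φ f (u + w) = φ f u + φ f w := fun u w =>
    ext_inner_right ℂ fun z => by rw [inner_add_left, hadj _ _ _ hf, hadj _ _ _ hf,
      hadj _ _ _ hf, inner_add_left]
  have hφs : ∀ (k : ℂ) (w : D), φ f (k • w) = k • φ f w := fun k w =>
    ext_inner_right ℂ fun z => by rw [inner_smul_left, hadj _ _ _ hf, hadj _ _ _ hf,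
      inner_smul_left]
  have hKs : ∀ u w, inner ℂ (Kx Q K a x u) w = inner ℂ u (Kx Q K a x w) := fun u w => by
    unfold Kx
    rw [H834.nl_move, hK a _ _ ha, H834.nl_move']
  have hKa : ∀ u w : D, Kx Q K a x (u + w) = Kx Q K a x u + Kx Q K a x w := fun u w =>
    ext_inner_right ℂ fun z => by rw [inner_add_left, hKs, hKs, hKs, inner_add_left]
  have hKm : ∀ (k : ℂ) (w : D), Kx Q K a x (k • w) = k • Kx Q K a x w := fun k w =>
    ext_inner_right ℂ fun z => by rw [inner_smul_left, hKs, hKs, inner_smul_left]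
  obtain ⟨W, hW, hs'⟩ : ∃ W : Set V, Al Q W X X' ∧ ∀ g, In W g →
      ((In (Wdg a c y) f ∧ In (Wdg c a y) g) ∨ (In (Wdg c a y) f ∧ In (Wdg a c y) g)) := by
    rcases hs with ⟨h1, h2⟩ | ⟨h1, h2⟩
    · exact ⟨_, h2, fun g hg => Or.inl ⟨h1, hg⟩⟩
    · exact ⟨_, h2, fun g hg => Or.inr ⟨h1, hg⟩⟩
  clear hs
  induction hW generalizing v with
  | one => rfl
  | add X X' Y Y' _ _ ih1 ih2 =>
    have k1 := ih1 v
    have k2 := ih2 v
    show Kx Q K a x (φ f (X v + Y v)) - φ f (Kx Q K a x (X v + Y v)) = _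
    rw [hφa, hKa, hKa, hφa, add_sub_add_comm, k1, k2]
  | smul k X X' _ ih =>
    have k1 := ih v
    show Kx Q K a x (φ f (k • X v)) - φ f (Kx Q K a x (k • X v)) = _
    rw [hφs, hKm, hKm, hφs, ← smul_sub, k1]
  | fld B B' g X X' hB hB' hBB hg _ ih =>
    show Kx Q K a x (φ f (B g (X v))) - φ f (Kx Q K a x (B g (X v))) =
      B g (X (Kx Q K a x (φ f v) - φ f (Kx Q K a x v)))
    rw [locG_tr hK hφ h hB ha hc hac hy (hs' g hg), ih v]

end

end Vale.Agent.P352.ND

end
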