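import Vale.Agent.P352.ND.NG
import Vale.Agent.P352.NF.F6

/-!
# P352 NG: the charge `C` commutes with the stress tensor and the virial current
-/

set_option linter.all false

noncomputable section

open MeasureTheory SchwartzMap Filter Topology Set
open scoped SchwartzMap ContDiff ComplexConjugate

namespace Vale.Agent.P352.ND

open GF (Ix V Fn Fld bas eta o bar)
open H755 H496 H15 H121 H246 NF

variable {D : Type*} [NormedAddCommGroup D] [InnerProductSpace ℂ D]
variable {Q : GF.Theory D} {T : Ix → Ix → GF.Fld D} {J : Ix → GF.Fld D}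
  {A : (V → V) → D → D} {G : V → D → D}

section

variable {a b : V} {C : D → D} (ha : IsNull a) (hb : IsNull b) (hab : GF.mdot a b = 1)
include ha hb hab

/-- the commutator of the charge with a bosonic field commutes with the algebra of a wedge -/
lemma c6_comm'
    (htra : ∀ (u : ℝ) v, Q.U 1 GF.one (u • b) (G a (Q.U 1 GF.one (-(u • b)) v)) =
      G a v + A (XX a (u • b)) v - ((2 * u : ℝ) : ℂ) • C v)
    {φ φ' : GF.Fld D} (hNL : NetL Q G φ)
    (hadj : ∀ f v w, GF.IsTest f → inner ℂ (φ f v) w = inner ℂ v (φ' (bar f) w))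
    (hL : LocA Q A φ) {f : Fn} (hf : GF.IsTest f) (hc : HasCompactSupport f)
    (hv : C Q.vac = 0) (h0 : C (φ f Q.vac) = 0) : ∃ M M' : ℝ, ∀ X X',
      Al Q {y | M < GF.mdot a y ∧ GF.mdot b y < M'} X X' →
      C (φ f (X Q.vac)) = φ f (C (X Q.vac)) := by
  -- bounds on the support
  obtain ⟨A0, hA0⟩ : ∃ A0, ∀ z ∈ tsupport f, GF.mdot a z ≤ A0 := by
    have h1 : IsCompact ((fun z : V => GF.mdot a z) '' tsupport f) :=
      IsCompact.image hc (H846.contDiff_mdot a).continuous
    obtain ⟨c, hc⟩ := h1.bddAbove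
    exact ⟨c, fun z hz => hc ⟨z, hz, rfl⟩⟩
  obtain ⟨B0, hB0⟩ : ∃ B0, ∀ z ∈ tsupport f, -B0 ≤ GF.mdot b z := by
    have h1 : IsCompact ((fun z : V => GF.mdot b z) '' tsupport f) :=
      IsCompact.image hc (H846.contDiff_mdot b).continuous
    obtain ⟨c, hc⟩ := h1.bddBelow
    exact ⟨-c, fun z hz => by rw [neg_neg]; exact hc ⟨z, hz, rfl⟩⟩
  refine ⟨A0 + 4, -B0 - 4, fun X X' hX => ?_⟩
  have hba : GF.mdot b a = 1 := by rw [H755.md_comm]; exact hab
  have hsepW : ∀ x ∈ tsupport f, ∀ y ∈ {y : V | A0 + 4 < GF.mdot a y ∧ GF.mdot b y < -B0 - 4},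
      GF.mdot (x - y) (x - y) < 0 := fun x hx y hy =>
    sep_mp ha hb hab (by linarith [hA0 x hx, hy.1]) (by linarith [hB0 x hx, hy.2])
  have e : ∀ u z, inner ℂ u (φ f z) = inner ℂ (φ' (bar f) u) z := by
    intro u z
    rw [← inner_conj_symm, hadj f z u hf, inner_conj_symm]
  refine ext_inner_left ℂ fun w => ?_
  -- the commutators of `K` and `C`, applied to the vectors
  set cmt : (D → D) → ℂ := fun O => inner ℂ w (O (φ f (X Q.vac))) -
    inner ℂ (φ' (bar f) w) (O (X Q.vac)) - inner ℂ (X' w) (O (φ f Q.vac)) +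
      inner ℂ (φ' (bar f) (X' w)) (O Q.vac) with hcmt
  have hA : ∀ r Y, IsSim r Y → cmt (A Y) = 0 := by
    intro r Y hY
    have k := hL r Y f _ X X' Q.vac hY hf hc hsepW hX
    have k2 := congrArg (fun z => inner ℂ w z) k
    simp only [inner_sub_right] at k2
    rw [← hX.adj', inner_sub_right, e, e] at k2
    simp only [hcmt]
    linear_combination k2
  have hK : ∀ u : ℝ, A0 < u → u < A0 + 4 → cmt (Kx Q G a (u • b)) = 0 := by
    intro u h1 h2
    have hf' : In (Wdg a b (u • b + (-B0 - 4) • a)) f := by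
      refine ⟨hf, hc, fun z hz => ⟨?_, ?_⟩⟩
      · simp only [H755.md_sub, H755.md_add, H755.md_smul, hab, ha.1]
        linarith [hA0 z hz]
      · simp only [H755.md_sub, H755.md_add, H755.md_smul, hba, hb.1]
        linarith [hB0 z hz]
    have hX' : Al Q (Wdg b a (u • b + (-B0 - 4) • a)) X X' := by
      have hsub : {y : V | A0 + 4 < GF.mdot a y ∧ GF.mdot b y < -B0 - 4} ⊆
          Wdg b a (u • b + (-B0 - 4) • a) := by
        rintro z ⟨h3, h4⟩
        constructor
        · simp only [H755.md_sub, H755.md_add, H755.md_smul, hba, hb.1]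
          linarith
        · simp only [H755.md_sub, H755.md_add, H755.md_smul, hab, ha.1]
          linarith
      exact hX.mono hsub
    have k := hNL a b (u • b) (u • b + (-B0 - 4) • a) f X X' Q.vac ha hb
      (by rw [hab]; exact one_pos)
      (by simp only [H755.md_add, H755.md_smul, hab, ha.1]; ring) (Or.inl ⟨hf', hX'⟩)
    have k2 := congrArg (fun z => inner ℂ w z) k
    simp only [inner_sub_right] at k2
    rw [← hX.adj', inner_sub_right, e, e] at k2
    simp only [hcmt]
    linear_combination k2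
  have hKC : ∀ u : ℝ, A0 < u → u < A0 + 4 → cmt (G a) - 2 * (u : ℂ) * cmt C = 0 := by
    intro u h1 h2
    have k := hK u h1 h2
    have hAu := hA _ _ (XX_sim a (u • b))
    have ht : ∀ v, Kx Q G a (u • b) v = G a v + A (XX a (u • b)) v - ((2 * u : ℝ) : ℂ) • C v :=
      fun v => htra u v
    simp only [hcmt] at k hAu ⊢
    simp only [ht, inner_sub_right, inner_add_right, inner_smul_right] at k
    push_cast at k
    linear_combination k - hAu
  have k1 : cmt C = 0 := by
    have e1 := hKC (A0 + 1) (by linarith) (by linarith)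
    have e2 := hKC (A0 + 2) (by linarith) (by linarith)
    push_cast at e1 e2
    linear_combination (1 / 2 : ℂ) * (e1 - e2)
  simp only [hcmt, h0, hv, inner_zero_right, sub_zero, add_zero] at k1
  rw [e]
  exact sub_eq_zero.1 k1

/-- locality of the charge, test functions with compact support -/
lemma c6_loc_cs'
    (htra : ∀ (u : ℝ) v, Q.U 1 GF.one (u • b) (G a (Q.U 1 GF.one (-(u • b)) v)) =
      G a v + A (XX a (u • b)) v - ((2 * u : ℝ) : ℂ) • C v)
    (hsym : ∀ v w, inner ℂ (C v) w = inner ℂ v (C w))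
    {φ φ' : GF.Fld D} (hφ : Q.fld φ) (hNL : NetL Q G φ')
    (hadj : ∀ f v w, GF.IsTest f → inner ℂ (φ f v) w = inner ℂ v (φ' (bar f) w))
    (hL : LocA Q A φ') (hv : C Q.vac = 0)
    (h0 : ∀ f, GF.IsTest f → HasCompactSupport f → C (φ' f Q.vac) = 0)
    {f : Fn} (hf : GF.IsTest f) (hc : HasCompactSupport f) (v : D) :
    C (φ f v) = φ f (C v) := by
  have hcb : HasCompactSupport (bar f) := by
    rw [HasCompactSupport, tsupport_bar]; exact hc
  obtain ⟨M, M', hM⟩ := c6_comm' ha hb hab htra hNL (H246.adj_symm hadj) hL (isTest_bar hf)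
    hcb hv (h0 _ (isTest_bar hf) hcb)
  have hba : GF.mdot b a = 1 := by rw [H755.md_comm]; exact hab
  have hW : Big (MW {y : V | M < GF.mdot a y ∧ GF.mdot b y < M'}) := by
    refine big_two (c := b - a) one_pos one_pos ?_ ?_
    · rw [H755.md_sub, hab, ha.1, sub_zero]
    · rw [H755.md_sub, hba, hb.1, zero_sub]
  rw [← sub_eq_zero]
  refine dens_eq (Q := Q) ha hb hab hW fun X X' hX => ?_
  have e : ∀ u z, inner ℂ u (φ f z) = inner ℂ (φ' (bar f) u) z := by
    intro u z
    rw [← inner_conj_symm, hadj f z u hf, inner_conj_symm]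
  rw [inner_sub_right, ← hsym, e, ← hM X X' hX, hsym, ← e, sub_self]

/-- **Locality of the charge.** If the charge annihilates the vectors `φ' f Ω`, it commutes with
the adjoint `φ` of the bosonic field `φ'`. -/
theorem c6_loc'
    (htra : ∀ (u : ℝ) v, Q.U 1 GF.one (u • b) (G a (Q.U 1 GF.one (-(u • b)) v)) =
      G a v + A (XX a (u • b)) v - ((2 * u : ℝ) : ℂ) • C v)
    (hsym : ∀ v w, inner ℂ (C v) w = inner ℂ v (C w))
    {φ φ' : GF.Fld D} (hφ : Q.fld φ) (hNL : NetL Q G φ')
    (hadj : ∀ f v w, GF.IsTest f → inner ℂ (φ f v) w = inner ℂ v (φ' (bar f) w))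
    (hL : LocA Q A φ') (hv : C Q.vac = 0)
    (h0 : ∀ f, GF.IsTest f → HasCompactSupport f → C (φ' f Q.vac) = 0)
    {f : Fn} (hf : GF.IsTest f) (v : D) : C (φ f v) = φ f (C v) := by
  obtain ⟨F, rfl⟩ := exists_fl hf
  obtain ⟨g, hg, hlim⟩ := exists_compact_seq F
  refine ext_inner_left ℂ fun w => ?_
  rw [← hsym]
  have c1 : Continuous fun F : 𝓢(Mink, ℂ) => inner ℂ (C w) (φ (fl F) v) :=
    continuous_const.inner (fld_cont hφ v)
  have c2 : Continuous fun F : 𝓢(Mink, ℂ) => inner ℂ w (φ (fl F) (C v)) :=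
    continuous_const.inner (fld_cont hφ _)
  have l1 := (c1.tendsto F).comp hlim
  have l2 := (c2.tendsto F).comp hlim
  refine tendsto_nhds_unique l1 (l2.congr fun n => ?_)
  simp only [Function.comp_apply]
  rw [hsym, c6_loc_cs' ha hb hab htra hsym hφ hNL hadj hL hv h0 (isTest_fl _)
    (hasCompactSupport_fl (hg n))]

end

section

variable {a b : V} {C : D → D}

lemma c6_tra' (k : H731.KC Q A a (G a) C) (hab : GF.mdot a b = 1) (u : ℝ) (v : D) :
    Q.U 1 GF.one (u • b) (G a (Q.U 1 GF.one (-(u • b)) v)) = G a v + A (XX a (u • b)) v -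
      ((2 * u : ℝ) : ℂ) • C v := by
  have h : Q.U 1 GF.one (u • b) (G a (Q.U 1 GF.one (-(u • b)) v)) = G a v + A (XX a (u • b)) v -
      ((2 * GF.mdot a (u • b) : ℝ) : ℂ) • C v := k.tra (u • b) v
  rw [H755.md_smul, hab, mul_one] at h
  exact h

/-- **the charge commutes with the stress tensor** -/
theorem c6_T' (hT : Q.IsStress T) (k : H731.KC Q A a (G a) C) (m n : Ix)
    (hNL : NetL Q G (T m n)) {f : Fn} (hf : GF.IsTest f) (v : D) :
    C (T m n f v) = T m n f (C v) := by
  obtain ⟨b, hb, hab⟩ := exists_dual k.nul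
  exact c6_loc' k.nul hb hab (c6_tra' k hab) k.cs (Q.bose_fld _ (hT.bose m n))
    hNL (hT.herm m n) (locA_T hT k.rep m n) (kc_vac k)
    (fun f hf _ => kc_T hT k m n hf) hf v

/-- **the charge commutes with the virial current** -/
theorem c6_J' (hJ : IsVirial Q T J) (k : H731.KC Q A a (G a) C) (m : Ix)
    (hNL : NetL Q G (J m)) {f : Fn} (hf : GF.IsTest f) (v : D) :
    C (J m f v) = J m f (C v) := by
  obtain ⟨b, hb, hab⟩ := exists_dual k.nul
  exact c6_loc' k.nul hb hab (c6_tra' k hab) k.cs (Q.bose_fld _ (hJ.bose m))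
    hNL (hJ.herm m) (locA_J hJ k.rep m) (kc_vac k)
    (fun f hf _ => kc_J hJ k m hf) hf v

end

end Vale.Agent.P352.ND

end
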