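import Vale.Agent.P352.ND.W1
import Vale.Agent.P352.G.Al
import Vale.Agent.P352.H834.NL
import Vale.Agent.P352.H746.Flow3
import Vale.Agent.P352.NF.F1a

set_option linter.all false

/-!
# The generators of the null deformations act locally in opposite wedges
-/

noncomputable section

open MeasureTheory Filter Topology SchwartzMap
open scoped SchwartzMap ComplexConjugate LineDeriv

namespace Vale.Agent.P352.ND

open Vale.Agent.P352.H15 Vale.Agent.P352.G Vale.Agent.P352.H731

open GF (Ix V Fn Fld Theory Sch IsLor bas eta o sim pd tr improve ev bar Sep)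
open H246 H496 H755 H746 H846 H834
open Vale.Agent.P352.H746 Vale.Agent.P352.H846

variable {D : Type*} [NormedAddCommGroup D] [InnerProductSpace ℂ D]
variable {Q Q' : GF.Theory D} {T : Ix → Ix → GF.Fld D} {J : Ix → GF.Fld D}
  {A : (V → V) → D → D} {K C : V → D → D} {H : D → D} {alg : Set V → Set (D → D)}
  {S : V → ℝ → D → D} {G : V → D → D}

lemma mdot_causal {a d : V} (ha : IsNull a) (hd : 0 ≤ GF.mdot d d) (h0 : 0 ≤ d 0) :
    0 ≤ GF.mdot a d := by
  have h1 := ha.1
  have h2 : 0 < a 0 := ha.2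
  have m4 : ∀ x z : V, GF.mdot x z = x 0 * z 0 - x 1 * z 1 - x 2 * z 2 - x 3 * z 3 := by
    intro x z
    simp [GF.mdot, Fin.sum_univ_four, GF.eta, o]
    ring
  rw [m4] at h1 hd ⊢
  have e1 : a 1 * a 1 + a 2 * a 2 + a 3 * a 3 = a 0 * a 0 := by linarith
  have e2 : d 1 * d 1 + d 2 * d 2 + d 3 * d 3 ≤ d 0 * d 0 := by linarith
  have cs : (a 1 * d 1 + a 2 * d 2 + a 3 * d 3) ^ 2 ≤
      (a 1 * a 1 + a 2 * a 2 + a 3 * a 3) * (d 1 * d 1 + d 2 * d 2 + d 3 * d 3) := by
    nlinarith [sq_nonneg (a 1 * d 2 - a 2 * d 1), sq_nonneg (a 1 * d 3 - a 3 * d 1),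
      sq_nonneg (a 2 * d 3 - a 3 * d 2)]
  have c2 : (a 1 * d 1 + a 2 * d 2 + a 3 * d 3) ^ 2 ≤ (a 0 * d 0) ^ 2 := by
    refine cs.trans ?_
    rw [e1]
    nlinarith [mul_self_nonneg (a 0)]
  have c3 := (abs_le_of_sq_le_sq' c2 (mul_nonneg h2.le h0)).2
  linarith

lemma mdot_neg_neg (x : V) : GF.mdot (-x) (-x) = GF.mdot x x := by
  simp [GF.mdot]

lemma mdot_neg_right (a x : V) : GF.mdot a (-x) = -GF.mdot a x := by
  simp [GF.mdot]

/-- opposite wedges are spacelike separated -/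
lemma wdg_opp {a c y x z : V} (ha : IsNull a) (hc : IsNull c) (hx : x ∈ Wdg a c y)
    (hz : z ∈ Wdg c a y) : GF.mdot (x - z) (x - z) < 0 := by
  by_contra h
  rw [not_lt] at h
  have hs : ∀ b : V, GF.mdot b (x - z) = GF.mdot b (x - y) - GF.mdot b (z - y) := by
    intro b
    have : x - z = (x - y) - (z - y) := by abel
    rw [this, gm_sub]
  have e1 : GF.mdot a (x - z) < 0 := by rw [hs]; linarith [hx.1, hz.2]
  have e2 : 0 < GF.mdot c (x - z) := by rw [hs]; linarith [hx.2, hz.1]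
  rcases le_total 0 ((x - z) 0) with h0 | h0
  · have := mdot_causal ha h h0
    linarith
  · have := mdot_causal hc (d := -(x - z)) (by rw [mdot_neg_neg]; exact h)
      (by simpa using h0)
    rw [mdot_neg_right] at this
    linarith

lemma wdg_cc {a c y : V} (ha : IsNull a) (hc : IsNull c) {O : Set V} (hO : O ⊆ Wdg c a y) :
    Wdg a c y ⊆ cc O := fun x hx z hz => by
  have h1 := wdg_opp ha hc hx (hO hz)
  rwa [mdot_symm'] at h1

/-- the velocity field of the translation law -/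
lemma isSim_tr (a y : V) : IsSim (-(2 * GF.mdot a y)) (fun z => -(2 * GF.mdot a y) • z +
    (2 * GF.mdot y z) • a - (2 * GF.mdot a z) • y + cK a y) := by
  refine ⟨cK a y, fun m n => 2 * (eta m * y m) * a n - 2 * (eta m * a m) * y n, ?_, ?_⟩
  · intro m n
    show eta n * (2 * (eta m * y m) * a n - 2 * (eta m * a m) * y n) =
      -(eta m * (2 * (eta n * y n) * a m - 2 * (eta n * a n) * y m))
    ring
  · intro z n
    simp only [Pi.add_apply, Pi.sub_apply, Pi.smul_apply, smul_eq_mul, GF.mdot]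
    have e : ∑ m, z m * (2 * (eta m * y m) * a n - 2 * (eta m * a m) * y n) =
        2 * (∑ m, eta m * y m * z m) * a n - 2 * (∑ m, eta m * a m * z m) * y n := by
      rw [Finset.mul_sum, Finset.mul_sum, Finset.sum_mul, Finset.sum_mul,
        ← Finset.sum_sub_distrib]
      exact Finset.sum_congr rfl fun m _ => by ring
    rw [e]
    ring

/-- localized operators commute with the commutator of a generator and a field -/
lemma lo_AJ (hJ : IsVirial Q T J) (R : H15.Rep Q A) {O : Set V} {P P' : D → D}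
    (hP : LocOp Q O P P') {f : Fn} (hf : In (cc O) f) {r : ℝ} {X : V → V} (hX : IsSim r X)
    (m : Ix) (v : D) : P (A X (J m f v)) - P (J m f (A X v)) =
      A X (J m f (P v)) - J m f (A X (P v)) := by
  have hv : In (cc O) (vf X f) :=
    ⟨isTest_vf hX hf.1, hf.2.1.of_isClosed_subset (isClosed_tsupport _) NF.f1_tsup,
      NF.f1_tsup.trans hf.2.2⟩
  obtain ⟨c, w, hw, hX⟩ := hX
  have e1 := A_J R hJ hw hX hf.1 m v
  have e2 := A_J R hJ hw hX hf.1 m (P v)
  rw [e1, e2, Vale.Agent.P352.G.H846.lo_add hP, Vale.Agent.P352.G.H846.lo_smul hP, Vale.Agent.P352.G.H846.lo_add hP, Vale.Agent.P352.G.H846.lo_add hP,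
    Vale.Agent.P352.G.H846.lo_smul hP, Vale.Agent.P352.G.H846.lo_sum hP, hP.comm _ f v (hJ.bose m) hf,
    hP.comm _ _ v (hJ.bose m) hv]
  simp only [Vale.Agent.P352.G.H846.lo_smul hP]
  have e3 : ∀ k, P (J k f v) = J k f (P v) := fun k => hP.comm _ f v (hJ.bose k) hf
  simp only [e3]
  abel

/-- the operators that commute with the algebra of a wedge commute with the commutators of the
generators of the null deformations and the fields -/
theorem nloc_core (hJ : IsVirial Q T J) (N : CNet Q H alg S) (Gg : Gnr Q alg S G)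
    (h : NGen Q J A G C) {a c y : V} (ha : IsNull a) (hc : IsNull c) (hac : 0 < GF.mdot a c)
    {O : Set V} {P P' : D → D} (hP : LocOp Q O P P') {f : Fn} (hf : In (cc O) f)
    (hs : (tsupport f ⊆ Wdg a c y ∧ ∀ Z ∈ alg (Wdg a c y), ∀ u, P (Z u) = Z (P u)) ∨
      (tsupport f ⊆ Wdg c a y ∧ ∀ Z ∈ alg (Wdg c a y), ∀ u, P (Z u) = Z (P u))) (m : Ix) (v : D) :
    P (G a (J m f v)) - P (J m f (G a v)) = G a (J m f (P v)) - J m f (G a (P v)) := by
  have hlin2 : ∀ u w, J m f (u + w) = J m f u + J m f w := fun u w => by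
    obtain ⟨F, rfl⟩ := exists_fl hf.1
    exact Vale.Agent.P352.fld_add (Q.bose_fld _ (hJ.bose m)) F u w
  have hlin3 : ∀ (c : ℂ) u, J m f (c • u) = c • J m f u := fun c u =>
    Vale.Agent.P352.H746.fld_smul (Q.bose_fld _ (hJ.bose m)) hf.1 c u
  have hlin : ∀ u w, J m f (u - w) = J m f u - J m f w := fun u w => by
    rw [sub_eq_add_neg, ← neg_one_smul ℂ w, hlin2, hlin3, neg_one_smul, ← sub_eq_add_neg]
  -- the translated generator
  have key : Gx Q G a y (J m f (P v)) - J m f (Gx Q G a y (P v)) =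
      P (Gx Q G a y (J m f v) - J m f (Gx Q G a y v)) := by
    rcases hs with ⟨h1, h2⟩ | ⟨h1, h2⟩
    · have hX : J m f ∈ alg (Wdg a c y) :=
        N.fld _ _ f (Q.bose_fld _ (hJ.bose m)) ⟨hf.1, hf.2.1, h1⟩
      exact net_comm_tr N Gg ha hc hac rfl hX hP.adj h2 v
    · have hX : J m f ∈ alg (Wdg c a y) :=
        N.fld _ _ f (Q.bose_fld _ (hJ.bose m)) ⟨hf.1, hf.2.1, h1⟩
      exact net_comm_tr' N Gg ha hc hac rfl hX hP.adj h2 v
  set X : V → V := fun z => -(2 * GF.mdot a y) • z +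
    (2 * GF.mdot y z) • a - (2 * GF.mdot a z) • y + cK a y with hXd
  have hGx : ∀ u, Gx Q G a y u = G a u + A X u - ((2 * GF.mdot a y : ℝ) : ℂ) • C a u :=
    fun u => h.tra a y u ha
  have hA := lo_AJ hJ h.toRep hP hf (isSim_tr a y) m v
  rw [← hXd] at hA
  have hC : ∀ u, C a (J m f u) = J m f (C a u) := fun u => h.comJ a m f u ha hf.1
  simp only [hGx, hlin, hlin2, hlin3, hC] at key
  have e : (G a (J m f (P v)) - J m f (G a (P v))) - (P (G a (J m f v)) - P (J m f (G a v))) =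
      (P (A X (J m f v)) - P (J m f (A X v))) - (A X (J m f (P v)) - J m f (A X (P v))) := by
    have k2 := sub_eq_zero.2 key
    simp only [Vale.Agent.P352.G.H846.lo_sub hP, Vale.Agent.P352.G.H846.lo_add hP,
      Vale.Agent.P352.G.H846.lo_smul hP] at k2
    rw [← sub_eq_zero, ← k2]
    abel
  rw [hA, sub_self, sub_eq_zero] at e
  exact e.symm

/-- **The generators of the null deformations act locally in opposite wedges.** -/
theorem nlocF_of (hJ : IsVirial Q T J) (N : CNet Q H alg S) (Gg : Gnr Q alg S G)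
    (h : NGen Q J A G C) (a : V) (m : Ix) (B : Fld D) (g f : Fn) (v : D) (ha : IsNull a)
    (hB : Q.fld B) (hg : GF.IsTest g) (hgc : HasCompactSupport g) (hf : In (cc (tsupport g)) f)
    (hs : Wsep a f (tsupport g)) : B g (G a (J m f v)) - B g (J m f (G a v)) =
      G a (J m f (B g v)) - J m f (G a (B g v)) := by
  obtain ⟨B', hB', hadj⟩ := Q.adj B hB
  have hP := (relF_fld hB hB' hadj).locOp hg
  obtain ⟨c, y, hc, hac, ⟨h1, h2⟩ | ⟨h1, h2⟩⟩ := hs
  · have hY : B g ∈ alg (Wdg c a y) := N.fld _ _ g hB ⟨hg, hgc, h2⟩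
    exact nloc_core hJ N Gg h ha hc hac hP hf
      (Or.inl ⟨h1, fun Z hZ u => (N.loc a c y ha hc hac Z hZ _ hY u).symm⟩) m v
  · have hY : B g ∈ alg (Wdg a c y) := N.fld _ _ g hB ⟨hg, hgc, h2⟩
    exact nloc_core hJ N Gg h ha hc hac hP hf
      (Or.inr ⟨h1, fun Z hZ u => N.loc a c y ha hc hac _ hY Z hZ u⟩) m v

end Vale.Agent.P352.ND

end
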