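import Vale.Agent.P352.ND.L0b
import Vale.Agent.P352.ND.W3
import Vale.Agent.P352.ND.V1
import Vale.Agent.P352.G0.Defs

/-!
# P352 NG: the generators act locally on the virial current in opposite wedges
-/

set_option linter.all false

noncomputable section

open MeasureTheory Filter Topology SchwartzMap
open scoped SchwartzMap ComplexConjugate LineDeriv

namespace Vale.Agent.P352.ND

open Vale.Agent.P352.H15 Vale.Agent.P352.G Vale.Agent.P352.H731

open GF (Ix V Fn Fld Theory Sch IsLor bas eta o sim pd tr improve ev bar Sep)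
open H246 H496 H755 H746 H846 H834
open Vale.Agent.P352.H746 Vale.Agent.P352.H846

variable {D : Type*} [NormedAddCommGroup D] [InnerProductSpace ℂ D]
variable {Q : GF.Theory D} {T : Ix → Ix → GF.Fld D} {J : Ix → GF.Fld D}
  {A : (V → V) → D → D} {C : V → D → D} {G : V → D → D}

/-- **The generators act locally in opposite wedges.** -/
theorem nlocF_ng (hJ : IsVirial Q T J) (hl : ∀ m, LocG Q G (J m)) (h : G0.NGen Q J A G C) :
    NLocF Q J G := by
  intro a m B g f v ha hB hg hgc hf hs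
  obtain ⟨B', hB', hadj⟩ := Q.adj B hB
  have hP := (relF_fld hB hB' hadj).locOp hg
  obtain ⟨c, y, hc, hac, hs⟩ := hs
  have hlin2 : ∀ u w, J m f (u + w) = J m f u + J m f w := fun u w => by
    obtain ⟨F, rfl⟩ := exists_fl hf.1
    exact Vale.Agent.P352.fld_add (Q.bose_fld _ (hJ.bose m)) F u w
  have hlin3 : ∀ (c : ℂ) u, J m f (c • u) = c • J m f u := fun c u =>
    Vale.Agent.P352.H746.fld_smul (Q.bose_fld _ (hJ.bose m)) hf.1 c u
  have hlin : ∀ u w, J m f (u - w) = J m f u - J m f w := fun u w => by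
    rw [sub_eq_add_neg, ← neg_one_smul ℂ w, hlin2, hlin3, neg_one_smul, ← sub_eq_add_neg]
  have hs' : (In (Wdg a c y) f ∧ In (Wdg c a y) g) ∨ (In (Wdg c a y) f ∧ In (Wdg a c y) g) := by
    rcases hs with ⟨h1, h2⟩ | ⟨h1, h2⟩
    · exact Or.inl ⟨⟨hf.1, hf.2.1, h1⟩, ⟨hg, hgc, h2⟩⟩
    · exact Or.inr ⟨⟨hf.1, hf.2.1, h1⟩, ⟨hg, hgc, h2⟩⟩
  have key : Kx Q G a y (J m f (B g v)) - J m f (Kx Q G a y (B g v)) =
      B g (Kx Q G a y (J m f v) - J m f (Kx Q G a y v)) :=
    locG_tr (fun a v w ha => h.symm a v w ha) (Q.bose_fld _ (hJ.bose m)) (hl m) hB ha hc hac rfl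
      hs' v
  set X : V → V := fun z => -(2 * GF.mdot a y) • z +
    (2 * GF.mdot y z) • a - (2 * GF.mdot a z) • y + cK a y with hXd
  have hGx : ∀ u, Kx Q G a y u = G a u + A X u - ((2 * GF.mdot a y : ℝ) : ℂ) • C a u :=
    fun u => h.tra a y u ha
  have hA := lo_AJ hJ h.toRep hP hf (isSim_tr a y) m v
  rw [← hXd] at hA
  have hC : ∀ u, C a (J m f u) = J m f (C a u) := fun u => h.comJ a m f u ha hf.1
  simp only [hGx, hlin, hlin2, hlin3, hC] at key
  have e : (G a (J m f (B g v)) - J m f (G a (B g v))) -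
        (B g (G a (J m f v)) - B g (J m f (G a v))) =
      (B g (A X (J m f v)) - B g (J m f (A X v))) -
        (A X (J m f (B g v)) - J m f (A X (B g v))) := by
    have k2 := sub_eq_zero.2 key
    simp only [Vale.Agent.P352.G.H846.lo_sub hP, Vale.Agent.P352.G.H846.lo_add hP,
      Vale.Agent.P352.G.H846.lo_smul hP] at k2
    rw [← sub_eq_zero, ← k2]
    abel
  rw [hA, sub_self, sub_eq_zero] at e
  exact e.symm

end Vale.Agent.P352.ND

end
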