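import Vale.Agent.P352.ND.V1
import Vale.Agent.P352.N86.Defs
import Vale.Agent.P352.G.Top3

set_option linter.all false

/-!
# P352: the improvement field from conformal generators that act locally relative to the fields
smeared in opposite wedges
-/

noncomputable section

open MeasureTheory Filter Topology SchwartzMap
open scoped SchwartzMap ComplexConjugate LineDeriv

namespace Vale.Agent.P352.ND

open Vale.Agent.P352.H15 Vale.Agent.P352.G Vale.Agent.P352.H731

open GF (Ix V Fn Fld Theory Sch IsLor bas eta o sim pd tr improve ev bar Sep)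
open H246 H496 H755 H746 H846
open Vale.Agent.P352.H746 Vale.Agent.P352.H846
open UniformSpace (Completion)

variable {D : Type*} [NormedAddCommGroup D] [InnerProductSpace ℂ D]
variable {Q Q' Q₁ : GF.Theory D} {T : Ix → Ix → GF.Fld D} {J : Ix → GF.Fld D}
  {A : (V → V) → D → D} {K C : V → D → D}

/-- the candidates for the improvement field form an admissible family -/
theorem vfam_Lf (hJ : IsVirial Q T J) (h : NGen Q J A K C)
    (hn : NLocF Q J K)
    (hvac : ∀ a b a' b' f, NPr a b → NPr a' b' → GF.IsTest f →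
      Lf J K a b f Q.vac = Lf J K a' b' f Q.vac) : VFam Q (Lf J K) where
  adj := fun a b f v w hp hf => G.H746.Lf_herm hJ h hp.1 hp.2.1 hf v w
  lin := fun a b f g c v hp hf hg => G.H746.Lf_lin hJ h hp.1 hp.2.1 hf hg c v
  cont := fun a b v hp => G.H746.Lf_cont hJ h hp.1 hp.2.1 v
  vac := hvac
  com := by
    intro a b B g f v hp hB hg hgc hf hsa hsb
    obtain ⟨B', hB', hadj⟩ := Q.adj B hB
    have hP : LocOp Q (tsupport g) (B g) (B' (bar g)) := (relF_fld hB hB' hadj).locOp hg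
    unfold Lf
    rw [G.H846.lo_smul hP, G.H846.lo_add hP,
      G.H846.al_of hJ h hp.1 hP hf (fun m v => hn a m B g f v hp.1 hB hg hgc hf hsa) b v,
      G.H846.al_of hJ h hp.2.1 hP hf (fun m v => hn b m B g f v hp.2.1 hB hg hgc hf hsb) a v]

/-- the improvement field is covariant -/
lemma Lf_covV (hJ : IsVirial Q T J) (h : NGen Q J A K C) (hF : VFam Q (Lf J K)) {a b : V}
    (hp : NPr a b) {s : ℝ} {M : Ix → V} (x : V) {f : Fn} (v : D) (hs : 0 < s) (hM : IsLor M)
    (hf : GF.IsTest f) : Lf J K a b f (Q.U s M x v) =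
      ((s ^ (4 - 2 : ℝ) : ℝ) : ℂ) • Q.U s M x (Lf J K a b (fun z => f (sim s M x z)) v) := by
  have ha' := isNull_lor hM hp.1
  have hb' := isNull_lor hM hp.2.1
  have hp' : NPr (sim 1 M 0 a) (sim 1 M 0 b) := ⟨ha', hb', by rw [mdot_sim hM]; exact hp.2.2⟩
  rw [hF.agree hp hp' hf]
  have h1 := G.H746.bk_cov hJ h hs one_pos hM hp.1 ha' (one_smul ℝ _).symm b x hf v
  have h2 := G.H746.bk_cov hJ h hs one_pos hM hp.2.1 hb' (one_smul ℝ _).symm a x hf v
  have hs2 : ((s ^ (4 - 2 : ℝ) : ℝ) : ℂ) * ((1 / s ^ 2 : ℝ) : ℂ) = 1 := by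
    rw [← Complex.ofReal_mul]
    have : s ^ (4 - 2 : ℝ) = s ^ 2 := by
      rw [show (4 - 2 : ℝ) = ((2 : ℕ) : ℝ) by norm_num, Real.rpow_natCast]
    rw [this, mul_one_div, div_self (by positivity), Complex.ofReal_one]
  unfold Lf
  rw [U_smul hs hM, U_add hs hM, h1, h2, ← smul_add, smul_smul, smul_smul]
  congr 1
  linear_combination -(Complex.I / 24) * hs2

/-- relatively local distributions, for a smaller theory -/
lemma relF_enl (he : IsEnl Q Q₁) {B B' : GF.Fld D} (h : RelF Q₁ B B') : RelF Q B B' where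
  lin := h.lin
  cont := h.cont
  adj := h.adj
  loc := fun A f g v hA hf hg hs => h.loc A f g v (he.bose A hA) hf hg hs
  loc' := fun A f g v hA hf hg hs => h.loc' A f g v (he.bose A hA) hf hg hs

/-- the improvement field -/
theorem main_LV (hT : Q.IsStress T) (hJ : IsVirial Q T J) (h : NGen Q J A K C)
    (hn : NLocF Q J K) (he : IsEnl Q Q₁) :
    ∃ Q' : Theory D, IsEnl Q₁ Q' ∧ Q'.IsScalar (Lf J K G.H15.a0 G.H15.b0) 2 ∧
      ∀ f v, GF.IsTest f → tr (improve T (Lf J K G.H15.a0 G.H15.b0)) f v = 0 := by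
  have npr0 := G.H15.npr0
  obtain ⟨Y, hY⟩ := G.H15.tens hT hJ h
  obtain ⟨y1, y2, y3, y4, y5⟩ := hY
  have hCY : ∀ f, GF.IsTest f → Ker C (Y f) := by
    intro f hf
    have e1 := y1 G.H15.a0 G.H15.b0 f npr0.1 npr0.2.1 hf
    rw [npr0.2.2] at e1
    have e2 : Y f = (1 / 2 : ℂ) • (bk J K G.H15.a0 G.H15.b0 f Q.vac +
        bk J K G.H15.b0 G.H15.a0 f Q.vac) := by
      rw [e1, smul_smul]
      norm_num
    rw [e2]
    exact h.ker_smul _ (h.ker_add (G.H15.ker_bk hJ h hf npr0.1 _ h.ker_vac)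
      (G.H15.ker_bk hJ h hf npr0.2.1 _ h.ker_vac))
  have hprim : ∀ a f, IsNull a → GF.IsTest f → K a (Y f) = -(Complex.I • Y (kd a 2 f)) :=
    fun a f ha hf => G.H148.prim h hCY y2 y3 y4 ha hf
  have hLY : ∀ a b f, NPr a b → GF.IsTest f → Lf J K a b f Q.vac = (Complex.I / 12) • Y f := by
    intro a b f hp hf
    unfold Lf
    rw [y1 a b f hp.1 hp.2.1 hf, hp.2.2, smul_smul]
    congr 1
    push_cast
    ring
  have hF : VFam Q (Lf J K) := vfam_Lf hJ h hn fun a b a' b' f hp hp' hf => by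
    rw [hLY a b f hp hf, hLY a' b' f hp' hf]
  have htr0 : ∀ f, GF.IsTest f →
      tr T f Q.vac = (3 : ℂ) • Lf J K G.H15.a0 G.H15.b0 (box f) Q.vac := by
    intro f hf
    have hb : GF.IsTest (box f) := by
      obtain ⟨F, rfl⟩ := exists_fl hf
      rw [box_fl]
      exact isTest_fl _
    rw [G.H15.trace_vac hT hJ h ⟨y1, y2, y3, y4, y5⟩ hprim hf, hLY G.H15.a0 G.H15.b0 _ npr0 hb,
      smul_smul]
    congr 1
    ring
  -- the vacuum vectors of the improvement field are the potential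
  have hpot : IsPot Q T fun f => ((Lf J K G.H15.a0 G.H15.b0 f Q.vac : D) : Completion D) := by
    refine ⟨fun f g c hf hg => ?_, ?_, fun f hf => ?_, fun s M x f v hs hM hf => ?_⟩
    · show ((_ : D) : Completion D) = ((_ : D) : Completion D) + c • ((_ : D) : Completion D)
      rw [G.H746.Lf_lin hJ h npr0.1 npr0.2.1 hf hg c Q.vac, Completion.coe_add,
        Completion.coe_smul]
    · exact (Completion.continuous_coe D).comp (G.H746.Lf_cont hJ h npr0.1 npr0.2.1 Q.vac)
    · show (3 : ℂ) • ((_ : D) : Completion D) = _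
      rw [htr0 f hf, Completion.coe_smul]
    · show inner ℂ _ ((_ : D) : Completion D) = _ * inner ℂ _ ((_ : D) : Completion D)
      have h1 := Lf_covV hJ h hF npr0 x Q.vac hs hM hf
      rw [Q.U_vac s M x hs hM] at h1
      have e : (s ^ ((4 : ℝ) - 2) : ℝ) = s ^ 2 := by
        rw [show ((4 : ℝ) - 2) = ((2 : ℕ) : ℝ) by norm_num, Real.rpow_natCast]
      rw [h1, e, Completion.coe_smul, inner_smul_right, Completion.inner_coe,
        Completion.inner_coe, Q.U_inner _ _ _ _ _ hs hM]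
  obtain ⟨Q', h1, h2⟩ := exists_enl Q₁ (Lf J K G.H15.a0 G.H15.b0)
    (fun f g c v hf hg => G.H746.Lf_lin hJ h npr0.1 npr0.2.1 hf hg c v)
    (fun v => G.H746.Lf_cont hJ h npr0.1 npr0.2.1 v)
    (fun f v w hf => G.H746.Lf_herm hJ h npr0.1 npr0.2.1 hf v w)
    (fun B f g v hB hf hg hs => by
      obtain ⟨B', hB', hadj⟩ := Q₁.adj B hB
      exact VFam.locB hT hF npr0 hpot (relF_enl he (relF_fld hB hB' hadj)) hf hg hs v)
    (fun f g v hf hg hs => VFam.loc_self hT hF npr0 hpot hf hg hs v)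
    (fun s M x f v hs hM hf => by
      rw [he.U]
      exact Lf_covV hJ h hF npr0 x v hs hM hf)
  refine ⟨Q', h1, h2, fun f v hf => ?_⟩
  rw [G.H15.tr_improve (fun f g c v hf hg => G.H746.Lf_lin hJ h npr0.1 npr0.2.1 hf hg c v) hf,
    hF.trace hT npr0 htr0 hf, sub_self]

/-- **Conformal invariance** from conformal generators that act locally relative to the fields
smeared in opposite wedges. -/
theorem main_confV (hT : Q.IsStress T) (hJ : IsVirial Q T J) (h : NGen Q J A K C)
    (hn : NLocF Q J K) : N86.ConfInv Q T := by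
  refine ⟨Lf J K G.H15.a0 G.H15.b0, fun Q₁ he => ?_⟩
  have hT1 := isStress_enl he hT
  obtain ⟨Q', h1, h2, h3⟩ := main_LV hT hJ h hn he
  obtain ⟨Q₂, g1, g2, g3, g4, g5, g6⟩ := exists_stress hT1 h1 h2 h3
    fun Q'' hQ => isStress_enl (enl_trans he hQ) hT
  exact ⟨Q₂, g1, g3, g4, g5, H755.conf_act g6⟩

end Vale.Agent.P352.ND

end
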