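import Vale.Agent.P352.ND.N1
import Vale.Agent.P352.ND.C6
import Vale.Agent.P352.ND.C7c
import Vale.Agent.P352.ND.X3e
import Vale.Agent.P352.ND.V2
import Vale.Agent.P352.ND.W3
import Vale.Agent.P352.ND.E8b

/-!
# P352 ND: conformal invariance from the null deformations of the net
-/

set_option linter.all false

noncomputable section

open MeasureTheory Filter Topology

namespace Vale.Agent.P352.ND

open GF (Ix V Fn Fld Theory IsLor bas eta o sim)
open H246 H496 H755 H15 H846 H746 NF
open H121 (Cop)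
open G (NGen)

variable {D : Type*} [NormedAddCommGroup D] [InnerProductSpace ℂ D]
variable {Q : GF.Theory D} {T : Ix → Ix → GF.Fld D} {J : Ix → GF.Fld D}
  {A : (V → V) → D → D} {H : D → D} {alg : Set V → Set (D → D)}
  {S : V → ℝ → D → D} {G : V → D → D}

section

variable (hT : Q.IsStress T) (hJ : IsVirial Q T J) (N : CNet Q H alg S) (Gg : Gnr Q alg S G)
  (R : H15.Rep Q A) (hP : PCh Q T A)
include hT hJ N Gg R hP

/-- the charge of the generators of the null deformations -/
theorem kc_nd {a b : V} (ha : IsNull a) (hb : IsNull b) (hab : GF.mdot a b = 1) :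
    H731.KC Q A a (G a) (Cop Q A G a b) :=
  kc_of (ks_of N Gg R) (ck_of (ks_of N Gg R) (lb_of N Gg)) ha hb hab fun u t v =>
    sd_of_xi (ks_of N Gg R) (lb_of N Gg) ha hb hab (hx_of hT hJ N Gg R hP a b ha hb hab) u t v

/-- the charge commutes with the Poincaré generators -/
theorem cA_nd {a b : V} (ha : IsNull a) (hb : IsNull b) (hab : GF.mdot a b = 1) {X : V → V}
    (hX : IsSim 0 X) (v : D) : Cop Q A G a b (A X v) = A X (Cop Q A G a b v) :=
  c_com hT (ks_of N Gg R) hP ha b (fun m n f v hf _ =>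
    c6_T hT N Gg (kc_nd hT hJ N Gg R hP ha hb hab) m n hf v) hX v

/-- the charge does not depend on the null direction -/
theorem ceq_nd {a b a' b' : V} (ha : IsNull a) (hb : IsNull b) (hab : GF.mdot a b = 1)
    (ha' : IsNull a') (hb' : IsNull b') (hab' : GF.mdot a' b' = 1) (v : D) :
    Cop Q A G a' b' v = Cop Q A G a b v := by
  have h := ks_of N Gg R
  have hl := lb_of N Gg
  exact c_eq h (ck_of h hl) ha hb hab
    (fun u t v => sd_of_xi h hl ha hb hab (hx_of hT hJ N Gg R hP a b ha hb hab) u t v) ha' hb' hab'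
    (fun u t v => sd_of_xi h hl ha' hb' hab' (hx_of hT hJ N Gg R hP a' b' ha' hb' hab') u t v)
    (fun X v hX => cA_nd hT hJ N Gg R hP ha hb hab hX v) v

/-- **Special conformal generators up to a neutral charge.** -/
theorem ngen_nd : NGen Q J A G (Cc Q A G) := by
  refine ngen_of (ks_of N Gg R) (lb_of N Gg)
    (fun a b ha hb hab v => hx_of hT hJ N Gg R hP a b ha hb hab v)
    (fun a b ha hb hab m f v hf => c6_J hJ N Gg (kc_nd hT hJ N Gg R hP ha hb hab) m hf v)
    (fun a b ha hb hab c v hc => ?_)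
    (fun a b ha hb hab X v hX => cA_nd hT hJ N Gg R hP ha hb hab hX v)
  obtain ⟨c', hc', hcc⟩ := H755.exists_dual hc
  rw [ceq_nd hT hJ N Gg R hP hc hc' hcc ha hb hab, ceq_nd hT hJ N Gg R hP hc hc' hcc ha hb hab]
  have k := kc_nd hT hJ N Gg R hP hc hc' hcc
  exact comK N Gg hT hP k hc' hcc (fun m n f v hf => c6_T hT N Gg k m n hf v) v

/-- **Conformal invariance** from the null deformations of the net. -/
theorem confN : N86.ConfInv Q T :=
  main_confV hT hJ (ngen_nd hT hJ N Gg R hP) fun a m B g f v ha hB hg hgc hf hs =>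
    nlocF_of hJ N Gg (ngen_nd hT hJ N Gg R hP) a m B g f v ha hB hg hgc hf hs

end

end Vale.Agent.P352.ND

end
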