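import Vale.Agent.P352.ND.NG
import Vale.Agent.P352.ND.Bd
import Vale.Agent.P352.ND.W3

/-!
# P352 NG: special conformal generators that act locally on the fields are null generators
-/

set_option linter.all false

noncomputable section

open MeasureTheory Filter Topology SchwartzMap Complex Set
open scoped SchwartzMap ComplexConjugate ContDiff

namespace Vale.Agent.P352.ND

open GF (Ix V Fn Fld Theory Sch IsLor bas o sim pd tr ev bar)
open H246 H496 H755 H15 H846 H246R H746
open UniformSpace (Completion)

variable {D : Type*} [NormedAddCommGroup D] [InnerProductSpace ℂ D]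
variable {Q : GF.Theory D} {T : Ix → Ix → GF.Fld D} {J : Ix → GF.Fld D}
variable {A : (V → V) → D → D} {K : V → D → D}

/-- The operators `K a` act locally on the field `φ`: the operators that commute with the Bose
fields near the support of `f` commute with the commutator of `K a` and `φ f`. -/
def ActF (Q : GF.Theory D) (K : V → D → D) (φ : GF.Fld D) : Prop :=
  ∀ a O P P' f v, IsNull a → IsCompact O → LocOp Q O P P' → In (cc O) f →
    P (K a (φ f v) - φ f (K a v)) = K a (φ f (P v)) - φ f (K a (P v))

/-- smeared fields are local operators -/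
lemma locOp_fld {B B' : GF.Fld D} (hB : Q.fld B) (hB' : Q.fld B')
    (hadj : ∀ f v w, GF.IsTest f → inner ℂ (B f v) w = inner ℂ v (B' (bar f) w)) {g : Fn}
    (hg : GF.IsTest g) : LocOp Q (tsupport g) (B g) (B' (bar g)) where
  adj v w := hadj g v w hg
  comm F f v hF hf := (Q.loc F B f g v hF hB hf.1 hg fun x hx y hy => by
    have h1 := hf.2.2 hx y hy
    rwa [mdot_symm'] at h1).symm
  comm' F f v hF hf := (Q.loc F B' f (bar g) v hF hB' hf.1 (isTest_bar hg) fun x hx y hy => by
    rw [H246.tsupport_bar] at hy
    have h1 := hf.2.2 hx y hy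
    rwa [mdot_symm'] at h1).symm

/-- local action implies null locality -/
theorem locG_of_act {φ : GF.Fld D} (h : ActF Q K φ) : LocG Q K φ := by
  intro B a c y f g v hB ha hc hac hy hs
  obtain ⟨B', hB', hadj⟩ := Q.adj B hB
  have hg : GF.IsTest g := by rcases hs with hs | hs; exacts [hs.2.1, hs.2.1]
  have hgc : HasCompactSupport g := by rcases hs with hs | hs; exacts [hs.2.2.1, hs.2.2.1]
  have hf : In (cc (tsupport g)) f := by
    rcases hs with ⟨h1, h2⟩ | ⟨h1, h2⟩
    · exact ⟨h1.1, h1.2.1, h1.2.2.trans (wdg_cc ha hc h2.2.2)⟩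
    · exact ⟨h1.1, h1.2.1, h1.2.2.trans (wdg_cc hc ha h2.2.2)⟩
  exact (h a (tsupport g) _ _ f v ha hgc (locOp_fld hB hB' hadj hg) hf).symm

/-- **Special conformal generators that act locally on `T` and `J` are null generators.** -/
theorem nullGen_of_conf (h : ConfGen Q A K) (hT : ∀ m n, ActF Q K (T m n)) (hJ : Act Q J K) :
    NullGen Q T J A K where
  toRep := h.toRep
  symm := h.symm
  cov := h.cov
  tra a x v ha hx := by
    have h1 := h.tra a x v ha
    exact h1
  bdd a v ha := lb_tra (C := fun _ => 0) h.toRep (fun x v => by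
    rw [smul_zero, sub_zero]
    exact h.tra a x v ha) v
  locT m n := locG_of_act (hT m n)
  locJ m := locG_of_act (fun a O P P' f v ha hO hP hf => hJ a m O P P' f v ha hO hP hf)

end Vale.Agent.P352.ND

end
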