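import Vale.Agent.P352.NF.MainB
import Vale.Agent.P352.ND.NG

/-!
# P352 NG: second moments of the null energy are null generators

The commutator of a second moment with a field `φ(f)` commutes with the operators that are
localized on the other side of the null plane, in the opposite wedge.
-/

set_option linter.all false

noncomputable section

open MeasureTheory SchwartzMap Filter Topology Set
open scoped SchwartzMap ContDiff ComplexConjugate

namespace Vale.Agent.P352.ND

open GF (Ix V Fn Fld bas eta o bar pd)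
open H246 H496 H755 H15 NF
open H746 (vf isTest_vf A_T A_J A_symm A_vac)

variable {D : Type*} [NormedAddCommGroup D] [InnerProductSpace ℂ D]
variable {Q : GF.Theory D} {T : Ix → Ix → GF.Fld D} {J : Ix → GF.Fld D}
  {A : (V → V) → D → D} {K : V → D → D}

section

variable {a b : V} (ha : IsNull a) (hb : IsNull b) (hab : GF.mdot a b = 1)
include ha hb hab

/-- the commutator of a second moment with `φ(f)` commutes with `X`, if the null plane is split by
the smooth function `χ` into a part that is spacelike to `f` and one that is spacelike to `X` -/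
lemma kp_gen (hT : Q.IsStress T) (h : NullMom Q T A K) {φ φ' : GF.Fld D} (hφ : Q.bose φ)
    (hadj : ∀ f v w, GF.IsTest f → inner ℂ (φ f v) w = inner ℂ v (φ' (bar f) w))
    {f : Fn} (hf : GF.IsTest f) {W : Set V} {X X' : D → D} (hX : Al Q W X X')
    {χ : V → ℝ} (hχ : ContDiff ℝ ∞ χ) {α β : ℝ}
    (h1 : ∀ x ∈ tsupport χ, α ≤ GF.mdot a x → GF.mdot a x ≤ β →
      ∀ y ∈ tsupport f, GF.mdot (x - y) (x - y) < 0)
    (h2 : ∀ x ∈ tsupport (fun x => 1 - χ x), α ≤ GF.mdot a x → GF.mdot a x ≤ β →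
      ∀ y ∈ W, GF.mdot (x - y) (x - y) < 0)
    (h3 : ∀ x ∈ tsupport f, ∀ y ∈ W, GF.mdot (x - y) (x - y) < 0)
    (v w : D) {s : ℝ} (hs1 : α < s) (hs2 : s < β) :
    inner ℂ w (kp Q K a b s (φ f (X v))) - inner ℂ (φ' (bar f) w) (kp Q K a b s (X v)) =
      inner ℂ (X' w) (kp Q K a b s (φ f v)) -
        inner ℂ (φ' (bar f) (X' w)) (kp Q K a b s v) := by
  have hca := (H846.contDiff_mdot a).continuous
  obtain ⟨κ, hκ, hκ1⟩ := exists_kp
  have e : ∀ w z, inner ℂ w (φ f z) = inner ℂ (φ' (bar f) w) z := by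
    intro w z
    rw [← inner_conj_symm, hadj f z w hf, inner_conj_symm]
  have hcont : ∀ v w, Continuous fun s => inner ℂ w (kp Q K a b s v) := fun v w =>
    h.cont a b v w ha hb
  set g : ℝ → ℂ := fun s => (inner ℂ w (kp Q K a b s (φ f (X v))) -
    inner ℂ (φ' (bar f) w) (kp Q K a b s (X v))) -
      (inner ℂ (X' w) (kp Q K a b s (φ f v)) -
        inner ℂ (φ' (bar f) (X' w)) (kp Q K a b s v)) with hg
  have hgc : Continuous g := ((hcont _ _).sub (hcont _ _)).sub ((hcont _ _).sub (hcont _ _))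
  have h0 : g s = 0 := by
    refine f1_zero_on hgc (α := α) (β := β) (fun G hG hGs => ?_) hs1 hs2
    have hAd : Adm a b κ G := ⟨ha, hb, hab, hκ, hκ1, hG⟩
    set p : ℝ → V → ℝ := fun R x => H15.sq a b x * ctf a b κ 0 G R x with hp
    have hpt : ∀ R, 1 ≤ R → Tst (p R) := fun R hR =>
      tst_smul (contDiff_sq a b) (H755.ctf_tst hAd 0 hR)
    have hps : ∀ R x, p R x ≠ 0 → α ≤ GF.mdot a x ∧ GF.mdot a x ≤ β := by
      intro R x hx
      have h1 := hGs (GF.mdot a x) fun h => hx (by simp only [hp, ctf, h, mul_zero])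
      exact ⟨h1.1.le, h1.2.le⟩
    set p1 : ℝ → V → ℝ := fun R x => χ x * p R x with hp1
    set p2 : ℝ → V → ℝ := fun R x => (1 - χ x) * p R x with hp2
    have hp1t : ∀ R, 1 ≤ R → Tst (p1 R) := fun R hR => H755.tst_smul hχ (hpt R hR)
    have hp2t : ∀ R, 1 ≤ R → Tst (p2 R) := fun R hR =>
      H755.tst_smul (contDiff_const.sub hχ) (hpt R hR)
    have hsum : ∀ R, p R = fun x => p1 R x + p2 R x := by
      intro R
      funext x
      simp only [hp1, hp2]
      ring
    have hsl : IsClosed {x : V | α ≤ GF.mdot a x ∧ GF.mdot a x ≤ β} :=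
      (isClosed_le continuous_const hca).inter (isClosed_le hca continuous_const)
    have s1 : ∀ R, ∀ x ∈ tsupport (p1 R), x ∈ tsupport χ ∧ α ≤ GF.mdot a x ∧ GF.mdot a x ≤ β := by
      intro R x hx
      refine closure_minimal (fun z hz => ?_) ((isClosed_tsupport χ).inter hsl) hx
      have hz' : p1 R z ≠ 0 := hz
      exact ⟨subset_tsupport _ fun h => hz' (by simp only [hp1, h, zero_mul]),
        hps R z fun h => hz' (by simp only [hp1, h, mul_zero])⟩
    have s2 : ∀ R, ∀ x ∈ tsupport (p2 R), x ∈ tsupport (fun x => 1 - χ x) ∧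
        α ≤ GF.mdot a x ∧ GF.mdot a x ≤ β := by
      intro R x hx
      refine closure_minimal (fun z hz => ?_)
        ((isClosed_tsupport (fun x => 1 - χ x)).inter hsl) hx
      have hz' : p2 R z ≠ 0 := hz
      exact ⟨subset_tsupport _ fun h => hz' (by
          have h' : 1 - χ z = 0 := h
          simp only [hp2, h', zero_mul]),
        hps R z fun h => hz' (by simp only [hp2, h, mul_zero])⟩
    have hR : ∀ R, 1 ≤ R → inner ℂ w (tq T a (p R) (φ f (X v))) -
        inner ℂ (φ' (bar f) w) (tq T a (p R) (X v)) =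
        inner ℂ (X' w) (tq T a (p R) (φ f v)) -
          inner ℂ (φ' (bar f) (X' w)) (tq T a (p R) v) := by
      intro R hR
      have k := tq_comm_R hT (a := a) (hp1t R hR) (hp2t R hR) (hsum R) hφ hf
        (W := W) (fun x hx y hy => h1 x (s1 R x hx).1 (s1 R x hx).2.1 (s1 R x hx).2.2 y hy)
        (fun x hx y hy => h2 x (s2 R x hx).1 (s2 R x hx).2.1 (s2 R x hx).2.2 y hy)
        h3 hX v
      have k2 := congrArg (fun z => inner ℂ w z) k
      simp only [inner_sub_right] at k2
      rw [← hX.adj', inner_sub_right] at k2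
      rw [e, e (X' w)] at k2
      exact k2
    have lim : ∀ v z : D, Tendsto (fun R => inner ℂ z (tq T a (p R) v)) atTop
        (𝓝 (∫ u, (G u : ℂ) * inner ℂ z (kp Q K a b u v))) := by
      intro v z
      have h1 := h.mom a b κ 0 G v z hAd
      refine h1.congr fun R => ?_
      unfold tq
      congr 2
      funext m n x
      simp only [hp]
      ring
    have l1 := lim (φ f (X v)) w
    have l2 := lim (X v) (φ' (bar f) w)
    have l3 := lim (φ f v) (X' w)
    have l4 := lim v (φ' (bar f) (X' w))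
    have l6 := (l1.sub l2).congr' (f₂ := fun R => inner ℂ (X' w) (tq T a (p R) (φ f v)) -
        inner ℂ (φ' (bar f) (X' w)) (tq T a (p R) v)) (by
      filter_upwards [eventually_ge_atTop (1:ℝ)] with R hR1
      exact hR R hR1)
    have l7 := tendsto_nhds_unique l6 (l3.sub l4)
    have i1 := H746.tst_intg hG (hcont (φ f (X v)) w)
    have i2 := H746.tst_intg hG (hcont (X v) (φ' (bar f) w))
    have i3 := H746.tst_intg hG (hcont (φ f v) (X' w))
    have i4 := H746.tst_intg hG (hcont v (φ' (bar f) (X' w)))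
    have e5 : (fun u => (G u : ℂ) * g u) = fun u =>
        ((G u : ℂ) * inner ℂ w (kp Q K a b u (φ f (X v))) -
          (G u : ℂ) * inner ℂ (φ' (bar f) w) (kp Q K a b u (X v))) -
        ((G u : ℂ) * inner ℂ (X' w) (kp Q K a b u (φ f v)) -
          (G u : ℂ) * inner ℂ (φ' (bar f) (X' w)) (kp Q K a b u v)) := by
      funext u
      simp only [hg]
      ring
    have i12 : Integrable fun u => (G u : ℂ) * inner ℂ w (kp Q K a b u (φ f (X v))) -
          (G u : ℂ) * inner ℂ (φ' (bar f) w) (kp Q K a b u (X v)) := i1.sub i2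
    have i34 : Integrable fun u => (G u : ℂ) * inner ℂ (X' w) (kp Q K a b u (φ f v)) -
          (G u : ℂ) * inner ℂ (φ' (bar f) (X' w)) (kp Q K a b u v) := i3.sub i4
    rw [e5, integral_sub i12 i34, integral_sub i1 i2, integral_sub i3 i4, l7, sub_self]
  exact sub_eq_zero.1 h0

end

lemma pos_bound {E : Set V} (hE : IsCompact E) {F : V → ℝ} (hF : Continuous F)
    (hp : ∀ x ∈ E, 0 < F x) : ∃ ε > 0, ∀ x ∈ E, ε ≤ F x := by
  rcases E.eq_empty_or_nonempty with h | h
  · exact ⟨1, one_pos, fun x hx => by rw [h] at hx; exact hx.elim⟩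
  · obtain ⟨x, hx, hm⟩ := hE.exists_isMinOn h hF.continuousOn
    exact ⟨F x, hp x hx, fun y hy => hm hy⟩

/-- **Net locality of the second moments.** -/
theorem nm_loc (hT : Q.IsStress T) (h : NullMom Q T A K) {φ : GF.Fld D} (hφ : Q.bose φ)
    (hherm : ∀ f v w, GF.IsTest f → inner ℂ (φ f v) w = inner ℂ v (φ (bar f) w))
    {a c y : V} (ha : IsNull a) (hc : IsNull c) (hac : 0 < GF.mdot a c) (hy : GF.mdot a y = 0)
    {B : GF.Fld D} (hB : Q.fld B) {f g : Fn}
    (hfg : (In (Wdg a c y) f ∧ In (Wdg c a y) g) ∨ (In (Wdg c a y) f ∧ In (Wdg a c y) g))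
    (v : D) : K a (φ f (B g v)) - φ f (K a (B g v)) = B g (K a (φ f v) - φ f (K a v)) := by
  set b : V := (GF.mdot a c)⁻¹ • c with hbd
  have hr : 0 < (GF.mdot a c)⁻¹ := inv_pos.2 hac
  have hb : IsNull b := by
    refine ⟨?_, mul_pos hr hc.2⟩
    rw [hbd, md_smul, md_smul_l, hc.1]
    ring
  have hab : GF.mdot a b = 1 := by rw [hbd, md_smul, inv_mul_cancel₀ hac.ne']
  have hbz : ∀ z, GF.mdot b z = (GF.mdot a c)⁻¹ * GF.mdot c z := fun z => by
    rw [hbd, md_smul_l]
  set γ : ℝ := GF.mdot b y with hγ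
  have hca := (H846.contDiff_mdot a).continuous
  have hcb := (H846.contDiff_mdot b).continuous
  have w1 : ∀ x ∈ Wdg a c y, GF.mdot a x < 0 ∧ γ < GF.mdot b x := by
    intro x hx
    have h1 := hx.1
    have h2 := hx.2
    rw [md_sub, hy, sub_zero] at h1
    refine ⟨h1, ?_⟩
    have h3 := mul_pos hr h2
    rw [← hbz, md_sub] at h3
    linarith
  have w2 : ∀ x ∈ Wdg c a y, 0 < GF.mdot a x ∧ GF.mdot b x < γ := by
    intro x hx
    have h1 := hx.2
    have h2 := hx.1
    rw [md_sub, hy, sub_zero] at h1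
    refine ⟨h1, ?_⟩
    have h3 := mul_neg_of_pos_of_neg hr h2
    rw [← hbz, md_sub] at h3
    linarith
  -- the adjoint of `B`
  obtain ⟨B', hB', hadj⟩ := Q.adj B hB
  have lin : ∀ u z : D, B g (u - z) = B g u - B g z := by
    intro u z
    have hgt : GF.IsTest g := by rcases hfg with h | h <;> exact h.2.1
    obtain ⟨G, rfl⟩ := exists_fl hgt
    have h1 := fld_add hB G (u - z) z
    rw [sub_add_cancel] at h1
    rw [h1, add_sub_cancel_right]
  have fin : ∀ {E : Set V}, In E g → GF.IsTest f → (∀ {W : Set V} {X X' : D → D}, Al Q W X X' →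
      W = tsupport g → ∀ w : D,
      inner ℂ w (kp Q K a b 0 (φ f (X v))) - inner ℂ (φ (bar f) w) (kp Q K a b 0 (X v)) =
      inner ℂ (X' w) (kp Q K a b 0 (φ f v)) - inner ℂ (φ (bar f) (X' w)) (kp Q K a b 0 v)) →
      K a (φ f (B g v)) - φ f (K a (B g v)) = B g (K a (φ f v) - φ f (K a v)) := by
    intro E hg hf key
    have hX : Al Q (tsupport g) (fun v => B g v) (fun v => B' (bar g) v) :=
      Al.fld B B' g _ _ hB hB' hadj ⟨hg.1, hg.2.1, subset_rfl⟩ Al.one
    have e : ∀ w z, inner ℂ w (φ f z) = inner ℂ (φ (bar f) w) z := by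
      intro w z
      rw [← inner_conj_symm, hherm f z w hf, inner_conj_symm]
    have e' : ∀ w z, inner ℂ w (B g z) = inner ℂ (B' (bar g) w) z := by
      intro w z
      rw [← inner_conj_symm, hadj g z w hg.1, inner_conj_symm]
    have hk : ∀ u : D, kp Q K a b 0 u = K a u := by
      intro u
      unfold kp
      rw [zero_smul, neg_zero, U0, U0]
    refine ext_inner_left ℂ fun w => ?_
    have h1 := key hX rfl w
    simp only [hk] at h1
    rw [← e, ← e, ← e', ← e'] at h1
    rw [inner_sub_right, lin, inner_sub_right]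
    exact h1
  rcases hfg with ⟨hf, hg⟩ | ⟨hf, hg⟩
  · obtain ⟨e1, p1, q1⟩ := pos_bound hf.2.1 (F := fun x => -GF.mdot a x) hca.neg
      fun x hx => neg_pos.2 (w1 x (hf.2.2 hx)).1
    obtain ⟨e2, p2, q2⟩ := pos_bound hf.2.1 (F := fun x => GF.mdot b x - γ)
      (hcb.sub continuous_const) fun x hx => sub_pos.2 (w1 x (hf.2.2 hx)).2
    obtain ⟨e3, p3, q3⟩ := pos_bound hg.2.1 (F := fun x => GF.mdot a x) hca
      fun x hx => (w2 x (hg.2.2 hx)).1
    obtain ⟨e4, p4, q4⟩ := pos_bound hg.2.1 (F := fun x => γ - GF.mdot b x)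
      (continuous_const.sub hcb) fun x hx => sub_pos.2 (w2 x (hg.2.2 hx)).2
    obtain ⟨δ, hδ, d1, d2, d3, d4⟩ : ∃ δ > 0, δ < e1 ∧ δ < e2 ∧ δ < e3 ∧ δ < e4 := by
      refine ⟨min (min e1 e2) (min e3 e4) / 2, by positivity, ?_, ?_, ?_, ?_⟩ <;>
      · have m1 := min_le_left (min e1 e2) (min e3 e4)
        have m2 := min_le_right (min e1 e2) (min e3 e4)
        have m3 := min_le_left e1 e2
        have m4 := min_le_right e1 e2
        have m5 := min_le_left e3 e4
        have m6 := min_le_right e3 e4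
        have m7 : 0 < min (min e1 e2) (min e3 e4) := by positivity
        linarith
    have hχ : ContDiff ℝ ∞ fun x : V => H746.chi ((GF.mdot b x - γ) / δ) :=
      H746.chi_smooth.comp (((H846.contDiff_mdot b).sub contDiff_const).div_const δ)
    have k1 : ∀ x ∈ tsupport (fun x : V => H746.chi ((GF.mdot b x - γ) / δ)),
        GF.mdot b x ≤ γ + δ := by
      intro x hx
      refine closure_minimal (fun z hz => ?_) (isClosed_le hcb continuous_const) hx
      by_contra hle
      have hle' : γ + δ < GF.mdot b z := not_le.1 hle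
      exact hz (H746.chi_ge (by rw [le_div_iff₀ hδ]; linarith))
    have k2 : ∀ x ∈ tsupport (fun x : V => 1 - H746.chi ((GF.mdot b x - γ) / δ)),
        γ - δ ≤ GF.mdot b x := by
      intro x hx
      refine closure_minimal (fun z hz => ?_) (isClosed_le continuous_const hcb) hx
      by_contra hle
      have hle' : GF.mdot b z < γ - δ := not_le.1 hle
      refine hz ?_
      show 1 - H746.chi ((GF.mdot b z - γ) / δ) = 0
      rw [H746.chi_le (by rw [div_le_iff₀ hδ]; linarith), sub_self]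
    refine fin hg hf.1 fun {W X X'} hX hW w => ?_
    refine kp_gen ha hb hab hT h hφ hherm hf.1 hX hχ (α := -δ) (β := δ) ?_ ?_ ?_ v w
      (by linarith) hδ
    · intro x hx h1 h2 z hz
      have := q1 z hz
      have := q2 z hz
      have := k1 x hx
      exact sep_pm ha hb hab (by linarith) (by linarith)
    · intro x hx h1 h2 z hz
      rw [hW] at hz
      have := q3 z hz
      have := q4 z hz
      have := k2 x hx
      exact sep_mp ha hb hab (by linarith) (by linarith)
    · intro x hx z hz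
      rw [hW] at hz
      have := q1 x hx
      have := q2 x hx
      have := q3 z hz
      have := q4 z hz
      exact sep_mp ha hb hab (by linarith) (by linarith)
  · obtain ⟨e1, p1, q1⟩ := pos_bound hg.2.1 (F := fun x => -GF.mdot a x) hca.neg
      fun x hx => neg_pos.2 (w1 x (hg.2.2 hx)).1
    obtain ⟨e2, p2, q2⟩ := pos_bound hg.2.1 (F := fun x => GF.mdot b x - γ)
      (hcb.sub continuous_const) fun x hx => sub_pos.2 (w1 x (hg.2.2 hx)).2
    obtain ⟨e3, p3, q3⟩ := pos_bound hf.2.1 (F := fun x => GF.mdot a x) hca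
      fun x hx => (w2 x (hf.2.2 hx)).1
    obtain ⟨e4, p4, q4⟩ := pos_bound hf.2.1 (F := fun x => γ - GF.mdot b x)
      (continuous_const.sub hcb) fun x hx => sub_pos.2 (w2 x (hf.2.2 hx)).2
    obtain ⟨δ, hδ, d1, d2, d3, d4⟩ : ∃ δ > 0, δ < e1 ∧ δ < e2 ∧ δ < e3 ∧ δ < e4 := by
      refine ⟨min (min e1 e2) (min e3 e4) / 2, by positivity, ?_, ?_, ?_, ?_⟩ <;>
      · have m1 := min_le_left (min e1 e2) (min e3 e4)
        have m2 := min_le_right (min e1 e2) (min e3 e4)
        have m3 := min_le_left e1 e2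
        have m4 := min_le_right e1 e2
        have m5 := min_le_left e3 e4
        have m6 := min_le_right e3 e4
        have m7 : 0 < min (min e1 e2) (min e3 e4) := by positivity
        linarith
    have hχ : ContDiff ℝ ∞ fun x : V => 1 - H746.chi ((GF.mdot b x - γ) / δ) :=
      contDiff_const.sub
        (H746.chi_smooth.comp (((H846.contDiff_mdot b).sub contDiff_const).div_const δ))
    have k1 : ∀ x ∈ tsupport (fun x : V => 1 - (1 - H746.chi ((GF.mdot b x - γ) / δ))),
        GF.mdot b x ≤ γ + δ := by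
      intro x hx
      refine closure_minimal (fun z hz => ?_) (isClosed_le hcb continuous_const) hx
      by_contra hle
      have hle' : γ + δ < GF.mdot b z := not_le.1 hle
      refine hz ?_
      show 1 - (1 - H746.chi ((GF.mdot b z - γ) / δ)) = 0
      rw [H746.chi_ge (by rw [le_div_iff₀ hδ]; linarith)]
      ring
    have k2 : ∀ x ∈ tsupport (fun x : V => 1 - H746.chi ((GF.mdot b x - γ) / δ)),
        γ - δ ≤ GF.mdot b x := by
      intro x hx
      refine closure_minimal (fun z hz => ?_) (isClosed_le continuous_const hcb) hx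
      by_contra hle
      have hle' : GF.mdot b z < γ - δ := not_le.1 hle
      refine hz ?_
      show 1 - H746.chi ((GF.mdot b z - γ) / δ) = 0
      rw [H746.chi_le (by rw [div_le_iff₀ hδ]; linarith), sub_self]
    refine fin hg hf.1 fun {W X X'} hX hW w => ?_
    refine kp_gen ha hb hab hT h hφ hherm hf.1 hX hχ (α := -δ) (β := δ) ?_ ?_ ?_ v w
      (by linarith) hδ
    · intro x hx h1 h2 z hz
      have := q3 z hz
      have := q4 z hz
      have := k2 x hx
      exact sep_mp ha hb hab (by linarith) (by linarith)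
    · intro x hx h1 h2 z hz
      rw [hW] at hz
      have := q1 z hz
      have := q2 z hz
      have := k1 x hx
      exact sep_pm ha hb hab (by linarith) (by linarith)
    · intro x hx z hz
      rw [hW] at hz
      have := q1 z hz
      have := q2 z hz
      have := q3 x hx
      have := q4 x hx
      exact sep_pm ha hb hab (by linarith) (by linarith)

/-! ### Bounds on translates -/

lemma A_fin (R : Rep Q A) {ι : Type*} (s : Finset ι) (c : ι → ℝ) (r : ι → ℝ) (X : ι → V → V)
    (hX : ∀ i, IsSim (r i) (X i)) (v : D) : (∃ r', IsSim r' fun z => ∑ i ∈ s, c i • X i z) ∧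
      A (fun z => ∑ i ∈ s, c i • X i z) v = ∑ i ∈ s, (c i : ℂ) • A (X i) v := by
  classical
  induction s using Finset.induction_on with
  | empty =>
    have h0 : (fun z : V => ∑ i ∈ (∅ : Finset ι), c i • X i z) = fun _ => 0 := by
      funext z
      simp
    rw [h0]
    exact ⟨⟨0, const_sim 0⟩, by rw [A_zero' R]; simp⟩
  | insert i s hi ih =>
    obtain ⟨⟨r', hr'⟩, h2⟩ := ih
    have h0 : (fun z : V => ∑ j ∈ insert i s, c j • X j z) =
        fun z => (fun z => ∑ j ∈ s, c j • X j z) z + c i • X i z := by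
      funext z
      rw [Finset.sum_insert hi, add_comm]
    rw [h0]
    refine ⟨⟨r' + c i * r i, ?_⟩, ?_⟩
    · obtain ⟨d, w, hw, hz⟩ := hr'
      obtain ⟨d', w', hw', hz'⟩ := hX i
      refine ⟨d + c i • d', fun m n => w m n + c i * w' m n, fun m n => ?_, fun z n => ?_⟩
      · have h1 := hw m n
        have h2 := hw' m n
        linear_combination h1 + c i * h2
      · show (∑ j ∈ s, c j • X j z) n + c i * X i z n = _
        rw [show (∑ j ∈ s, c j • X j z) n = d n + r' * z n + ∑ m, z m * w m n from hz z n,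
          show X i z n = d' n + r i * z n + ∑ m, z m * w' m n from hz' z n]
        simp only [Pi.add_apply, Pi.smul_apply, smul_eq_mul, Fin.sum_univ_four]
        ring
    · rw [R.add _ _ (c i) _ _ v hr' (hX i), h2, Finset.sum_insert hi, add_comm]

/-- the linear part of `XX a x` -/
def Lx (a e : V) : V → V := fun z =>
  -(2 * GF.mdot a e) • z + (2 * GF.mdot e z) • a - (2 * GF.mdot a z) • e

lemma Lx_sim (a e : V) : IsSim (-(2 * GF.mdot a e)) (Lx a e) := by
  refine ⟨0, fun m n => 2 * GF.eta m * (e m * a n - a m * e n), fun m n => by ring,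
    fun z n => ?_⟩
  unfold Lx
  simp only [Pi.add_apply, Pi.sub_apply, Pi.smul_apply, smul_eq_mul, GF.mdot, Fin.sum_univ_four,
    Pi.zero_apply]
  ring

lemma XX_bd (R : Rep Q A) (a : V) (v : D) : ∃ C : ℝ, ∀ x : V,
    ‖A (H755.XX a x) v‖ ≤ C * (1 + ‖x‖) ^ 2 := by
  set X : Ix ⊕ (Ix × Ix) → V → V := fun i => match i with
    | Sum.inl m => Lx a (bas m 1)
    | Sum.inr (m, n) => fun _ => (2 * GF.mdot a (bas m 1)) • bas n 1 -
        GF.mdot (bas m 1) (bas n 1) • a with hX
  set r : Ix ⊕ (Ix × Ix) → ℝ := fun i => match i with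
    | Sum.inl m => -(2 * GF.mdot a (bas m 1))
    | Sum.inr _ => 0 with hr
  have hXs : ∀ i, IsSim (r i) (X i) := by
    rintro (m | ⟨m, n⟩)
    · exact Lx_sim a _
    · exact const_sim _
  refine ⟨∑ i, ‖A (X i) v‖, fun x => ?_⟩
  set c : Ix ⊕ (Ix × Ix) → ℝ := fun i => match i with
    | Sum.inl m => x m
    | Sum.inr (m, n) => x m * x n with hc
  have hf : H755.XX a x = fun z => ∑ i, c i • X i z := by
    funext z n
    simp only [hX, hc, Fintype.sum_sum_type, Fintype.sum_prod_type, Fin.sum_univ_four, H755.XX,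
      cK, Lx, Pi.add_apply, Pi.sub_apply, Pi.smul_apply, smul_eq_mul, GF.mdot]
    fin_cases n <;> simp [bas] <;> ring
  rw [hf, (A_fin R Finset.univ c r X hXs v).2]
  refine (norm_sum_le _ _).trans ?_
  rw [Finset.sum_mul]
  refine Finset.sum_le_sum fun i _ => ?_
  rw [norm_smul, Complex.norm_real, mul_comm]
  refine mul_le_mul_of_nonneg_left ?_ (norm_nonneg _)
  have hx0 : 0 ≤ ‖x‖ := norm_nonneg x
  rcases i with m | ⟨m, n⟩
  · have h1 : ‖x m‖ ≤ ‖x‖ := norm_le_pi_norm x m
    show ‖x m‖ ≤ _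
    nlinarith
  · have h1 : ‖x m‖ ≤ ‖x‖ := norm_le_pi_norm x m
    have h2 : ‖x n‖ ≤ ‖x‖ := norm_le_pi_norm x n
    show ‖x m * x n‖ ≤ _
    rw [norm_mul]
    have h3 : ‖x m‖ * ‖x n‖ ≤ ‖x‖ * ‖x‖ := mul_le_mul h1 h2 (norm_nonneg _) hx0
    nlinarith

/-- the second moments are polynomially bounded on translates -/
theorem nm_lb (hT : Q.IsStress T) (hJ : IsVirial Q T J) (h : NullMom Q T A K) : LB Q K := by
  intro a v ha
  obtain ⟨b, hb, hab⟩ := H755.exists_dual ha
  have k := kc_all hT hJ h ha hb hab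
  obtain ⟨C, hC⟩ := XX_bd h.toRep a v
  set E : ℝ := ∑ m, |a m| with hE
  set N : ℝ := ‖H121.Cop Q A K a b v‖ with hN
  refine ⟨‖K a v‖ + |C| + 2 * E * N, 2, fun x => ?_⟩
  have h1 := k.tra (-x) v
  rw [neg_neg] at h1
  have hx0 : 0 ≤ ‖x‖ := norm_nonneg x
  have hE0 : 0 ≤ E := Finset.sum_nonneg fun m _ => abs_nonneg _
  have hN0 : 0 ≤ N := norm_nonneg _
  have e1 : ‖K a (Q.U 1 GF.one x v)‖ = ‖Q.U 1 GF.one (-x) (K a (Q.U 1 GF.one x v))‖ := by
    have h2 := Q.U_inner 1 GF.one (-x) (K a (Q.U 1 GF.one x v)) (K a (Q.U 1 GF.one x v)) one_pos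
      Vale.Agent.P352.isLor_one
    rw [inner_self_eq_norm_sq_to_K, inner_self_eq_norm_sq_to_K] at h2
    have h3 : ‖Q.U 1 GF.one (-x) (K a (Q.U 1 GF.one x v))‖ ^ 2 =
        ‖K a (Q.U 1 GF.one x v)‖ ^ 2 := by exact_mod_cast h2
    exact ((sq_eq_sq₀ (norm_nonneg _) (norm_nonneg _)).1 h3).symm
  have e2 : ‖A (H148.XK a (-x)) v‖ ≤ C * (1 + ‖x‖) ^ 2 := by
    have h2 := hC (-x)
    rw [norm_neg] at h2
    exact h2
  have e3 : |GF.mdot a (-x)| ≤ E * ‖x‖ := by
    refine Vale.Agent.P352.H496.abs_mdot_le a (-x) fun m => ?_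
    have h2 : ‖x m‖ ≤ ‖x‖ := norm_le_pi_norm x m
    simpa using h2
  have e4 : ‖((2 * GF.mdot a (-x) : ℝ) : ℂ) • H121.Cop Q A K a b v‖ ≤ 2 * E * N * (1 + ‖x‖) ^ 2 := by
    rw [norm_smul, Complex.norm_real, Real.norm_eq_abs, abs_mul, abs_two, ← hN]
    have h2 : 2 * |GF.mdot a (-x)| * N ≤ 2 * (E * ‖x‖) * N := by
      refine mul_le_mul_of_nonneg_right ?_ hN0
      linarith
    have h3 : ‖x‖ ≤ (1 + ‖x‖) ^ 2 := by nlinarith
    have h4 : 2 * (E * ‖x‖) * N ≤ 2 * (E * (1 + ‖x‖) ^ 2) * N := by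
      refine mul_le_mul_of_nonneg_right ?_ hN0
      have := mul_le_mul_of_nonneg_left h3 hE0
      linarith
    linarith
  rw [e1, h1]
  refine (norm_sub_le _ _).trans ?_
  have e5 : ‖K a v + A (H148.XK a (-x)) v‖ ≤ (‖K a v‖ + |C|) * (1 + ‖x‖) ^ 2 := by
    refine (norm_add_le _ _).trans ?_
    have h2 : 1 ≤ (1 + ‖x‖) ^ 2 := by nlinarith
    have h3 : C * (1 + ‖x‖) ^ 2 ≤ |C| * (1 + ‖x‖) ^ 2 :=
      mul_le_mul_of_nonneg_right (le_abs_self C) (by positivity)
    have h4 : ‖K a v‖ ≤ ‖K a v‖ * (1 + ‖x‖) ^ 2 := le_mul_of_one_le_right (norm_nonneg _) h2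
    linarith
  linarith

/-- **The second moments of the null energy are null generators.** -/
theorem nullGen_mom (hT : Q.IsStress T) (hJ : IsVirial Q T J) (h : NullMom Q T A K) :
    NullGen Q T J A K where
  toKS := NF.ks_of hT h
  bdd := nm_lb hT hJ h
  locT m n := fun B a c y f g v hB ha hc hac hy hfg =>
    nm_loc hT h (hT.bose m n) (hT.herm m n) ha hc hac hy hB hfg v
  locJ m := fun B a c y f g v hB ha hc hac hy hfg =>
    nm_loc hT h (hJ.bose m) (hJ.herm m) ha hc hac hy hB hfg v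

end Vale.Agent.P352.ND

end
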