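import Vale.Agent.P352.ND.NG
import Vale.Agent.P352.ND.S1

/-!
# P352 NG: the generators of the null deformations of a net are null generators
-/

set_option linter.all false

noncomputable section

open MeasureTheory Filter Topology

namespace Vale.Agent.P352.ND

open GF (Ix V Fn Fld Theory IsLor bas o sim)
open H246 H496 H755 H15 H834

variable {D : Type*} [NormedAddCommGroup D] [InnerProductSpace ℂ D]
variable {Q : GF.Theory D} {T : Ix → Ix → GF.Fld D} {J : Ix → GF.Fld D}
  {A : (V → V) → D → D} {H : D → D} {alg : Set V → Set (D → D)}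
  {S : V → ℝ → D → D} {G : V → D → D}

/-- net locality of the generators of the null deformations -/
theorem locG_net (N : CNet Q H alg S) (Gg : Gnr Q alg S G) {φ : GF.Fld D} (hφ : Q.fld φ) :
    LocG Q G φ := by
  intro B a c y f g v hB ha hc hac hy hfg
  have hx : GF.mdot a y = GF.mdot a (0 : V) := by
    rw [hy]
    simp [GF.mdot]
  have e : ∀ u : D, Gx Q G a 0 u = G a u := by
    intro u
    unfold Gx
    rw [neg_zero, Uone, Uone]
  rcases hfg with ⟨hf, hg⟩ | ⟨hf, hg⟩
  · have h1 := net_comm N Gg ha hc hac hx (N.fld _ φ f hφ hf) (N.fld _ B g hB hg) v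
    simp only [e] at h1
    exact h1
  · have h1 := net_comm' N Gg ha hc hac hx (N.fld _ φ f hφ hf) (N.fld _ B g hB hg) v
    simp only [e] at h1
    exact h1

/-- **The generators of the null deformations of a net are null generators.** -/
theorem nullGen_net (hT : Q.IsStress T) (hJ : IsVirial Q T J) (N : CNet Q H alg S)
    (Gg : Gnr Q alg S G) (R : H15.Rep Q A) : NullGen Q T J A G where
  toKS := ks_of N Gg R
  bdd := lb_of N Gg
  locT m n := locG_net N Gg (Q.bose_fld _ (hT.bose m n))
  locJ m := locG_net N Gg (Q.bose_fld _ (hJ.bose m))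

end Vale.Agent.P352.ND

end
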