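import Vale.Agent.P352.H496.LLoc
import Vale.Agent.P352.H496.LTr

set_option linter.all false

/-!
# Families of distributions that commute with operators localized in opposite wedges
-/

noncomputable section

open MeasureTheory SchwartzMap Complex Filter Topology
open scoped SchwartzMap ComplexConjugate ENNReal LineDeriv

namespace Vale.Agent.P352.ND

open GF (Ix V Fn Sch ev pd bar sim bas o)
open H246 H15 H496

variable {D : Type*} [NormedAddCommGroup D] [InnerProductSpace ℂ D]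
variable {Q : GF.Theory D}

/-- `f` and `O` lie in opposite wedges that are bounded by a null hyperplane orthogonal to `a` -/
def Wsep (a : V) (f : Fn) (O : Set V) : Prop := ∃ c y : V, IsNull c ∧ 0 < GF.mdot a c ∧
  ((tsupport f ⊆ Wdg a c y ∧ O ⊆ Wdg c a y) ∨ (tsupport f ⊆ Wdg c a y ∧ O ⊆ Wdg a c y))

/-- The operators `K a` act locally on the fields `J m` in opposite wedges bounded by null
hyperplanes orthogonal to `a`. -/
def NLoc (Q : GF.Theory D) (J : Ix → GF.Fld D) (K : V → D → D) : Prop :=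
  ∀ a m O P P' f v, IsNull a → IsCompact O → LocOp Q O P P' → In (cc O) f → Wsep a f O →
    P (K a (J m f v)) - P (J m f (K a v)) = K a (J m f (P v)) - J m f (K a (P v))

/-- families of operator valued distributions, labelled by null pairs, with the same vacuum
vectors, that commute with localized operators in opposite wedges -/
structure WFam (Q : GF.Theory D) (Z : V → V → GF.Fld D) : Prop where
  adj : ∀ a b f v w, NPr a b → GF.IsTest f →
    inner ℂ (Z a b f v) w = inner ℂ v (Z a b (bar f) w)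
  lin : ∀ a b (f g : Fn) (c : ℝ) v, NPr a b → GF.IsTest f → GF.IsTest g →
    Z a b (fun x => f x + c * g x) v = Z a b f v + (c : ℂ) • Z a b g v
  cont : ∀ a b v, NPr a b → Continuous fun g => Z a b (ev g) v
  vac : ∀ a b a' b' f, NPr a b → NPr a' b' → GF.IsTest f → Z a b f Q.vac = Z a' b' f Q.vac
  com : ∀ a b O P P' f v, NPr a b → IsCompact O → LocOp Q O P P' → In (cc O) f →
    Wsep a f O → Wsep b f O → P (Z a b f v) = Z a b f (P v)

/-- the reflected vector -/
def rfv (a : V) : V := fun n => GF.eta n * a n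

lemma mdot_rfv (a x : V) : GF.mdot (rfv a) x = a 0 * x 0 + a 1 * x 1 + a 2 * x 2 + a 3 * x 3 := by
  simp [GF.mdot, rfv, Fin.sum_univ_four, GF.eta, o]

lemma rfv_null {a : V} (ha : IsNull a) : IsNull (rfv a) := by
  refine ⟨?_, ?_⟩
  · have h1 := ha.1
    simp [GF.mdot, rfv, Fin.sum_univ_four, GF.eta, o] at h1 ⊢
    linarith
  · have h2 : 0 < a 0 := ha.2
    show 0 < rfv a 0
    simpa [rfv, GF.eta, o] using h2

lemma rfv_pos {a : V} (ha : IsNull a) : 0 < GF.mdot a (rfv a) := by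
  have h2 : 0 < a 0 := ha.2
  have h1 : GF.mdot a (rfv a) = a 0 * a 0 + a 1 * a 1 + a 2 * a 2 + a 3 * a 3 := by
    simp [GF.mdot, rfv, Fin.sum_univ_four, GF.eta, o]
  rw [h1]
  have := mul_pos h2 h2
  nlinarith [mul_self_nonneg (a 1), mul_self_nonneg (a 2), mul_self_nonneg (a 3)]

lemma mdot_rfv_ed (a : V) (t : ℝ) : GF.mdot (rfv a) (ed t) = -GF.mdot a (ed t) := by
  rw [mdot_rfv, mdot_ed]
  simp [ed]

/-- a big set of points that are spacelike to a compact set, on one side of null hyperplanes -/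
lemma exists_big2 {K : Set V} (hK : IsCompact K) {ι : Type*} [Fintype ι] (c : ι → V)
    (hc : ∀ i, IsNull (c i)) : ∃ (t M : ℝ) (S : Set V), Big (MW S) ∧ S ⊆ cc K ∧
      ∀ i, GF.mdot (c i) (ed t) ≠ 0 ∧ (∀ x ∈ K, |GF.mdot (c i) x| < M) ∧ ∀ y ∈ S,
        (0 < GF.mdot (c i) (ed t) → M < GF.mdot (c i) y) ∧
        (GF.mdot (c i) (ed t) < 0 → GF.mdot (c i) y < -M) := by
  obtain ⟨t, ht⟩ := (eventually_all.2 fun i => ev_dir (hc i)).exists
  set e : V := ed t with he
  obtain ⟨ρ0, hρ0⟩ := hK.isBounded.exists_norm_le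
  set ρ : ℝ := max ρ0 0 with hρ
  have hρn : 0 ≤ ρ := le_max_right _ _
  have hKρ : ∀ k ∈ K, ∀ m, |k m| ≤ ρ := fun k hk m =>
    ((norm_le_pi_norm k m).trans (hρ0 k hk)).trans (le_max_left _ _)
  set N : ι → ℝ := fun i => ∑ m, |c i m| with hN
  have hN0 : ∀ i, 0 ≤ N i := fun i => Finset.sum_nonneg fun m _ => abs_nonneg _
  set M : ℝ := 1 + ∑ i, N i * ρ with hM
  have hMi : ∀ i, N i * ρ < M := fun i => by
    have : N i * ρ ≤ ∑ i, N i * ρ :=
      Finset.single_le_sum (f := fun i => N i * ρ) (fun j _ => mul_nonneg (hN0 j) hρn)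
        (Finset.mem_univ i)
    rw [hM]
    linarith
  refine ⟨t, M, {y | y ∈ cc K ∧ ∀ i, (0 < GF.mdot (c i) e → M < GF.mdot (c i) y) ∧
    (GF.mdot (c i) e < 0 → GF.mdot (c i) y < -M)}, ?_, fun y hy => hy.1, fun i =>
    ⟨ht i, fun x hx => (H496.abs_mdot_le (c i) x (hKρ x hx)).trans_lt (hMi i), fun y hy => hy.2 i⟩⟩
  intro r
  have hr : r ≤ |r| := le_abs_self r
  set E : ℝ := ∑ m, |e m| with hE
  set R : ℝ := ρ + |r| with hR
  have h1 : ∀ i, ∀ᶠ L : ℝ in atTop, M + N i * |r| < L * |GF.mdot (c i) e| := fun i =>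
    (tendsto_id.atTop_mul_const (abs_pos.2 (ht i))).eventually_gt_atTop _
  have h2 : ∀ᶠ L : ℝ in atTop, 4 * R ^ 2 + 2 * L * (E * R) - L * L < 0 := by
    filter_upwards [eventually_gt_atTop (2 * (E * R) + 4 * R ^ 2 + 1), eventually_gt_atTop 1]
      with L hL hL1
    have hE0 : 0 ≤ E := Finset.sum_nonneg fun m _ => abs_nonneg _
    have hR0 : 0 ≤ R := add_nonneg hρn (abs_nonneg _)
    have h3 : 0 ≤ E * R := mul_nonneg hE0 hR0
    nlinarith [sq_nonneg R]
  obtain ⟨L, hL1, hL2, hL0⟩ :=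
    ((eventually_all.2 h1).and (h2.and (eventually_gt_atTop (0 : ℝ)))).exists
  refine ⟨WithLp.toLp 2 (L • e), fun x hx => ?_⟩
  have hx' : ∀ m, |(x.ofLp - L • e) m| ≤ |r| := fun m => (hx m).trans hr
  refine ⟨fun k hk => ?_, fun i => ?_⟩
  · set z : V := k - (x.ofLp - L • e) with hz
    have hzR : ∀ m, |z m| ≤ R := fun m => by
      have : z m = k m - (x.ofLp - L • e) m := rfl
      rw [this]
      exact (abs_sub _ _).trans (add_le_add (hKρ k hk m) (hx' m))
    have e1 : k - x.ofLp = z + (-L) • e := by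
      rw [hz, neg_smul]
      abel
    rw [e1, mdot_add_left', mdot_smul_left', mdot_comm'' z, mdot_comm'' e, mdot_add_left',
      mdot_smul_left', mdot_add_left', mdot_smul_left', mdot_comm'' e z]
    have b1 := abs_le.1 (H496.abs_mdot_le e z hzR)
    have b2 : |GF.mdot z z| ≤ 4 * R ^ 2 := by
      refine (H496.abs_mdot_le z z hzR).trans ?_
      have h5 : ∑ m, |z m| ≤ 4 * R := by
        refine (Finset.sum_le_sum fun m _ => hzR m).trans ?_
        simp
      have hR0 : 0 ≤ R := add_nonneg hρn (abs_nonneg _)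
      nlinarith
    have b3 := (abs_le.1 b2).2
    have b4 := mdot_ed_ed t
    rw [mdot_comm'' z e]
    rw [← he] at b4
    nlinarith [b1.1, b1.2, mul_nonneg hL0.le hL0.le, mul_pos hL0 hL0]
  · have b1 := abs_le.1 (H496.abs_mdot_le (c i) _ hx')
    have e1 : GF.mdot (c i) x.ofLp = L * GF.mdot (c i) e + GF.mdot (c i) (x.ofLp - L • e) := by
      have : x.ofLp = L • e + (x.ofLp - L • e) := by abel
      conv_lhs => rw [this]
      rw [mdot_comm'', mdot_add_left', mdot_smul_left', mdot_comm'' e, mdot_comm'' (x.ofLp - L • e)]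
    rw [e1]
    have h3 := hL1 i
    constructor
    · intro hp
      rw [abs_of_pos hp] at h3
      linarith [b1.1]
    · intro hp
      rw [abs_of_neg hp] at h3
      linarith [b1.2]

/-- wedges from separating hyperplanes -/
lemma wsep_of {a : V} (ha : IsNull a) {f : Fn} {O : Set V} {u w : ℝ}
    (h : ((∀ x ∈ tsupport f, GF.mdot a x < u ∧ w < GF.mdot (rfv a) x) ∧
        ∀ y ∈ O, u < GF.mdot a y ∧ GF.mdot (rfv a) y < w) ∨
      ((∀ x ∈ tsupport f, u < GF.mdot a x ∧ GF.mdot (rfv a) x < w) ∧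
        ∀ y ∈ O, GF.mdot a y < u ∧ w < GF.mdot (rfv a) y)) : Wsep a f O := by
  have hp := rfv_pos ha
  have hr := rfv_null ha
  set c := rfv a with hc
  set y : V := (u / GF.mdot a c) • c + (w / GF.mdot a c) • a with hy
  have e1 : GF.mdot a y = u := by
    rw [hy, mdot_comm'', mdot_add_left', mdot_smul_left', mdot_smul_left', ha.1, mdot_comm'' c a]
    field_simp
    ring
  have e2 : GF.mdot c y = w := by
    rw [hy, mdot_comm'', mdot_add_left', mdot_smul_left', mdot_smul_left', hr.1]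
    field_simp
    ring
  have hs : ∀ b x : V, GF.mdot b (x - y) = GF.mdot b x - GF.mdot b y := by
    intro b x
    have : x = (x - y) + y := by abel
    have h2 : GF.mdot b x = GF.mdot b (x - y) + GF.mdot b y := by
      conv_lhs => rw [this]
      rw [mdot_comm'', mdot_add_left', mdot_comm'' _ b, mdot_comm'' _ b]
    linarith
  refine ⟨c, y, hr, hp, ?_⟩
  rcases h with h | h
  · left
    refine ⟨fun x hx => ?_, fun x hx => ?_⟩
    · have := h.1 x hx
      refine ⟨?_, ?_⟩
      · rw [hs, e1]; linarith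
      · rw [hs, e2]; linarith
    · have := h.2 x hx
      refine ⟨?_, ?_⟩
      · rw [hs, e2]; linarith
      · rw [hs, e1]; linarith
  · right
    refine ⟨fun x hx => ?_, fun x hx => ?_⟩
    · have := h.1 x hx
      refine ⟨?_, ?_⟩
      · rw [hs, e2]; linarith
      · rw [hs, e1]; linarith
    · have := h.2 x hx
      refine ⟨?_, ?_⟩
      · rw [hs, e1]; linarith
      · rw [hs, e2]; linarith

/-- a big set of points that are spacelike to a compact set, in opposite wedges -/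
lemma exists_bigW {K : Set V} (hK : IsCompact K) {ι : Type*} [Fintype ι] (c : ι → V)
    (hc : ∀ i, IsNull (c i)) : ∃ S : Set V, Big (MW S) ∧ S ⊆ cc K ∧
      ∀ O ⊆ S, ∀ f : Fn, tsupport f ⊆ K → ∀ i, Wsep (c i) f O := by
  obtain ⟨t, M, S, hS, hSK, h⟩ := exists_big2 hK (ι := ι ⊕ ι) (Sum.elim c fun i => rfv (c i))
    (by rintro (i | i); exacts [hc i, rfv_null (hc i)])
  refine ⟨S, hS, hSK, fun O hO f hf i => ?_⟩
  obtain ⟨h1, h2, h3⟩ := h (Sum.inl i)
  obtain ⟨g1, g2, g3⟩ := h (Sum.inr i)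
  simp only [Sum.elim_inl, Sum.elim_inr] at h1 h2 h3 g1 g2 g3
  rw [mdot_rfv_ed] at g1 g3
  rcases lt_or_gt_of_ne h1 with hs | hs
  · -- `c·y < -M` and `M < rfv c·y` on `S`
    refine wsep_of (hc i) (u := -M) (w := M) (Or.inr ⟨fun x hx => ⟨?_, ?_⟩, fun y hy => ⟨?_, ?_⟩⟩)
    · exact (abs_lt.1 (h2 x (hf hx))).1
    · exact (abs_lt.1 (g2 x (hf hx))).2
    · exact (h3 y (hO hy)).2 hs
    · exact (g3 y (hO hy)).1 (by linarith)
  · refine wsep_of (hc i) (u := M) (w := -M) (Or.inl ⟨fun x hx => ⟨?_, ?_⟩, fun y hy => ⟨?_, ?_⟩⟩)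
    · exact (abs_lt.1 (h2 x (hf hx))).2
    · exact (abs_lt.1 (g2 x (hf hx))).1
    · exact (h3 y (hO hy)).1 hs
    · exact (g3 y (hO hy)).2 (by linarith)

variable {Z : V → V → GF.Fld D}

section lin

variable (h : WFam Q Z) {a b : V} (hp : NPr a b)
include h hp

lemma WFam.addv {f : Fn} (hf : GF.IsTest f) (v w : D) :
    Z a b f (v + w) = Z a b f v + Z a b f w := by
  refine ext_inner_right ℂ fun u => ?_
  rw [inner_add_left, h.adj _ _ _ _ _ hp hf, h.adj _ _ _ _ _ hp hf, h.adj _ _ _ _ _ hp hf,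
    inner_add_left]

lemma WFam.smulv {f : Fn} (hf : GF.IsTest f) (c : ℂ) (v : D) :
    Z a b f (c • v) = c • Z a b f v := by
  refine ext_inner_right ℂ fun u => ?_
  rw [inner_smul_left, h.adj _ _ _ _ _ hp hf, h.adj _ _ _ _ _ hp hf, inner_smul_left]

lemma WFam.addf (f g : 𝓢(Mink, ℂ)) (v : D) :
    Z a b (fl (f + g)) v = Z a b (fl f) v + Z a b (fl g) v := by
  have h1 := h.lin a b (fl f) (fl g) 1 v hp (isTest_fl f) (isTest_fl g)
  rw [ofReal_one, one_smul] at h1
  rw [← h1]
  congr 1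
  funext x
  simp

lemma WFam.zerof (v : D) : Z a b (fl (0 : 𝓢(Mink, ℂ))) v = 0 := by
  have h1 := h.addf hp 0 0 v
  rw [add_zero] at h1
  exact left_eq_add.1 h1

lemma WFam.contf (v : D) : Continuous fun g : 𝓢(Mink, ℂ) => Z a b (fl g) v :=
  (h.cont a b v hp).comp toSchL.continuous

end lin

/-- the operators do not depend on the null pair -/
theorem WFam.agree (h : WFam Q Z) {a b a' b' : V} (hp : NPr a b) (hp' : NPr a' b') {f : Fn}
    (hf : GF.IsTest f) (v : D) : Z a b f v = Z a' b' f v := by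
  have key : ∀ F : 𝓢(Mink, ℂ), HasCompactSupport F → Z a b (fl F) v = Z a' b' (fl F) v := by
    intro F hF
    have hK : IsCompact (tsupport (fl F)) := hasCompactSupport_fl hF
    set c : Fin 4 → V := ![a, b, a', b'] with hc
    have hcn : ∀ i, IsNull (c i) := by
      intro i
      fin_cases i
      · exact hp.1
      · exact hp.2.1
      · exact hp'.1
      · exact hp'.2.1
    obtain ⟨S, hS, hSK, hSep⟩ := exists_bigW hK c hcn
    have step : ∀ G : 𝓢(Mink, ℂ), tsupport (fl G) = tsupport (fl F) → HasCompactSupport G →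
        ∀ w, PW Q (MW S) w → Z a b (fl G) w = Z a' b' (fl G) w := by
      intro G hG hGc w hw
      induction hw with
      | vac => exact h.vac a b a' b' _ hp hp' (isTest_fl G)
      | add _ _ h1 h2 =>
        rw [h.addv hp (isTest_fl G), h.addv hp' (isTest_fl G), h1, h2]
      | smul c _ h1 =>
        rw [h.smulv hp (isTest_fl G), h.smulv hp' (isTest_fl G), h1]
      | @fld B g v hB hg _ h1 =>
        obtain ⟨B', hB', hadj⟩ := Q.adj B hB
        have hR : RelF Q B B' := relF_fld hB hB' hadj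
        have hL := hR.locOp (isTest_fl g)
        have hO : IsCompact (tsupport (fl g)) := hasCompactSupport_fl hg.1
        have hOS : tsupport (fl g) ⊆ S := (In_fl.2 hg).2.2
        have hcc : In (cc (tsupport (fl g))) (fl G) := by
          refine ⟨isTest_fl G, hasCompactSupport_fl hGc, fun x hx y hy => ?_⟩
          have h2 := hSK (hOS hy) x (by rw [← hG]; exact hx)
          rw [mdot_symm'] at h2
          exact h2
        have s1 := fun i => hSep _ hOS (fl G) hG.le i
        rw [← h.com a b _ _ _ _ v hp hO hL hcc (s1 0) (s1 1),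
          ← h.com a' b' _ _ _ _ v hp' hO hL hcc (s1 2) (s1 3), h1]
    have hcs : HasCompactSupport (conjS F) := by
      have h1 : HasCompactSupport (bar (fl F)) := by
        rw [HasCompactSupport, tsupport_bar]
        exact hK
      rw [bar_fl] at h1
      exact hasCompactSupport_of_fl h1
    have hts : tsupport (fl (conjS F)) = tsupport (fl F) := by
      rw [← bar_fl, tsupport_bar]
    refine (dense_big (Q := Q) hS).eq_of_inner_left ℂ fun w hw => ?_
    have hw' : PW Q (MW S) w := hw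
    rw [h.adj _ _ _ _ _ hp (isTest_fl F), h.adj _ _ _ _ _ hp' (isTest_fl F), bar_fl,
      step _ hts hcs w hw']
  obtain ⟨F, rfl⟩ := exists_fl hf
  obtain ⟨g, hg, hlim⟩ := exists_compact_seq F
  have h1 := ((h.contf hp v).tendsto F).comp hlim
  have h2 := ((h.contf hp' v).tendsto F).comp hlim
  have e : ((fun g : 𝓢(Mink, ℂ) => Z a b (fl g) v) ∘ g) =
      (fun g : 𝓢(Mink, ℂ) => Z a' b' (fl g) v) ∘ g := by
    funext n
    exact key _ (hg n)
  rw [e] at h1
  exact tendsto_nhds_unique h1 h2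

/-- locality in opposite wedges -/
lemma WFam.wedge (h : WFam Q Z) {B B' : GF.Fld D} (hB : RelF Q B B') {a b : V} (hp : NPr a b)
    {θ φ : ℝ} {c : V} {f g : 𝓢(Mink, ℂ)} (hf : IsTest (MW (Wed (Rt θ φ) c 1)) f)
    (hg : IsTest (MW (Wed (Rt θ φ) c (-1))) g) (v : D) :
    Z a b (fl f) (B (fl g) v) = B (fl g) (Z a b (fl f) v) := by
  rw [h.agree hp (npr_w θ φ) (isTest_fl f), h.agree hp (npr_w θ φ) (isTest_fl f)]
  have hO : IsCompact (tsupport (fl g)) := hasCompactSupport_fl hg.1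
  have hf' := (In_fl.2 hf).2.2
  have hg' := (In_fl.2 hg).2.2
  have hcc : In (cc (tsupport (fl g))) (fl f) :=
    ⟨isTest_fl f, hasCompactSupport_fl hf.1,
      cc_of_sep (sep_fl (wed_sep (isLor_Rt θ φ) c hf hg))⟩
  have hn := npr_w θ φ
  have hs : ∀ b x : V, GF.mdot b (x - c) = GF.mdot b x - GF.mdot b c := by
    intro b x
    have : x = (x - c) + c := by abel
    have h2 : GF.mdot b x = GF.mdot b (x - c) + GF.mdot b c := by
      conv_lhs => rw [this]
      rw [mdot_comm'', mdot_add_left', mdot_comm'' _ b, mdot_comm'' _ b]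
    linarith
  have k1 : tsupport (fl f) ⊆ Wdg (wa θ φ) (wb θ φ) c := by
    intro x hx
    have h1 := (mem_Wed_Rt θ φ c 1 x).1 (hf' hx)
    rw [one_mul, nd_sub] at h1
    refine ⟨?_, ?_⟩
    · rw [hs, mdot_wa, mdot_wa]
      have := (abs_lt.1 h1).2
      linarith
    · rw [hs, mdot_wb, mdot_wb]
      have := (abs_lt.1 h1).1
      linarith
  have k2 : tsupport (fl g) ⊆ Wdg (wb θ φ) (wa θ φ) c := by
    intro y hy
    have h1 := (mem_Wed_Rt θ φ c (-1) y).1 (hg' hy)
    rw [nd_sub] at h1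
    refine ⟨?_, ?_⟩
    · rw [hs, mdot_wb, mdot_wb]
      have := (abs_lt.1 h1).2
      linarith
    · rw [hs, mdot_wa, mdot_wa]
      have := (abs_lt.1 h1).1
      linarith
  refine (h.com _ _ _ _ _ _ v hn hO (hB.locOp (isTest_fl g)) hcc ?_ ?_).symm
  · exact ⟨wb θ φ, c, hn.2.1, by rw [hn.2.2]; norm_num, Or.inl ⟨k1, k2⟩⟩
  · exact ⟨wa θ φ, c, hn.1, by rw [mdot_comm'', hn.2.2]; norm_num, Or.inr ⟨k1, k2⟩⟩

lemma WFam.relz (h : WFam Q Z) {B B' : GF.Fld D} (hB : RelF Q B B') (f : 𝓢(Mink, ℂ)) {a b : V}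
    (hp : NPr a b) : Z a b (fl f) 0 = 0 := by
  have h1 := h.smulv hp (isTest_fl f) 0 0
  rwa [zero_smul, zero_smul] at h1

/-- locality for test functions with compact support -/
lemma WFam.loc_comp (h : WFam Q Z) {B B' : GF.Fld D} (hB : RelF Q B B') {a b : V}
    (hp : NPr a b) {f g : 𝓢(Mink, ℂ)} (hf : IsTest Set.univ f) (hg : IsTest Set.univ g)
    (hs : SpSep f g) (v : D) : Z a b (fl f) (B (fl g) v) = B (fl g) (Z a b (fl f) v) := by
  have step : ∀ x ∈ tsupport f, ∃ U, IsOpen U ∧ x ∈ U ∧ ∀ f', IsTest U f' →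
      Z a b (fl f') (B (fl g) v) = B (fl g) (Z a b (fl f') v) := by
    intro x hx
    obtain ⟨U, hU, hKU, h1⟩ := part_induct (P := fun g' => ∃ U, IsOpen U ∧ x ∈ U ∧
      ∀ f', IsTest U f' → Z a b (fl f') (B (fl g') v) = B (fl g') (Z a b (fl f') v))
      (by
        refine ⟨Set.univ, isOpen_univ, trivial, fun f' hf' => ?_⟩
        rw [hB.zerof, hB.zerof, h.relz hB f' hp])
      (by
        rintro g1 g2 _ _ ⟨U1, hU1, hx1, h1⟩ ⟨U2, hU2, hx2, h2⟩
        refine ⟨U1 ∩ U2, hU1.inter hU2, ⟨hx1, hx2⟩, fun f' hf' => ?_⟩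
        have e1 := h1 f' ⟨hf'.1, hf'.2.trans Set.inter_subset_left⟩
        have e2 := h2 f' ⟨hf'.1, hf'.2.trans Set.inter_subset_right⟩
        rw [hB.addf, hB.addf, h.addv hp (isTest_fl f'), e1, e2])
      hg.1.isCompact
      (by
        intro y hy
        obtain ⟨θ, φ, c, hxa, hya⟩ := exists_sep (hs x hx y hy)
        exact ⟨_, isOpen_Wed_Rt θ φ c (-1), hya, fun g' hg' => ⟨_, isOpen_Wed_Rt θ φ c 1, hxa,
          fun f' hf' => h.wedge hB hp hf' hg' v⟩⟩)
    exact h1 g ⟨hg.1, hKU⟩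
  obtain ⟨U, hU, hKU, h1⟩ := part_induct (P := fun f' =>
      Z a b (fl f') (B (fl g) v) = B (fl g) (Z a b (fl f') v))
    (by rw [h.zerof hp, h.zerof hp, hB.mapz])
    (by
      rintro f1 f2 _ _ e1 e2
      rw [h.addf hp, h.addf hp, hB.mapa, e1, e2])
    hf.1.isCompact
    (by
      intro x hx
      exact step x hx)
  exact h1 f ⟨hf.1, hKU⟩

/-- locality -/
theorem WFam.locB (h : WFam Q Z) {B B' : GF.Fld D} (hB : RelF Q B B') {a b : V}
    (hp : NPr a b) {f g : Fn} (hf : GF.IsTest f) (hg : GF.IsTest g)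
    (hs : GF.Sep f g) (v : D) : Z a b f (B g v) = B g (Z a b f v) := by
  obtain ⟨F, rfl⟩ := exists_fl hf
  obtain ⟨G, rfl⟩ := exists_fl hg
  have hs' := spSep_of hs
  obtain ⟨u, hu, hus, hlim⟩ := exists_compact_sup F
  obtain ⟨w, hw, hws, hlim'⟩ := exists_compact_sup G
  have hc : ∀ n m, Z a b (fl (u n)) (B (fl (w m)) v) = B (fl (w m)) (Z a b (fl (u n)) v) :=
    fun n m => h.loc_comp hB hp ⟨hu n, Set.subset_univ _⟩ ⟨hw m, Set.subset_univ _⟩
      (fun x hx y hy => hs' x (hus n hx) y (hws m hy)) v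
  -- the second test function
  have h2 : ∀ n, Z a b (fl (u n)) (B (fl G) v) = B (fl G) (Z a b (fl (u n)) v) := by
    intro n
    refine ext_inner_right ℂ fun z => ?_
    have l1 : Tendsto (fun m => inner ℂ (Z a b (fl (u n)) (B (fl (w m)) v)) z) atTop
        (𝓝 (inner ℂ (Z a b (fl (u n)) (B (fl G) v)) z)) := by
      simp only [h.adj _ _ _ _ _ hp (isTest_fl (u n))]
      exact (((hB.contf v).tendsto G).comp hlim').inner tendsto_const_nhds
    have l2 : Tendsto (fun m => inner ℂ (B (fl (w m)) (Z a b (fl (u n)) v)) z) atTop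
        (𝓝 (inner ℂ (B (fl G) (Z a b (fl (u n)) v)) z)) :=
      (((hB.contf _).tendsto G).comp hlim').inner tendsto_const_nhds
    simp only [hc n] at l1
    exact tendsto_nhds_unique l1 l2
  refine ext_inner_right ℂ fun z => ?_
  have l1 : Tendsto (fun n => inner ℂ (Z a b (fl (u n)) (B (fl G) v)) z) atTop
      (𝓝 (inner ℂ (Z a b (fl F) (B (fl G) v)) z)) :=
    (((h.contf hp _).tendsto F).comp hlim).inner tendsto_const_nhds
  have l2 : Tendsto (fun n => inner ℂ (B (fl G) (Z a b (fl (u n)) v)) z) atTop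
      (𝓝 (inner ℂ (B (fl G) (Z a b (fl F) v)) z)) := by
    simp only [hB.adj _ _ _ (isTest_fl G)]
    exact (((h.contf hp _).tendsto F).comp hlim).inner tendsto_const_nhds
  simp only [h2] at l1
  exact tendsto_nhds_unique l1 l2

/-- locality relative to the fields -/
theorem WFam.loc_fld (h : WFam Q Z) {a b : V} (hp : NPr a b) {B : GF.Fld D} (hB : Q.fld B)
    {f g : Fn} (hf : GF.IsTest f) (hg : GF.IsTest g) (hs : GF.Sep f g) (v : D) :
    Z a b f (B g v) = B g (Z a b f v) := by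
  obtain ⟨B', hB', hadj⟩ := Q.adj B hB
  exact h.locB (relF_fld hB hB' hadj) hp hf hg hs v

/-- the family is an admissible operator valued distribution -/
lemma WFam.relF (h : WFam Q Z) {a b : V} (hp : NPr a b) : RelF Q (Z a b) (Z a b) where
  lin := fun f g c v hf hg => h.lin a b f g c v hp hf hg
  cont := fun v => h.cont a b v hp
  adj := fun f v w hf => h.adj a b f v w hp hf
  loc := fun A f g v hA hf hg hs =>
    (h.loc_fld hp (Q.bose_fld A hA) hg hf (sep_comm hs) v).symm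
  loc' := fun A f g v hA hf hg hs =>
    (h.loc_fld hp (Q.bose_fld A hA) hg hf (sep_comm hs) v).symm

/-- the family is local -/
theorem WFam.loc_self (h : WFam Q Z) {a b : V} (hp : NPr a b) {f g : Fn} (hf : GF.IsTest f)
    (hg : GF.IsTest g) (hs : GF.Sep f g) (v : D) :
    Z a b f (Z a b g v) = Z a b g (Z a b f v) :=
  h.locB (h.relF hp) hp hf hg hs v

lemma WFam.comm_al (h : WFam Q Z) {a b : V} (hp : NPr a b) {W : Set V} {f : 𝓢(Mink, ℂ)}
    (hsep : ∀ G, IsTest (MW W) G → SpSep f G) {X X' : D → D} (hX : Al Q W X X') :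
    ∀ v, Z a b (fl f) (X v) = X (Z a b (fl f) v) := by
  induction hX with
  | one => intro v; rfl
  | add X X' Y Y' _ _ ih1 ih2 => intro v; rw [h.addv hp (isTest_fl f), ih1, ih2]
  | smul c X X' _ ih => intro v; rw [h.smulv hp (isTest_fl f), ih]
  | fld B B' g X X' hB hB' hadj hg _ ih =>
    intro v
    obtain ⟨G, rfl, hG⟩ := exists_In hg
    rw [h.loc_fld hp hB (isTest_fl _) (isTest_fl _) (sep_fl (hsep G hG)), ih]

/-- the trace identity -/
theorem WFam.trace (h : WFam Q Z) {T : Ix → Ix → GF.Fld D} (hT : Q.IsStress T) {a b : V}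
    (hp : NPr a b)
    (hv : ∀ f, GF.IsTest f → GF.tr T f Q.vac = (3 : ℂ) • Z a b (box f) Q.vac)
    {f : Fn} (hf : GF.IsTest f) (v : D) : GF.tr T f v = (3 : ℂ) • Z a b (box f) v := by
  have hA := PField.tr hT
  have hz2 : ∀ (f : 𝓢(Mink, ℂ)) (v : D),
      GF.tr T (fl f) v - (3 : ℂ) • Z a b (fl (boxS f)) v = 0 := by
    intro f v
    refine van (Q := Q) (B := fun f v => GF.tr T (fl f) v - (3 : ℂ) • Z a b (fl (boxS f)) v)
      (B' := fun f v => GF.tr T (fl f) v - (3 : ℂ) • Z a b (fl (boxS f)) v) ?_ ?_ ?_ ?_ f v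
    · intro f v w
      rw [inner_sub_left, inner_sub_right, inner_smul_left, inner_smul_right, hA.herm,
        h.adj _ _ _ _ _ hp (isTest_fl _), bar_fl, conjS_boxS, map_ofNat]
    · intro f c X X' hf hX
      rw [h.comm_al hp (fun G hG => wed_sep (isLor_Rt 0 0) c (isTest_box hf) hG) hX,
        hX.comm hA (fun G hG => wed_sep (isLor_Rt 0 0) c hf hG)]
      have := (hX.map_add (GF.tr T (fl f) Q.vac)
        ((-1 : ℂ) • ((3 : ℂ) • Z a b (fl (boxS f)) Q.vac)))
      rw [hX.map_smul, hX.map_smul, neg_one_smul, neg_one_smul, ← sub_eq_add_neg,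
        ← sub_eq_add_neg] at this
      exact this.symm
    · intro f hf'
      rw [sub_eq_zero]
      have h1 := hv (fl f) (isTest_fl _)
      rwa [box_fl] at h1
    · intro v
      exact (hA.cont v).sub (((h.contf hp v).comp continuous_boxS).const_smul (3 : ℂ))
  obtain ⟨F, rfl⟩ := exists_fl hf
  rw [box_fl]
  exact sub_eq_zero.1 (hz2 F v)

end Vale.Agent.P352.ND
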