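import Vale.Agent.P352.NC.E1

/-!
# P352 ND: second derivatives of matrix elements of translated operators
-/

set_option linter.all false

noncomputable section

open MeasureTheory Filter Topology SchwartzMap Complex Asymptotics
open scoped SchwartzMap ComplexConjugate ContDiff LineDeriv

namespace Vale.Agent.P352.ND

open GF (Ix V Fn Fld Theory Sch IsLor bas o sim pd tr ev bar)
open H246 H496 H755 H15 H846 H246R H746 N86 NC
open UniformSpace (Completion)

variable {D : Type*} [NormedAddCommGroup D] [InnerProductSpace ℂ D]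
variable {Q : GF.Theory D} {T : Ix → Ix → GF.Fld D}
variable {A : (V → V) → D → D}

/-- the matrix elements of `U(-s y) B U(s y)` -/
def FF (Q : GF.Theory D) (B : D → D) (y : V) (w v : D) (s : ℝ) : ℂ :=
  inner ℂ (Q.U 1 GF.one (s • y) w) (B (Q.U 1 GF.one (s • y) v))

/-- the second derivative at zero -/
def SD (A : (V → V) → D → D) (B : D → D) (y : V) (w v : D) : ℂ :=
  -inner ℂ (A (fun _ => y) (A (fun _ => y) w)) (B v) +
    2 * inner ℂ (A (fun _ => y) w) (B (A (fun _ => y) v)) -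
    inner ℂ w (B (A (fun _ => y) (A (fun _ => y) v)))

lemma x3_U0 (y : V) (v : D) : Q.U 1 GF.one ((0 : ℝ) • y) v = v := by
  rw [zero_smul]
  exact Uone v

lemma FF_zero (B : D → D) (y : V) (w v : D) : FF Q B y w v 0 = inner ℂ w (B v) := by
  unfold FF
  rw [x3_U0, x3_U0]

section

variable (R : H15.Rep Q A) {B : D → D} (hsym : ∀ v w, inner ℂ (B v) w = inner ℂ v (B w)) {y : V}
  (hbd : ∀ v, ∃ C : ℝ, ∀ t : ℝ, |t| ≤ 1 → ‖B (Q.U 1 GF.one (t • y) v)‖ ≤ C)
include R hsym hbd

lemma FF_der0 (v w : D) : HasDerivAt (FF Q B y w v)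
    (inner ℂ (I • A (fun _ => y) w) (B v) + inner ℂ (B w) (I • A (fun _ => y) v)) 0 := by
  obtain ⟨C, hC⟩ := hbd v
  set P := A (fun _ => y) with hP
  have hPs : ∀ v w, inner ℂ (P v) w = inner ℂ v (P w) := fun v w => A_symm R (const_sim y) v w
  have dw := e1_der R y w
  have dv := e1_der R y v
  set E : ℝ → ℂ := fun h => inner ℂ (Q.U 1 GF.one (h • y) w - w - h • (I • P w))
    (B (Q.U 1 GF.one (h • y) v)) with hE
  set m : ℝ → ℂ := fun h => inner ℂ (B (I • P w)) (Q.U 1 GF.one (h • y) v) with hm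
  set n : ℝ → ℂ := fun h => inner ℂ (B w) (Q.U 1 GF.one (h • y) v) with hn
  have hsplit : FF Q B y w v = fun h => (E h + (h : ℂ) * m h) + n h := by
    funext h
    simp only [FF, hE, hm, hn]
    rw [hsym, hsym, inner_sub_left, inner_sub_left]
    have e : (h • (I • P w) : D) = (h : ℂ) • (I • P w) := (Complex.coe_smul h _).symm
    rw [e, inner_smul_left, Complex.conj_ofReal]
    ring
  have dm : HasDerivAt m (inner ℂ (B (I • P w)) (I • P v)) 0 :=
    ((innerSL ℂ (B (I • P w))).restrictScalars ℝ).hasFDerivAt.comp_hasDerivAt (0 : ℝ) dv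
  have dn : HasDerivAt n (inner ℂ (B w) (I • P v)) 0 :=
    ((innerSL ℂ (B w)).restrictScalars ℝ).hasFDerivAt.comp_hasDerivAt (0 : ℝ) dv
  have dhm : HasDerivAt (fun h : ℝ => (h : ℂ) * m h) (m 0) 0 := by
    have h1 : HasDerivAt (fun h : ℝ => (h : ℂ)) 1 0 := Complex.ofRealCLM.hasDerivAt
    have h2 := h1.mul dm
    refine h2.congr_deriv ?_
    simp
  have dE : HasDerivAt E 0 0 := by
    rw [hasDerivAt_iff_isLittleO_nhds_zero]
    have h1 := (hasDerivAt_iff_isLittleO_nhds_zero.1 dw)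
    simp only [zero_add, x3_U0] at h1
    simp only [zero_add, smul_zero, sub_zero]
    have hE0 : E 0 = 0 := by
      simp only [hE]
      rw [x3_U0, zero_smul, sub_zero, sub_self, inner_zero_left]
    rw [hE0]
    simp only [sub_zero]
    have h2 : E =O[𝓝 0] fun h : ℝ => Q.U 1 GF.one (h • y) w - w - h • (I • P w) := by
      refine IsBigO.of_bound C ?_
      have h3 : ∀ᶠ h : ℝ in 𝓝 0, |h| ≤ 1 := by
        filter_upwards [Metric.closedBall_mem_nhds (0:ℝ) one_pos] with h hh
        simpa [Real.dist_eq] using hh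
      filter_upwards [h3] with h hh
      have h4 := norm_inner_le_norm (𝕜 := ℂ) (Q.U 1 GF.one (h • y) w - w - h • (I • P w))
        (B (Q.U 1 GF.one (h • y) v))
      refine h4.trans ?_
      rw [mul_comm]
      exact mul_le_mul_of_nonneg_right (hC h hh) (norm_nonneg _)
    exact h2.trans_isLittleO h1
  rw [hsplit]
  have h3 := (dE.add dhm).add dn
  refine h3.congr_deriv ?_
  simp only [hm]
  rw [x3_U0, hsym, zero_add]

lemma FF_der (v w : D) (s : ℝ) : HasDerivAt (FF Q B y w v)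
    (-I * FF Q B y (A (fun _ => y) w) v s + I * FF Q B y w (A (fun _ => y) v) s) s := by
  have h1 := FF_der0 R hsym hbd (Q.U 1 GF.one (s • y) v) (Q.U 1 GF.one (s • y) w)
  have h2 : HasDerivAt (FF Q B y (Q.U 1 GF.one (s • y) w) (Q.U 1 GF.one (s • y) v))
      (inner ℂ (I • A (fun _ => y) (Q.U 1 GF.one (s • y) w)) (B (Q.U 1 GF.one (s • y) v)) +
        inner ℂ (B (Q.U 1 GF.one (s • y) w)) (I • A (fun _ => y) (Q.U 1 GF.one (s • y) v)))
      (s - s) := by
    rw [sub_self]
    exact h1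
  have h3 := h2.comp_sub_const s s
  have e : (fun x : ℝ => FF Q B y (Q.U 1 GF.one (s • y) w) (Q.U 1 GF.one (s • y) v) (x - s)) =
      FF Q B y w v := by
    funext x
    unfold FF
    rw [Uadd1, Uadd1, ← add_smul, sub_add_cancel]
  rw [e] at h3
  refine h3.congr_deriv ?_
  unfold FF
  rw [e1_PU R, e1_PU R, inner_smul_left, inner_smul_right, hsym]
  simp only [Complex.conj_I]

/-- the second derivative -/
lemma FF_der2 (v w : D) (s : ℝ) : HasDerivAt (fun s =>
    -I * FF Q B y (A (fun _ => y) w) v s + I * FF Q B y w (A (fun _ => y) v) s)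
    (-FF Q B y (A (fun _ => y) (A (fun _ => y) w)) v s +
      2 * FF Q B y (A (fun _ => y) w) (A (fun _ => y) v) s -
        FF Q B y w (A (fun _ => y) (A (fun _ => y) v)) s) s := by
  have h1 := (FF_der R hsym hbd v (A (fun _ => y) w) s).const_mul (-I)
  have h2 := (FF_der R hsym hbd (A (fun _ => y) v) w s).const_mul I
  refine (h1.add h2).congr_deriv ?_
  have hI : I * I = -1 := I_mul_I
  linear_combination (FF Q B y (A (fun _ => y) (A (fun _ => y) w)) v s -
    2 * FF Q B y (A (fun _ => y) w) (A (fun _ => y) v) s +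
    FF Q B y w (A (fun _ => y) (A (fun _ => y) v)) s) * hI

/-- if a combination of four matrix elements vanishes near zero, so does the combination of the
second derivatives -/
lemma SD_zero {v1 v2 v3 v4 w1 w2 w3 w4 : D} (h : ∀ᶠ s in 𝓝 (0 : ℝ), FF Q B y w1 v1 s -
    FF Q B y w2 v2 s - (FF Q B y w3 v3 s - FF Q B y w4 v4 s) = 0) :
    SD A B y w1 v1 - SD A B y w2 v2 - (SD A B y w3 v3 - SD A B y w4 v4) = 0 := by
  have hSD : ∀ v w, SD A B y w v = -FF Q B y (A (fun _ => y) (A (fun _ => y) w)) v 0 +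
      2 * FF Q B y (A (fun _ => y) w) (A (fun _ => y) v) 0 -
        FF Q B y w (A (fun _ => y) (A (fun _ => y) v)) 0 := by
    intro v w
    unfold SD
    rw [FF_zero, FF_zero, FF_zero]
  set g : ℝ → ℂ := fun s => FF Q B y w1 v1 s - FF Q B y w2 v2 s -
    (FF Q B y w3 v3 s - FF Q B y w4 v4 s) with hg
  set d : D → D → ℝ → ℂ := fun w v s =>
    -I * FF Q B y (A (fun _ => y) w) v s + I * FF Q B y w (A (fun _ => y) v) s with hd
  have h1 : ∀ s, HasDerivAt g (d w1 v1 s - d w2 v2 s - (d w3 v3 s - d w4 v4 s)) s := fun s =>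
    ((FF_der R hsym hbd v1 w1 s).sub (FF_der R hsym hbd v2 w2 s)).sub
      ((FF_der R hsym hbd v3 w3 s).sub (FF_der R hsym hbd v4 w4 s))
  have h2 : HasDerivAt (fun s => d w1 v1 s - d w2 v2 s - (d w3 v3 s - d w4 v4 s))
      (SD A B y w1 v1 - SD A B y w2 v2 - (SD A B y w3 v3 - SD A B y w4 v4)) 0 := by
    rw [hSD, hSD, hSD, hSD]
    exact ((FF_der2 R hsym hbd v1 w1 0).sub (FF_der2 R hsym hbd v2 w2 0)).sub
      ((FF_der2 R hsym hbd v3 w3 0).sub (FF_der2 R hsym hbd v4 w4 0))
  have h3 : g =ᶠ[𝓝 0] fun _ => (0 : ℂ) := h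
  have h4 := h3.deriv
  have h5 : deriv g = fun s => d w1 v1 s - d w2 v2 s - (d w3 v3 s - d w4 v4 s) :=
    funext fun s => (h1 s).deriv
  rw [h5] at h4
  have h6 := h4.deriv_eq
  rw [h2.deriv] at h6
  rw [h6]
  simp

end

end Vale.Agent.P352.ND

end
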