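import Vale.Agent.P352.ND.X3a
import Vale.Agent.P352.NF.F1
import Vale.Agent.P352.NF.F2

/-!
# P352 ND: the second derivative of the generators commutes with the fields off the plane
-/

set_option linter.all false

noncomputable section

open MeasureTheory Filter Topology SchwartzMap Complex Set
open scoped SchwartzMap ComplexConjugate ContDiff LineDeriv

namespace Vale.Agent.P352.ND

open GF (Ix V Fn Fld Theory Sch IsLor bas o sim pd tr ev bar)
open H246 H496 H755 H15 H846 H246R H746 N86 NC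
open UniformSpace (Completion)

variable {D : Type*} [NormedAddCommGroup D] [InnerProductSpace ℂ D]
variable {Q : GF.Theory D} {T : Ix → Ix → GF.Fld D}
variable {A : (V → V) → D → D} {K : V → D → D}

/-- the translated operators -/
def Kx (Q : GF.Theory D) (K : V → D → D) (a x : V) (v : D) : D :=
  Q.U 1 GF.one x (K a (Q.U 1 GF.one (-x) v))

/-- **Net locality** of the operators `K a`: the commutator with a field smeared in a wedge that
is bounded by the null plane commutes with the fields in the opposite wedge. -/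
def NetL (Q : GF.Theory D) (K : V → D → D) (φ : GF.Fld D) : Prop :=
  ∀ (a c x y : V) (f : Fn) (X X' : D → D) (v : D), IsNull a → IsNull c → 0 < GF.mdot a c →
    GF.mdot a y = GF.mdot a x →
    ((In (Wdg a c y) f ∧ Al Q (Wdg c a y) X X') ∨ (In (Wdg c a y) f ∧ Al Q (Wdg a c y) X X')) →
    Kx Q K a x (φ f (X v)) - φ f (Kx Q K a x (X v)) = X (Kx Q K a x (φ f v) - φ f (Kx Q K a x v))

section

variable (R : H15.Rep Q A) {a : V} (hsym : ∀ v w, inner ℂ (K a v) w = inner ℂ v (K a w))
  (hbd : ∀ (x v), ∃ C : ℝ, ∀ t : ℝ, |t| ≤ 1 → ‖K a (Q.U 1 GF.one (t • x) v)‖ ≤ C)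
include R hsym

lemma SD_Xi' (x : V) (v w : D) : SD A (K a) (-x) w v =
    inner ℂ w (Xi A K a x v) + 2 * inner ℂ w (A (fun _ => cK a x) v) := by
  have hPs : ∀ v w, inner ℂ (A (fun _ => x) v) w = inner ℂ v (A (fun _ => x) w) := fun v w =>
    A_symm R (const_sim x) v w
  have hneg : ∀ v, A (fun _ => -x) v = -A (fun _ => x) v := by
    intro v
    have h1 := e1_smulv R (-1) x v
    rw [neg_one_smul] at h1
    rw [h1]
    push_cast
    rw [neg_one_smul]
  have hKn : ∀ v, K a (-v) = -K a v := by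
    intro v
    rw [← neg_one_smul ℂ v, ← neg_one_smul ℂ (K a v)]
    exact Adj.smul hsym (-1) v
  have hPn : ∀ v, A (fun _ => x) (-v) = -A (fun _ => x) v := by
    intro v
    rw [← neg_one_smul ℂ v, ← neg_one_smul ℂ (A (fun _ => x) v)]
    exact e1_smul R (const_sim x) (-1) v
  unfold SD Xi NC.Pg
  simp only [hneg, hPn, neg_neg, hKn, inner_neg_left, inner_neg_right, inner_sub_right,
    inner_smul_right, hPs]
  ring

lemma inner_Kx (x : V) (v w : D) (t : ℝ) :
    inner ℂ w (Kx Q K a (t • x) v) = FF Q (K a) (-x) w v t := by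
  unfold Kx FF
  rw [smul_neg, inner_U1]

include hbd

/-- the core of the argument -/
lemma off_core (ha : IsNull a) {c : V} (hcn : IsNull c) (hac : GF.mdot a c = 1)
    {φ : GF.Fld D} (hφ : Q.bose φ)
    (hherm : ∀ f v w, GF.IsTest f → inner ℂ (φ f v) w = inner ℂ v (φ (bar f) w))
    (hG : NF.GenLoc Q A φ) {f : Fn} (hf : GF.IsTest f) {W : Set V} (hW : Big (MW W))
    (hsep : ∀ z ∈ tsupport f, ∀ y ∈ W, GF.mdot (z - y) (z - y) < 0) {x : V}
    (hloc : ∀ᶠ t in 𝓝 (0 : ℝ), ∀ X X', Al Q W X X' →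
      Kx Q K a (t • x) (φ (bar f) (X Q.vac)) - φ (bar f) (Kx Q K a (t • x) (X Q.vac)) =
        X (Kx Q K a (t • x) (φ (bar f) Q.vac) - φ (bar f) (Kx Q K a (t • x) Q.vac)))
    (hXs : ∀ v w, inner ℂ (Xi A K a x v) w = inner ℂ v (Xi A K a x w))
    (h0 : Xi A K a x Q.vac = 0) (h1 : Xi A K a x (φ (bar f) Q.vac) = 0) (v : D) :
    Xi A K a x (φ f v) = φ f (Xi A K a x v) := by
  have hts : tsupport (bar f) = tsupport f := H246.tsupport_bar f
  have hfb := isTest_bar hf
  have hbb : bar (bar f) = f := by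
    funext z
    simp [bar]
  rw [← sub_eq_zero]
  refine dens_eq (Q := Q) ha hcn hac hW fun Y Y' hY => ?_
  have e : ∀ u z, inner ℂ u (φ (bar f) z) = inner ℂ (φ f u) z := by
    intro u z
    rw [← inner_conj_symm, hherm (bar f) z u hfb, inner_conj_symm, hbb]
  -- the second derivative of the double commutator
  have hz : ∀ w : D, inner ℂ w (Xi A K a x (φ (bar f) (Y Q.vac))) =
      inner ℂ (φ f w) (Xi A K a x (Y Q.vac)) := by
    intro w
    have k1 := SD_zero R hsym (hbd (-x)) (v1 := φ (bar f) (Y Q.vac)) (v2 := Y Q.vac)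
      (v3 := φ (bar f) Q.vac) (v4 := Q.vac) (w1 := w) (w2 := φ f w) (w3 := Y' w)
      (w4 := φ f (Y' w)) (by
        filter_upwards [hloc] with t ht
        have h2 := ht Y Y' hY
        have h3 := congrArg (fun z => inner ℂ w z) h2
        simp only [inner_sub_right] at h3
        rw [← hY.adj', inner_sub_right, e, e] at h3
        simp only [inner_Kx R hsym] at h3
        rw [h3, sub_self])
    simp only [SD_Xi' R hsym] at k1
    -- the part of the translations
    have k2 := hG 0 (fun _ => cK a x) (const_sim _) (bar f) hfb W (by rw [hts]; exact hsep)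
      Y Y' hY Q.vac
    have k3 := congrArg (fun z => inner ℂ w z) k2
    simp only [inner_sub_right] at k3
    rw [← hY.adj', inner_sub_right, e, e] at k3
    rw [h0, h1, inner_zero_right, inner_zero_right] at k1
    linear_combination k1 - 2 * k3
  have k4 := hz v
  rw [← hXs, e, ← hXs] at k4
  rw [← inner_conj_symm, inner_sub_left, k4, sub_self, map_zero]

end

/-- fields localized in a half space commute with `Xi` -/
theorem off_plane (R : H15.Rep Q A) {a : V} (ha : IsNull a)
    (hsym : ∀ v w, inner ℂ (K a v) w = inner ℂ v (K a w))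
    (hbd : ∀ (x v), ∃ C : ℝ, ∀ t : ℝ, |t| ≤ 1 → ‖K a (Q.U 1 GF.one (t • x) v)‖ ≤ C)
    {φ : GF.Fld D} (hφ : Q.bose φ) (hL : NetL Q K φ)
    (hherm : ∀ f v w, GF.IsTest f → inner ℂ (φ f v) w = inner ℂ v (φ (bar f) w))
    (hG : NF.GenLoc Q A φ) {x : V}
    (hXs : ∀ v w, inner ℂ (Xi A K a x v) w = inner ℂ v (Xi A K a x w))
    (h0 : Xi A K a x Q.vac = 0)
    (h1 : ∀ f, GF.IsTest f → HasCompactSupport f → Xi A K a x (φ f Q.vac) = 0)
    {f : Fn} (hf : GF.IsTest f) (hc : HasCompactSupport f)
    (hs : (∀ z ∈ tsupport f, GF.mdot a z < 0) ∨ ∀ z ∈ tsupport f, 0 < GF.mdot a z) (v : D) :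
    Xi A K a x (φ f v) = φ f (Xi A K a x v) := by
  obtain ⟨c, hcn, hac⟩ := H755.exists_dual ha
  have hca : GF.mdot c a = 1 := by rw [md_comm]; exact hac
  have hcta := (H846.contDiff_mdot a).continuous
  have hctc := (H846.contDiff_mdot c).continuous
  have hts : tsupport (bar f) = tsupport f := H246.tsupport_bar f
  have hcb : HasCompactSupport (bar f) := by
    show IsCompact (tsupport (bar f))
    rw [hts]
    exact hc
  -- bounds
  obtain ⟨B0, hB0⟩ : ∃ B0, ∀ z ∈ tsupport f, |GF.mdot c z| ≤ B0 := by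
    have h3 : IsCompact ((fun z : V => |GF.mdot c z|) '' tsupport f) :=
      IsCompact.image hc hctc.abs
    obtain ⟨B, hB⟩ := h3.bddAbove
    exact ⟨B, fun z hz => hB ⟨z, hz, rfl⟩⟩
  obtain ⟨δ, hδ, hδ1⟩ : ∃ δ : ℝ, 0 < δ ∧ ((∀ z ∈ tsupport f, GF.mdot a z < -δ) ∨
      ∀ z ∈ tsupport f, δ < GF.mdot a z) := by
    by_cases hne : (tsupport f).Nonempty
    · rcases hs with hs | hs
      · obtain ⟨z, hz, hmax⟩ := IsCompact.exists_isMaxOn (s := tsupport f) hc hne
          (f := fun z : V => GF.mdot a z) hcta.continuousOn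
        refine ⟨-GF.mdot a z / 2, by linarith [hs z hz], Or.inl fun y hy => ?_⟩
        have h3 : GF.mdot a y ≤ GF.mdot a z := hmax hy
        linarith [hs z hz]
      · obtain ⟨z, hz, hmin⟩ := IsCompact.exists_isMinOn (s := tsupport f) hc hne
          (f := fun z : V => GF.mdot a z) hcta.continuousOn
        refine ⟨GF.mdot a z / 2, by linarith [hs z hz], Or.inr fun y hy => ?_⟩
        have h3 : GF.mdot a z ≤ GF.mdot a y := hmin hy
        linarith [hs z hz]
    · exact ⟨1, one_pos, Or.inl fun z hz => (hne ⟨z, hz⟩).elim⟩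
  set p : ℝ := |GF.mdot a x| with hp
  set q : ℝ := |GF.mdot c x| with hq
  have hp0 : 0 ≤ p := abs_nonneg _
  have hq0 : 0 ≤ q := abs_nonneg _
  set l : ℝ := B0 + q + 1 with hl
  have hsmall : ∀ᶠ t in 𝓝 (0 : ℝ), |t| ≤ 1 ∧ |t| * p < δ := by
    have h3 : Tendsto (fun t : ℝ => |t|) (𝓝 0) (𝓝 0) := by
      simpa using (continuous_abs.tendsto (0 : ℝ))
    have h4 : Tendsto (fun t : ℝ => |t| * p) (𝓝 0) (𝓝 0) := by
      simpa using h3.mul_const p
    exact (h3.eventually (Iic_mem_nhds one_pos)).and (h4.eventually (Iio_mem_nhds hδ))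
  rcases hδ1 with hδ1 | hδ1
  · refine off_core R hsym hbd ha hcn hac hφ hherm hG hf
      (W := {y : V | p + 1 < GF.mdot a y ∧ GF.mdot c y < -l - q - 1}) ?_ ?_ ?_ hXs h0
      (h1 _ (isTest_bar hf) hcb) v
    · refine big_two (c := c - a) one_pos one_pos ?_ ?_
      · rw [md_sub, hac, ha.1, sub_zero]
      · rw [md_sub, hca, hcn.1, zero_sub]
    · intro z hz y hy
      exact sep_mp ha hcn hac (by linarith [hδ1 z hz, hy.1])
        (by linarith [(abs_le.1 (hB0 z hz)).1, hy.2])
    · filter_upwards [hsmall] with t ht X X' hX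
      have hta : |t * GF.mdot a x| < δ := by rw [abs_mul]; exact ht.2
      have hta1 : |t * GF.mdot a x| ≤ p := by
        rw [abs_mul]
        exact mul_le_of_le_one_left hp0 ht.1
      have htc1 : |t * GF.mdot c x| ≤ q := by
        rw [abs_mul]
        exact mul_le_of_le_one_left hq0 ht.1
      have ea : GF.mdot a ((-l) • a + t • x) = t * GF.mdot a x := by
        rw [md_add, md_smul, md_smul, ha.1]; ring
      have ec : GF.mdot c ((-l) • a + t • x) = -l + t * GF.mdot c x := by
        rw [md_add, md_smul, md_smul, hca]; ring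
      refine hL a c (t • x) ((-l) • a + t • x) (bar f) X X' Q.vac ha hcn
        (by rw [hac]; exact one_pos) (by rw [ea, md_smul]) (Or.inl ⟨⟨isTest_bar hf, hcb, ?_⟩, ?_⟩)
      · rw [hts]
        intro z hz
        refine ⟨?_, ?_⟩
        · rw [md_sub, ea]
          linarith [hδ1 z hz, (abs_lt.1 hta).1]
        · rw [md_sub, ec]
          linarith [(abs_le.1 (hB0 z hz)).1, (abs_le.1 htc1).2]
      · refine hX.mono fun y hy => ⟨?_, ?_⟩
        · rw [md_sub, ec]
          linarith [hy.2, (abs_le.1 htc1).1]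
        · rw [md_sub, ea]
          linarith [hy.1, (abs_le.1 hta1).2]
  · refine off_core R hsym hbd ha hcn hac hφ hherm hG hf
      (W := {y : V | l + q + 1 < GF.mdot c y ∧ GF.mdot a y < -p - 1}) ?_ ?_ ?_ hXs h0
      (h1 _ (isTest_bar hf) hcb) v
    · refine big_two (c := a - c) one_pos one_pos ?_ ?_
      · rw [md_sub, hca, hcn.1, sub_zero]
      · rw [md_sub, hac, ha.1, zero_sub]
    · intro z hz y hy
      exact sep_pm ha hcn hac (by linarith [hδ1 z hz, hy.2])
        (by linarith [(abs_le.1 (hB0 z hz)).2, hy.1])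
    · filter_upwards [hsmall] with t ht X X' hX
      have hta : |t * GF.mdot a x| < δ := by rw [abs_mul]; exact ht.2
      have hta1 : |t * GF.mdot a x| ≤ p := by
        rw [abs_mul]
        exact mul_le_of_le_one_left hp0 ht.1
      have htc1 : |t * GF.mdot c x| ≤ q := by
        rw [abs_mul]
        exact mul_le_of_le_one_left hq0 ht.1
      have ea : GF.mdot a (l • a + t • x) = t * GF.mdot a x := by
        rw [md_add, md_smul, md_smul, ha.1]; ring
      have ec : GF.mdot c (l • a + t • x) = l + t * GF.mdot c x := by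
        rw [md_add, md_smul, md_smul, hca]; ring
      refine hL a c (t • x) (l • a + t • x) (bar f) X X' Q.vac ha hcn
        (by rw [hac]; exact one_pos) (by rw [ea, md_smul]) (Or.inr ⟨⟨isTest_bar hf, hcb, ?_⟩, ?_⟩)
      · rw [hts]
        intro z hz
        refine ⟨?_, ?_⟩
        · rw [md_sub, ec]
          linarith [(abs_le.1 (hB0 z hz)).2, (abs_le.1 htc1).1]
        · rw [md_sub, ea]
          linarith [hδ1 z hz, (abs_lt.1 hta).2]
      · refine hX.mono fun y hy => ⟨?_, ?_⟩
        · rw [md_sub, ea]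
          linarith [hy.2, (abs_le.1 hta1).1]
        · rw [md_sub, ec]
          linarith [hy.1, (abs_le.1 htc1).2]

end Vale.Agent.P352.ND

end
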