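import Vale.Agent.P352.ND.X3b
import Vale.Agent.P352.H496.Base

/-!
# P352 ND: commutation with the fields off a closed set without interior implies commutation
-/

set_option linter.all false

noncomputable section

open MeasureTheory Filter Topology SchwartzMap Complex Set
open scoped SchwartzMap ComplexConjugate ContDiff LineDeriv

namespace Vale.Agent.P352.ND

open GF (Ix V Fn Fld Theory Sch IsLor bas o sim pd tr ev bar)
open H246 H496 H755 H15 H846 H246R H746 N86 NC
open UniformSpace (Completion)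

variable {D : Type*} [NormedAddCommGroup D] [InnerProductSpace ℂ D]
variable {Q : GF.Theory D} {T : Ix → Ix → GF.Fld D}
variable {A : (V → V) → D → D} {K : V → D → D}

section

variable {φ : GF.Fld D} (hφ : Q.bose φ)
    (hherm : ∀ f v w, GF.IsTest f → inner ℂ (φ f v) w = inner ℂ v (φ (bar f) w))
    {l : D → ℂ} (hl : ∀ (F : 𝓢(Mink, ℂ)) v, inner ℂ (φ (fl F) Q.vac) v =
        ∫ x : Mink, conj (F x) * l (U1 Q (-x) v))
    (hlc : ∀ v, Continuous fun x : Mink => l (U1 Q (-x) v))
    {B : D → D} (hB : ∀ v w, inner ℂ (B v) w = inner ℂ v (B w))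
include hφ hherm hl hlc hB

/-- the matrix elements of the commutator as an integral -/
lemma mel {F : 𝓢(Mink, ℂ)} (hF : HasCompactSupport F) {W : Set V}
    (hsep : ∀ z ∈ tsupport (fl F), ∀ y ∈ W, GF.mdot (z - y) (z - y) < 0)
    {X X' Y Y' : D → D} (hX : Al Q W X X') (hY : Al Q W Y Y') :
    inner ℂ (Y Q.vac) (B (φ (fl F) (X Q.vac)) - φ (fl F) (B (X Q.vac))) =
      ∫ x : Mink, F x * (conj (l (U1 Q (-x) (X' (B (Y Q.vac))))) -
        l (U1 Q (-x) (Y' (B (X Q.vac))))) := by
  have hsep' : ∀ z ∈ tsupport (fl (conjS F)), ∀ y ∈ W, GF.mdot (z - y) (z - y) < 0 := by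
    rw [← bar_fl, H246.tsupport_bar]
    exact hsep
  have e1 : inner ℂ (Y Q.vac) (B (φ (fl F) (X Q.vac))) =
      ∫ x : Mink, F x * conj (l (U1 Q (-x) (X' (B (Y Q.vac))))) := by
    rw [← hB, bose_al hφ (isTest_fl F) hsep hX, ← hX.adj', ← inner_conj_symm, hl,
      ← integral_conj]
    congr 1
    funext x
    simp
  have e2 : inner ℂ (Y Q.vac) (φ (fl F) (B (X Q.vac))) =
      ∫ x : Mink, F x * l (U1 Q (-x) (Y' (B (X Q.vac)))) := by
    have h1 : inner ℂ (Y Q.vac) (φ (fl F) (B (X Q.vac))) =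
        inner ℂ (φ (fl (conjS F)) (Y Q.vac)) (B (X Q.vac)) := by
      rw [hherm _ _ _ (isTest_fl _), ← bar_fl]
      congr 2
      funext z
      simp [bar]
    rw [h1, bose_al hφ (isTest_fl _) hsep' hY, hY.adj, hl]
    congr 1
    funext x
    simp
  rw [inner_sub_right, e1, e2, ← integral_sub]
  · congr 1
    funext x
    ring
  · exact ((F.continuous.mul (continuous_conj.comp (hlc _))).integrable_of_hasCompactSupport
      hF.mul_right)
  · exact ((F.continuous.mul (hlc _)).integrable_of_hasCompactSupport hF.mul_right)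

/-- **A symmetric operator that commutes with the field smeared with test functions supported in
open sets with a dense union commutes with the field.** -/
theorem on_plane {ι : Type*} {U : ι → Set Mink} (hU : ∀ i, IsOpen (U i))
    (hd : Dense (⋃ i, U i))
    (hc : ∀ i (F : 𝓢(Mink, ℂ)), IsTest (U i) F → ∀ v, B (φ (fl F) v) = φ (fl F) (B v))
    {f : Fn} (hf : GF.IsTest f) (hcf : HasCompactSupport f) (v : D) :
    B (φ f v) = φ f (B v) := by
  obtain ⟨a, ha⟩ : ∃ a : V, IsNull a := ⟨nu 1, isNull_nu (Or.inl rfl)⟩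
  obtain ⟨c, hcn, hac⟩ := H755.exists_dual ha
  have hca : GF.mdot c a = 1 := by rw [md_comm]; exact hac
  have hcta := (H846.contDiff_mdot a).continuous
  have hctc := (H846.contDiff_mdot c).continuous
  obtain ⟨M, hM⟩ : ∃ M, ∀ z ∈ tsupport f, |GF.mdot a z| ≤ M ∧ |GF.mdot c z| ≤ M := by
    have h3 : IsCompact ((fun z : V => |GF.mdot a z|) '' tsupport f) :=
      IsCompact.image hcf hcta.abs
    have h4 : IsCompact ((fun z : V => |GF.mdot c z|) '' tsupport f) :=
      IsCompact.image hcf hctc.abs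
    obtain ⟨B1, hB1⟩ := h3.bddAbove
    obtain ⟨B2, hB2⟩ := h4.bddAbove
    exact ⟨max B1 B2, fun z hz => ⟨(hB1 ⟨z, hz, rfl⟩).trans (le_max_left _ _),
      (hB2 ⟨z, hz, rfl⟩).trans (le_max_right _ _)⟩⟩
  set N : Set V := {z | |GF.mdot a z| < M + 1 ∧ |GF.mdot c z| < M + 1} with hN
  set W : Set V := {y | M + 2 < GF.mdot a y ∧ GF.mdot c y < -M - 2} with hW
  have hNo : IsOpen (MW N) := by
    have h5 : Continuous fun x : Mink => x.ofLp := PiLp.continuous_ofLp 2 _
    exact (isOpen_lt (hcta.comp h5).abs continuous_const).inter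
      (isOpen_lt (hctc.comp h5).abs continuous_const)
  have hWb : Big (MW W) := by
    refine big_two (c := c - a) one_pos one_pos ?_ ?_
    · rw [md_sub, hac, ha.1, sub_zero]
    · rw [md_sub, hca, hcn.1, zero_sub]
  have hNW : ∀ z ∈ N, ∀ y ∈ W, GF.mdot (z - y) (z - y) < 0 := by
    intro z hz y hy
    exact sep_mp ha hcn hac (by linarith [(abs_lt.1 hz.1).2, hy.1])
      (by linarith [(abs_lt.1 hz.2).1, hy.2])
  -- the kernel vanishes on `N`
  have key : ∀ {X X' Y Y' : D → D}, Al Q W X X' → Al Q W Y Y' → ∀ x ∈ MW N,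
      conj (l (U1 Q (-x) (X' (B (Y Q.vac))))) - l (U1 Q (-x) (Y' (B (X Q.vac)))) = 0 := by
    intro X X' Y Y' hX hY
    set k : Mink → ℂ := fun x =>
      conj (l (U1 Q (-x) (X' (B (Y Q.vac))))) - l (U1 Q (-x) (Y' (B (X Q.vac)))) with hk
    have hkc : Continuous k := (continuous_conj.comp (hlc _)).sub (hlc _)
    have h1 : ∀ i, ∀ x ∈ U i ∩ MW N, k x = 0 := by
      intro i
      refine fund ((hU i).inter hNo) hkc fun F hF => ?_
      have h2 : In N (fl F) := In_fl.2 ⟨hF.1, hF.2.trans inter_subset_right⟩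
      rw [← mel hφ hherm hl hlc hB hF.1 (fun z hz => hNW z (h2.2.2 hz)) hX hY,
        hc i F ⟨hF.1, hF.2.trans inter_subset_left⟩, sub_self, inner_zero_right]
    intro x hx
    have h3 : x ∈ closure ((⋃ i, U i) ∩ MW N) := by
      have h4 := hd.open_subset_closure_inter hNo hx
      rwa [inter_comm] at h4
    have h5 : (⋃ i, U i) ∩ MW N ⊆ {x | k x = 0} := by
      rintro y ⟨hy1, hy2⟩
      obtain ⟨i, hi⟩ := mem_iUnion.1 hy1
      exact h1 i y ⟨hi, hy2⟩
    exact closure_minimal h5 (isClosed_eq hkc continuous_const) h3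
  -- test functions supported in `N`
  have key2 : ∀ g, In N g → ∀ {X X' : D → D}, Al Q W X X' →
      B (φ g (X Q.vac)) = φ g (B (X Q.vac)) := by
    intro g hg X X' hX
    obtain ⟨G, rfl⟩ := exists_fl hg.1
    have hG := In_fl.1 hg
    rw [← sub_eq_zero]
    refine dens_eq (Q := Q) ha hcn hac hWb fun Y Y' hY => ?_
    rw [mel hφ hherm hl hlc hB hG.1 (fun z hz => hNW z (hg.2.2 hz)) hX hY]
    refine (integral_congr_ae (Eventually.of_forall fun x => ?_)).trans (integral_zero _ _)
    by_cases hx : x ∈ tsupport G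
    · rw [key hX hY x (hG.2 hx), mul_zero]
    · rw [image_eq_zero_of_notMem_tsupport hx, zero_mul]
  have hfN : In N f := ⟨hf, hcf, fun z hz => ⟨by linarith [(hM z hz).1], by linarith [(hM z hz).2]⟩⟩
  have hbN : In N (bar f) := by
    refine ⟨isTest_bar hf, ?_, ?_⟩
    · show IsCompact (tsupport (bar f))
      rw [H246.tsupport_bar]
      exact hcf
    · rw [H246.tsupport_bar]
      exact hfN.2.2
  have hbb : bar (bar f) = f := by
    funext z
    simp [bar]
  rw [← sub_eq_zero]
  refine dens_eq (Q := Q) ha hcn hac hWb fun Y Y' hY => ?_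
  have h6 := key2 _ hbN hY
  have h7 : inner ℂ (Y Q.vac) (B (φ f v)) = inner ℂ (φ (bar f) (B (Y Q.vac))) v := by
    rw [← hB, hherm (bar f) _ _ hbN.1, hbb]
  have h8 : inner ℂ (Y Q.vac) (φ f (B v)) = inner ℂ (B (φ (bar f) (Y Q.vac))) v := by
    rw [hB, hherm (bar f) _ _ hbN.1, hbb]
  rw [inner_sub_right, h7, h8, h6, sub_self]

end

end Vale.Agent.P352.ND

end
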