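import Vale.Agent.P352.ND.X3c
import Vale.Agent.P352.ND.X0
import Vale.Agent.P352.H834.NL
import Vale.Agent.P352.NF.E11
import Vale.Agent.P352.NC.E13a

/-!
# P352 ND, step (3): the second derivative `Xi` of the generators commutes with the stress tensor
-/

set_option linter.all false

noncomputable section

open MeasureTheory Filter Topology SchwartzMap Complex Set
open scoped SchwartzMap ComplexConjugate ContDiff LineDeriv

namespace Vale.Agent.P352.ND

open GF (Ix V Fn Fld Theory Sch IsLor bas o sim pd tr ev bar)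
open H246 H496 H755 H15 H846 H246R H746 N86 NC
open UniformSpace (Completion)

variable {D : Type*} [NormedAddCommGroup D] [InnerProductSpace ℂ D]
variable {Q : GF.Theory D} {T : Ix → Ix → GF.Fld D} {J : Ix → GF.Fld D}
variable {A : (V → V) → D → D} {K G : V → D → D}
variable {H : D → D} {alg : Set V → Set (D → D)} {S : V → ℝ → D → D}

/-- the polynomials in the fields are in the algebra of the net -/
lemma x3_mem (N : CNet Q H alg S) {W : Set V} {X X' : D → D} (hX : Al Q W X X') : X ∈ alg W := by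
  induction hX with
  | one => exact N.one W
  | add X X' Y Y' _ _ h1 h2 => exact N.add W X h1 Y h2
  | smul c X X' _ h => exact N.smul W c X h
  | fld A B g X X' hA hB hAB hg _ h => exact N.mul W (A g) (N.fld W A g hA hg) X h

/-- the generators of the null deformations are net local -/
theorem netL_of (N : CNet Q H alg S) (Gg : Gnr Q alg S G) {φ : GF.Fld D} (hφ : Q.fld φ) :
    NetL Q G φ := by
  intro a c x y f X X' v ha hc hac hy h
  rcases h with ⟨hf, hX⟩ | ⟨hf, hX⟩
  · exact H834.net_comm N Gg ha hc hac hy (N.fld _ φ f hφ hf) (x3_mem N hX) v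
  · exact H834.net_comm' N Gg ha hc hac hy (N.fld _ φ f hφ hf) (x3_mem N hX) v

/-- the generators of the null deformations are bounded on the translates of a vector -/
theorem lb_of (N : CNet Q H alg S) (Gg : Gnr Q alg S G) : LB Q G :=
  fun a v ha => N.transl_bdd (G a) (Gg.mem a ha) v

lemma bdd_of (hl : LB Q K) {a : V} (ha : IsNull a) (x : V) (v : D) :
    ∃ C : ℝ, ∀ t : ℝ, |t| ≤ 1 → ‖K a (Q.U 1 GF.one (t • x) v)‖ ≤ C := by
  obtain ⟨C, m, h⟩ := hl a v ha
  refine ⟨|C| * (1 + ‖x‖) ^ m, fun t ht => (h _).trans ?_⟩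
  have h1 : ‖t • x‖ ≤ ‖x‖ := by
    rw [norm_smul, Real.norm_eq_abs]
    exact mul_le_of_le_one_left (norm_nonneg _) ht
  exact mul_le_mul (le_abs_self C) (pow_le_pow_left₀ (by positivity) (by linarith) m)
    (by positivity) (abs_nonneg _)

lemma x3_vac (hT : Q.IsStress T) (h : NF.KS Q A K) {a : V} (ha : IsNull a) (x : V) :
    Xi A K a x Q.vac = 0 := by
  have R := h.toRep
  have h0 : ∀ {r : ℝ} {X : V → V}, IsSim r X → A X (0 : D) = 0 := by
    intro r X hX
    have := e1_smul R hX 0 (0 : D)
    simpa using this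
  have hK0 : K a 0 = 0 := by
    have h1 : Adj (K a) (K a) := fun v w => h.symm a v w ha
    have := h1.smul 0 (0 : D)
    simpa using this
  unfold Xi NC.Pg
  simp only [NF.f2_Kvac hT h ha, H746.A_vac R (const_sim _), h0 (const_sim _), hK0, smul_zero,
    sub_zero, add_zero]

lemma isOpen_md {a : V} : IsOpen {z : Mink | GF.mdot a z.ofLp < 0} ∧
    IsOpen {z : Mink | 0 < GF.mdot a z.ofLp} := by
  have h5 : Continuous fun x : Mink => x.ofLp := PiLp.continuous_ofLp 2 _
  have h6 := (H846.contDiff_mdot a).continuous.comp h5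
  exact ⟨isOpen_lt h6 continuous_const, isOpen_lt continuous_const h6⟩

lemma dense_off {a : V} (ha : IsNull a) : Dense (⋃ i : Bool,
    (if i then {z : Mink | GF.mdot a z.ofLp < 0} else {z : Mink | 0 < GF.mdot a z.ofLp})) := by
  obtain ⟨c, hcn, hac⟩ := H755.exists_dual ha
  intro z
  rw [mem_closure_iff_nhds]
  intro t ht
  have hcont : Continuous fun s : ℝ => z + s • (WithLp.toLp 2 c : Mink) := by fun_prop
  have h1 : ∀ᶠ s : ℝ in 𝓝 0, z + s • (WithLp.toLp 2 c : Mink) ∈ t := by
    have h2 := hcont.tendsto 0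
    rw [zero_smul, add_zero] at h2
    exact h2 ht
  obtain ⟨ε, hε, h3⟩ := Metric.eventually_nhds_iff.1 h1
  have key : ∀ s : ℝ, GF.mdot a (z + s • (WithLp.toLp 2 c : Mink)).ofLp =
      GF.mdot a z.ofLp + s := by
    intro s
    have e : (z + s • (WithLp.toLp 2 c : Mink)).ofLp = z.ofLp + s • c := rfl
    rw [e, md_add, md_smul, hac, mul_one]
  rcases lt_or_ge (GF.mdot a z.ofLp) 0 with h4 | h4
  · refine ⟨z, ?_, mem_iUnion.2 ⟨true, by simpa using h4⟩⟩
    have := h3 (y := 0) (by simpa using hε)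
    simpa using this
  · refine ⟨z + (ε / 2) • (WithLp.toLp 2 c : Mink), h3 ?_, mem_iUnion.2 ⟨false, ?_⟩⟩
    · rw [Real.dist_eq, sub_zero, abs_of_pos (by positivity)]
      linarith
    · have : 0 < GF.mdot a (z + (ε / 2) • (WithLp.toLp 2 c : Mink)).ofLp := by
        rw [key]; linarith
      simpa using this

/-- **Step (3)**: `Xi` commutes with the stress tensor -/
theorem xi_T_of (hT : Q.IsStress T) (h : NF.KS Q A K) (hl : LB Q K)
    (hL : ∀ m n, NetL Q K (T m n)) {a : V} (ha : IsNull a) (x : V)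
    (h1 : ∀ m n f, GF.IsTest f → HasCompactSupport f → Xi A K a x (T m n f Q.vac) = 0)
    (m n : Ix) (f : Fn) (v : D) (hf : GF.IsTest f) (hc : HasCompactSupport f) :
    Xi A K a x (T m n f v) = T m n f (Xi A K a x v) := by
  have R := h.toRep
  obtain ⟨lt, htr, htc, -⟩ := pv_T (A := A) hT R
  have hsX := NF.Xi_symm hT h ha x
  have hherm : ∀ f v w, GF.IsTest f → inner ℂ (T m n f v) w = inner ℂ v (T m n (bar f) w) :=
    fun f v w hf => hT.herm m n f v w hf
  refine on_plane (hT.bose m n) hherm (htr m n) (htc m n) hsX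
    (U := fun i : Bool => if i then {z : Mink | GF.mdot a z.ofLp < 0}
      else {z : Mink | 0 < GF.mdot a z.ofLp}) ?_ (dense_off ha) ?_ hf hc v
  · intro i
    cases i
    · exact isOpen_md.2
    · exact isOpen_md.1
  · intro i F hF u
    refine off_plane R ha (fun v w => h.symm a v w ha) (bdd_of hl ha) (hT.bose m n) (hL m n)
      hherm (NF.gl_T R hT m n) hsX (x3_vac hT h ha x) (h1 m n) (isTest_fl F) ?_ ?_ u
    · have h2 : In univ (fl F) := In_fl.2 ⟨hF.1, fun z _ => mem_univ _⟩
      exact h2.2.1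
    · cases i
      · right
        have h2 : In {z | 0 < GF.mdot a z} (fl F) := In_fl.2 ⟨hF.1, fun z hz => by
          simpa [MW] using hF.2 hz⟩
        exact fun z hz => h2.2.2 hz
      · left
        have h2 : In {z | GF.mdot a z < 0} (fl F) := In_fl.2 ⟨hF.1, fun z hz => by
          simpa [MW] using hF.2 hz⟩
        exact fun z hz => h2.2.2 hz

/-- `Xi` annihilates the vectors `T(f) Ω` -/
lemma xi_single (hT : Q.IsStress T) (hJ : IsVirial Q T J) (h : NF.KS Q A K) {a : V}
    (ha : IsNull a) (x : V) (m n : Ix) (f : Fn) (hf : GF.IsTest f) :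
    Xi A K a x (T m n f Q.vac) = 0 := by
  obtain ⟨F, rfl⟩ := exists_fl hf
  rw [← e13_single hT m n F]
  exact NF.Xi_zero hT hJ h ha x _

/-- **Step (3)** for the generators of the null deformations -/
theorem xiT (hT : Q.IsStress T) (hJ : IsVirial Q T J) (N : CNet Q H alg S)
    (Gg : Gnr Q alg S G) (h : NF.KS Q A G) {a : V} (ha : IsNull a) (x : V)
    (m n : Ix) (f : Fn) (v : D) (hf : GF.IsTest f) (hc : HasCompactSupport f) :
    Xi A G a x (T m n f v) = T m n f (Xi A G a x v) :=
  xi_T_of hT h (lb_of N Gg) (fun m n => netL_of N Gg (Q.bose_fld _ (hT.bose m n))) ha x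
    (fun m n f hf _ => xi_single hT hJ h ha x m n f hf) m n f v hf hc

end Vale.Agent.P352.ND

end
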